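import Vale.Agent.P022G.Rows
import Vale.Agent.P022G.Tw.Crv

/-!
# P022G, row COBJ
-/

set_option linter.all false

noncomputable section

namespace Vale.Agent.P022G

open MvPowerSeries
open Vale.Agent.P022 Vale.Agent.P022G.R Vale.Agent.P022G.Loc Vale.Agent.P022G.Tw
open Vale.Agent.P027M.S (mx)
open Vale.Agent.P022D.Sel (M2)

theorem cobjC : COBJ := by
  intro O F _ _ _ _ _ _ _ ϖ S L X as β τ ι' _ _ _ K ι _ G hϖ hC hK V _ _ _ _ _ _ t j ρ θ ht hc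
  have hL := hC.cx.ok
  have hj : ∀ c, S.red c = 0 → j c = 0 := fun c h => j_zero j ((hL.ker c).1 h)
  refine ⟨fun f hf => krull ht.not_isUnit fun N => ?_,
    fun r q τ' hq θ0 h0 f hf => krull ht.not_isUnit fun N => ?_⟩
  · obtain ⟨A, _, u, ι0, π, H⟩ := ex_sb t j N S.red hL.ker ht.not_isUnit (fin_tI ht _)
    obtain ⟨Y, rfl, rfl, -, -, hρ, hY⟩ := crv_obj hL hj hc H
    have e : u.comp Y.ι = (Ideal.Quotient.mk _).comp j := RingHom.ext H.cst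
    obtain ⟨ψ, h1, h2⟩ := H.cor hj (sv G.rc Y.ι fun i => Y.ρ (G.γ i))
      (sv_res _ _ _ _ fun i a b => ent_res hL.lift Y _ a b) θ hc.hm.c fun s => by
        rw [hc.hm.x, sv_map, sv_map, e]
        simp only [hρ]
    rw [← h2, hf A _ _ ψ ⟨Y, hY, rfl, rfl⟩ h1, map_zero]
  · obtain ⟨A, _, u, ι0, π, H⟩ := ex_sb t j N S.red hL.ker ht.not_isUnit (fin_tI ht _)
    obtain ⟨Y, rfl, rfl, hα, hβ, hρ, hY⟩ := crv_obj hL hj hc H
    have e : u.comp Y.ι = (Ideal.Quotient.mk _).comp j := RingHom.ext H.cst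
    have hτ : ∀ i, ρ (τ' i) = 1 := fun i => by
      obtain ⟨h1, P, h2, h3⟩ := hq i
      exact crv_unr ht.not_isUnit hc h1 h2 h3.1
    have hτ' : ∀ i, mx S.rb (τ' i) = 1 := fun i => by
      obtain ⟨h1, P, h2, h3⟩ := hq i
      rw [← Y.res, hY.2 _ h2.1 h1 (Finset.notMem_empty _) P h2.2.1 h2.2.2 _ h3.1,
        P022D.R.map_one']
    obtain ⟨ψ, h1, h2⟩ := H.cor hj (v0 K G r Y.ι Y.ρ Y.α Y.β τ')
      (v0_res K G r hL.lift Y (hK.loc.res A Y hY.1) τ' hτ') θ0 h0.c fun s => by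
        rw [h0.x, v0_congr K G r j (fun g => (ρ g : M2 V)) _ _ (τ'' := τ')
          (fun i => by rw [hτ, map_one]), v0_map, v0_map, e]
        simp only [hρ, hα, hβ, P022D.R.map_one']
    rw [← h2, hf A _ _ ψ ⟨Y, ⟨hY.1, hY.2.mono (Finset.empty_subset _)⟩, rfl, rfl⟩ h1, map_zero]

end Vale.Agent.P022G
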