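import Vale.Agent.P022G.Rows
import Vale.Agent.P022G.Crv.Main
import Vale.Agent.P022G.Crv.Det1

/-!
P022G: row CRV.
-/

set_option linter.all false

noncomputable section

namespace Vale.Agent.P022G

open IsLocalRing MvPowerSeries
open Vale.Agent.P022D.Core (Coef)

theorem crv : CRV := by
  intro O F _ _ _ hO _ _ _ ϖ S L X as β τ ι' _ _ _ K ι _ G hϖ hC hK p hp ha hπ
  have := hO.cpl
  obtain ⟨V, _, _, _, _, t, j, ρ, θ, h1, h2, h3, h4, -, h5⟩ := Crv.crv0 G hC.cx.ok
    (fun Γ _ η => Crv.det1 hC.cx.ok η) hK.dec p hp.1 ha (fun o ho => by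
      rw [hϖ.maximalIdeal_eq, Ideal.mem_span_singleton] at ho
      obtain ⟨c, rfl⟩ := ho
      rw [map_mul]
      exact Ideal.mul_mem_right _ _ hπ) hp.2
  exact ⟨V, inferInstance, inferInstance, inferInstance, inferInstance, h2, h3, t, j, ρ, θ, h1, h5,
    h4⟩

end Vale.Agent.P022G
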