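import Vale.Agent.P022G.Rw.Pcex
import Vale.Agent.P022D.Fm.Unit
import Vale.Agent.P022D.Sel.Odd

/-!
# P022G, row PCEX: the auxiliary primes
-/

set_option linter.all false

noncomputable section

namespace Vale.Agent.P022G

open NumberField IsLocalRing MvPowerSeries Filter
open Vale.Agent.P022 Vale.Agent.P022G.R Vale.Agent.P022G.Loc
open Vale.Agent.P027M.S (Inert mx)
open Vale.Agent.P022D.Sel (M2 Ginf)
open Vale.Agent.P022D.Core (PS io y1 Coef)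
open Vale.Agent.P022E.Loc (Pl)
open Vale.Agent.P022E.GW (Ov Gn)
open _root_.P022G.Sel (tI rd mr AuxR)

theorem Exq.inj {r : ℕ} (p : Fin r → ℕ → Prop) (h : ∀ i (A : Finset ℕ), ∃ q, q ∉ A ∧ p i q) :
    ∃ q : Fin r → ℕ, Function.Injective q ∧ ∀ i, p i (q i) := by
  classical
  induction r with
  | zero => exact ⟨Fin.elim0, fun a => a.elim0, fun a => a.elim0⟩
  | succ r ih =>
    obtain ⟨q, h1, h2⟩ := ih (fun i => p i.succ) fun i => h i.succ
    obtain ⟨a, h3, h4⟩ := h 0 (Finset.univ.image q)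
    refine ⟨Fin.cons a q, Fin.cons_injective_iff.2 ⟨?_, h1⟩, Fin.cases h4 h2⟩
    rintro ⟨i, rfl⟩
    exact h3 (Finset.mem_image_of_mem _ (Finset.mem_univ i))

theorem exqC : EXQ := by
  intro O F _ _ _ _ _ _ _ ϖ S L X as β τ ι' _ _ _ K ι _ G hϖ hC hK V _ _ _ _ _ t j ρ θ ht hc hN r sg
    U hU T₁ hs n A
  classical
  obtain ⟨W, hW, hc2⟩ := P022D.Sel.cong n
  refine Exq.inj (fun i q => Ar S (A ∪ S.T) n q ∧ AuxR ρ U T₁ (sg i) q) fun i B => ?_
  obtain ⟨q, hq, h1, φ, m, h2, h3, h4, h5⟩ := _root_.P022G.Sel.auxrC V t ρ S.T L.D ht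
    (Tw.fin_tI ht 1) hN (U ⊓ W) (B ∪ (A ∪ S.T) ∪ T₁) (sg i) (hU.inter hW) (hs i).2
  simp only [Finset.mem_union, not_or] at h1
  obtain ⟨k1, k2⟩ := hc2 q m (sg i) φ hq (fun e => h1.1.2.2 (e ▸ (hN.lv 1).h2)) (hs i).1 h2 h4.2
  refine ⟨q, h1.1.1, ⟨hq, fun h => (Finset.mem_union.1 h).elim h1.1.2.1 h1.1.2.2, k1, k2,
    fun φ' h' h0 => ?_⟩, hq, h1.2, φ, m, h2, h3, h4.1, h5⟩
  have e := (P022D.Fm.frob_tr ((Units.coeHom _).comp ρ) hq (fun g ⟨P, a, b, c⟩ => by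
    have := Tw.crv_unr ht.not_isUnit hc h1.1.2.2 ⟨hq, a, b⟩ c
    exact congrArg Units.val this) h2 h').1
  have e1 : j (L.r φ').trace = 0 := Tw.j_zero j ((hC.cx.ok.ker _).1 (by
    rw [← hC.cx.ok.lift φ'] at h0
    simpa [Matrix.trace_fin_two] using h0))
  have e2 : t ∣ (mr ρ φ').trace - j (L.r φ').trace := by
    have := dvd_add (hc.res φ' 0 0) (hc.res φ' 1 1)
    rw [Matrix.trace_fin_two, Matrix.trace_fin_two, map_add]
    convert this using 1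
    ring
  rw [e1, sub_zero] at e2
  exact ht.not_isUnit (isUnit_of_dvd_unit (e2.trans (dvd_of_eq e.symm)) h5)

/-- **row PCEX** -/
theorem pcex2C (hT : TANV2) (hL : LAM) : PCEX2 := pcex_of exqC hT hL

end Vale.Agent.P022G
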