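import Vale.Agent.P022G.Rows2
import Vale.Agent.P022G.Rw.Patch0

/-!
# P022G: the data at a curve together with the modules of all levels
-/

set_option linter.all false

noncomputable section

namespace Vale.Agent.P022G

open NumberField IsLocalRing MvPowerSeries
open Vale.Agent.P022 Vale.Agent.P022G.R Vale.Agent.P022G.Loc Vale.Agent.P022G.Pt
open Vale.Agent.P027M.S (mx)
open Vale.Agent.P022D.Core (PS io y1 Coef)
open Vale.Agent.P022E.Loc (Pl)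
open Vale.Agent.P022E.As (Tg Lv2)
open Vale.Agent.P022G.Chain (Pd)
open Vale.Agent.P022G.Ps (HD3 Ps2)

/-- the data at a curve and the modules of level `Y.q n`, for any set of places `L'` -/
def CPK : Prop := All fun O F _ _ _ _ _ _ _ ϖ S L X as β τ ι' _ _ _ K ι _ G => Ex K S X →
  ∀ (L' : Pl O) (Sf : P022D.R.Dat O F) (I : Type) (Y0 : I → Type) (W0 : Type)
    [∀ i, AddCommGroup (Y0 i)] [∀ i, Module (Tg O) (Y0 i)] [AddCommGroup W0] [Module (Tg O) W0]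
    (ses : I → I → I → Prop) (ig ib : I) (iJ : Finset L'.C → I), Sf.T ⊆ S.T →
    (∀ g, (mx Sf.rb g).trace = (mx S.rb g).trace) → HD3 ϖ Sf L' Y0 W0 ses ig ib iJ →
    ∀ p : Ideal (PS O (Sy ι)), Chain.Cv p → G.aP ≤ p → C ϖ ∈ p →
      (∀ h : as ∈ L.C, G.fr ⟨as, h⟩ ∈ p) →
      ∃ (r s : ℕ) (V : Type) (_ : CommRing V) (_ : IsDomain V) (_ : IsDiscreteValuationRing V)
        (_ : CharP V 2) (_ : IsAdicComplete (maximalIdeal V) V) (_ : Finite (ResidueField V))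
        (Y : Pc (S := S) (ι := ι) K r s V), Irreducible Y.t ∧ Y.G' = G ∧ Y.Ok ∧
        RingHom.ker Y.θA = p ∧
        ∃ (b : I → ℕ) (c : ℕ) (φ : ℕ → Fin r → GQ) (Yb : ℕ → I → Type) (Wc : ℕ → Type)
          (Pb : ℕ → L'.C → Type) (_ : ∀ n i, AddCommGroup (Yb n i))
          (_ : ∀ n i, Module (Tg O) (Yb n i)) (_ : ∀ n, AddCommGroup (Wc n))
          (_ : ∀ n, Module (Tg O) (Wc n)) (_ : ∀ n a, AddCommGroup (Pb n a))
          (_ : ∀ n a, Module (Tg O) (Pb n a)),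
          (∀ n, Lv2 ϖ Sf L' Y0 W0 ses ig iJ b c n (Y.q n) (Y.τq n) (φ n) (Yb n) (Wc n)) ∧
          (∀ n (a : L'.C), 4 ∣ (a : ℕ) - 1 → L'.r (L'.τ a) = 1 →
            Ps2 ϖ Sf L' n (Y.q n) (Y.τq n) (L'.τ a) (Yb n ib) (Pb n a)) ∧
          (∀ n i, Ar S S.T (n + 1) (Y.q n i)) ∧ ∀ n i, (mx S.rb (φ n i)).trace ≠ 0

theorem Ar.mono {O F : Type} [CommRing O] [Field F] {S : Dat O F} {A A' : Finset ℕ} {n n' q : ℕ}
    (h : Ar S A n q) (hA : A' ⊆ A) (hn : n' ≤ n) : Ar S A' n' q where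
  prime := h.prime
  out := fun c => h.out (hA c)
  one := (pow_dvd_pow 2 hn).trans h.one
  two := by
    obtain ⟨z, hz⟩ := h.two
    obtain ⟨k, rfl⟩ := Nat.exists_eq_add_of_le hn
    exact ⟨z ^ 2 ^ k, by rw [← pow_mul, ← pow_add, add_comm k, hz]⟩
  reg := h.reg

theorem cpkC (h1 : CRV) (h2 : NICE) (h3 : PCEX2) : CPK := by
  intro O F _ _ _ _ _ _ _ ϖ S L X as β τ ι' _ _ _ K ι _ G hϖ hC hK hE L' Sf I Y0 W0 _ _ _ _ ses ig ib
    iJ e1 e2 hD p hp a1 a2 a3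
  obtain ⟨V, _, _, _, _, _, _, t, j, ρ, θ, ht, hc, rfl⟩ :=
    h1 O F ϖ S L X as β τ ι' K ι G hϖ hC hK p hp a1 a2
  obtain ⟨n1, n2, n3⟩ := h2 O F ϖ S L X as β τ ι' K ι G hϖ hC hK V t j ρ θ ht hc hp a3
  obtain ⟨r, hr⟩ := h3 O F ϖ S L X as β τ ι' K ι G hϖ hC hK hE V t j ρ θ ht hc n1 n2 n3
  obtain ⟨b, c, n₀, A, hl⟩ := hD.lev r
  obtain ⟨q, hq, hY⟩ := hr (n₀ + 1) A
  have hA : ∀ n i, P022D.As.Aq Sf.rb (A ∪ Sf.T) (n + n₀) (q n i) := fun n i => by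
    have h := ((hq n).2 i).mono (Finset.union_subset_union_right e1) (by omega : n + n₀ ≤ _)
    refine ⟨h.prime, h.out, h.one, h.two, fun φ hφ hs => h.reg φ hφ ?_⟩
    rw [← e2, Matrix.trace_fin_two, hs.2.2, CharTwo.add_self_eq_zero]
  choose τq φ Yb Wc Pb i1 i2 i3 i4 i5 i6 k1 k2 using fun n => hl n (q n) (hq n).1 (hA n)
  obtain ⟨s, Y, b1, b2, b3, b4, rfl, rfl⟩ := hY τq fun n i => (k1 n).hτ i |>.imp fun P h =>
    ⟨⟨((hq n).2 i).prime, h.1, h.2.1⟩, h.2.2⟩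
  exact ⟨r, s, V, inferInstance, inferInstance, inferInstance, inferInstance, inferInstance,
    inferInstance, Y, b3 ▸ ht, b2, b1, by rw [b4], b, c, φ, Yb, Wc, Pb, i1, i2, i3,
    i4, i5, i6, k1, k2, fun n i => ((hq n).2 i).mono Finset.subset_union_right (by omega),
    fun n i => ((hq n).2 i).reg _ ((k1 n).hφ i)⟩

end Vale.Agent.P022G
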