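import Vale.Agent.P022G.Rw.FinA
import Vale.Agent.P022D.As.Cov

/-!
# P022G, the last step at a curve: from discrete modules to the statement at level zero
-/

set_option linter.all false

noncomputable section

namespace Vale.Agent.P022G.Fin

open IsLocalRing Filter MvPowerSeries
open Vale.Agent.P022 Vale.Agent.P022G.R Vale.Agent.P022G.Loc
open Vale.Agent.P022D.PA (Cv Base)
open Vale.Agent.P022D.Core (PS io y1 Coef)
open Vale.Agent.P022E.Loc (Pl)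
open Vale.Agent.P022G.Pt (An Du DM DF MD)
open Vale.Agent.P022G.Chain (Pd)

/-- **the outer part of the last step** -/
def OUT : Prop := AllC fun O F _ _ _ _ _ _ _ ϖ S L X β τ ι' _ _ _ K ι _ r s V _ Y =>
  letI : Algebra (S0 O τ L ι S.T r) (S1 O τ L ι S.T r) := (io O _ r).toAlgebra
  ∀ [Base (PP O ι r)] (κ I : Type) [Fintype κ] (u : ℕ → κ → PP O ι r) (a : κ → PP O ι r)
    (D : ℕ → PP O ι r) (d : PP O ι r) (Yb : I → ℕ → Type) (Y0 : I → Type)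
    [∀ i n, AddCommGroup (Yb i n)] [∀ i n, Module (PP O ι r) (Yb i n)] [∀ i, AddCommGroup (Y0 i)]
    [∀ i, Module (PP O ι r) (Y0 i)] (ses : I → I → I → Prop) (iJ : Finset L.C → I) (ig : I)
    (Wc : ℕ → Type) [∀ n, AddCommGroup (Wc n)] [∀ n, Module (PP O ι r) (Wc n)],
    DM (C ϖ) u D Yb Y0 ses → DF (C ϖ) u Yb ig Wc →
    MD (Y.rd ϖ) Y.U u a D d (fun i => Du (Yb i)) (fun i => CharacterModule (Y0 i)) ses iJ →
    (Y.rd ϖ).Gal ((Y.rd ϖ).E ⊔ EU K ι S.T r X) (An Y.U (Du Wc)) →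
    (∀ N : I → ℕ∞, (∀ i j k, ses i j k → N j = N i + N k) → ∀ J : Finset L.C,
      (∀ l ∈ J, (l : ℕ) ∉ X) → (mX K X J : ℕ∞) * N (iJ J) ≤ N ig) →
    (∃ (ν : Finset κ) (c : ℕ), ∀ n, ∃ χ : CharacterModule (Wc n), ∀ w : Wc n,
      (∀ t : PP O ι r, χ (t • w) = 0) → (∏ i ∈ ν, u n i) ^ c • w = 0) →
    (∀ J q (𝔮 : Ideal (S1 O τ L ι S.T r)), (Y.rd ϖ).Pn 𝔮 →
      An Y.U (Du (Yb (iJ J))) ≤ 𝔮.comap (Y.rd ϖ).ψ →
      2 * (Y.rd ϖ).y q - io O _ r ((Y.rd ϖ).α q) ∈ 𝔮 → ∃ i, (Y.rd ϖ).ψ (a i) ∈ 𝔮) →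
    ∀ Z : Ideal (PS O (Sy ι)), Z.IsPrime → Y.G'.aG ≤ Z →
      (∀ l : L.C, (l : ℕ) ∈ X → tauP Y.G'.rc id (Y.G'.iτ l) ⊆ Z) → C ϖ ∉ Z →
      Z ≤ RingHom.ker Y.θA → C ϖ ∈ RingHom.ker Y.θA →
      ∃ J : Finset L.C, Y.G'.IT ϖ J ≤ RingHom.ker Y.θA ∧ (∀ l ∈ J, (l : ℕ) ∉ X) ∧
        ∀ E, Pd (Y.G'.IT ϖ J) 2 E → E ≤ RingHom.ker Y.θA →
          Module.annihilator (PP O ι r) (Y0 (iJ J)) ≤ E.comap Y.jr →
          ∀ t : PP O ι r, (∀ n (w : Wc n), (C ϖ : PP O ι r) ^ n • w = 0 → (∀ s, u n s • w = 0) →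
            (D n * t) • w = 0) → Y.jr t ∈ Z

theorem out (h1 : KDA) (h2 : RCOV) (h3 : ROK) (h4 : RGAL0) (h5 : RFIN) : OUT := by
  intro O F _ _ _ _ _ _ _ ϖ S L X as β τ ι' _ _ _ K ι _ G hϖ hC hK r s V _ _ _ _ _ _ Y ht hG hY
    _ κ I _ u a D d Yb Y0 _ _ _ _ ses iJ ig Wc _ _ H W M gal comb cyc sep Z z1 z2 z3 z4 z5 z6
  classical
  letI : Algebra (S0 O τ L ι S.T r) (S1 O τ L ι S.T r) := (io O _ r).toAlgebra
  haveI : Base (S0 O τ L ι S.T r) := P022D.As.base O _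
  haveI : Base (S1 O τ L ι S.T r) := P022D.As.base O _
  obtain ⟨-, -, -, c4, c5, -⟩ :=
    h2 O F ϖ S L X as β τ ι' K ι G hϖ hC hK r s V Y ht hG hY
  have ok := h3 O F ϖ S L X as β τ ι' K ι G hϖ hC hK r s V Y ht hG hY
  obtain ⟨-, g0⟩ := h4 O F ϖ S L X as β τ ι' K ι G hϖ hC hK r s V Y ht hG hY
  obtain ⟨f1, f2⟩ := h5 O F ϖ S L X as β τ ι' K ι G hϖ hC hK r s V Y ht hG hY
  have ka := (h1 O F ϖ S L X as β τ ι' K ι Y.G' hϖ hC hK).1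
  have eu : ∀ l : L.C, (l : ℕ) ∈ X →
      (Y.rd ϖ).τl l ⊆ (((Y.rd ϖ).E ⊔ EU K ι S.T r X : Ideal _) : Set _) := by
    rintro l hl _ ⟨p, rfl⟩
    exact Ideal.mem_sup_right (Ideal.subset_span ⟨l, hl, p.1, p.2, rfl⟩)
  have FD := W.fd (X := Y.rd ϖ) H M.hU le_sup_left gal
  obtain ⟨ν, c, cyc⟩ := cyc
  have ED : Pt.ED3 (Y.rd ϖ) Y.U a (fun i => Du (Yb i)) ses iJ ig
      ((Y.rd ϖ).E ⊔ EU K ι S.T r X) (Du Wc) (mX K X) :=
    { comb := fun N hN J hJ => comb N hN J fun l hl c => hJ l (eu l c) hl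
      cyc := ⟨fun n => (∏ i ∈ ν, u n i) ^ c, (∏ i ∈ ν, a i) ^ c,
        P022D.As.EA.cv_pow (P022D.As.EA.cv_prod ν fun i => M.hu i) c, fun 𝔮 hq he => by
          obtain ⟨i, -, hi⟩ := Ideal.IsPrime.prod_mem_iff.1 (hq.mem_of_pow_mem _ he)
          exact ⟨i, hi⟩, fun n => W.cyc H (cyc n)⟩
      sep := sep
      len := f1
      ch0 := f2 }
  have e1 : (Y.rd ϖ).𝔢 ≤ Z.comap Y.jr := Ideal.comap_mono (ka.trans z2)
  have e2 : Z.comap Y.jr ≤ (Y.rd ϖ).p0 := by rw [c4]; exact Ideal.comap_mono z5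
  haveI := z1
  obtain ⟨J, j1, j2, j3⟩ := Pt.T.fin ok M FD ED (Z := Z.comap Y.jr) inferInstance e2 e1
    (fun c => z4 (by
      have : Y.jr (C ϖ) ∈ Z := c
      rwa [hY.jr.c] at this))
    (g0 _ e1 fun l hl => tau_up hY.jr _ (z3 l hl))
  rw [c4] at j1
  refine ⟨J, sup_le (sup_le (z2.trans z5) ((Ideal.span_singleton_le_iff_mem _).2 z6))
    ((ip_iff hY.jr J _).1 j1), fun l hl c => j2 l (eu l c) hl, fun E k1 k2 k3 t k4 => ?_⟩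
  haveI := k1.1
  have au := Pt.T.upJ ok M (J := J) (E := E.comap Y.jr) inferInstance
    (by rw [c4]; exact Ideal.comap_mono k2) (by rw [dim_comap c5]; exact k1.2.2)
    (by rw [Pt.ann_dual]; exact k3)
  exact down H W Y.U M.hU (Z := Z.comap Y.jr) inferInstance (j3 au) (fun n s => e1 (M.ue n s)) M.hD
    (fun c => M.dp (e2 c)) t k4

end Vale.Agent.P022G.Fin
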