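import Vale.Agent.P022G.Rw.Lower2
import Vale.Agent.P022G.Rw.CrvPkgH88
import Vale.Agent.P022G.Rw.FinalO
import Vale.Agent.P022G.Mod.Pkg
import Vale.Agent.P022G.Mod.Sub

/-!
# P022G: the package at a curve and the last step
-/

set_option linter.all false

open IsLocalRing Filter MvPowerSeries NumberField

noncomputable section

namespace Vale.Agent.P022G.H78

open Vale.Agent.P022 Vale.Agent.P022G.R Vale.Agent.P022G.Loc Vale.Agent.P022G.Mod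
open Vale.Agent.P022E.As (Tg cc tt dd yy Gw Gm mT ev0 Dia Lv2 Sb2)
open Vale.Agent.P027M.S (Inert mx)
open Vale.Agent.P022D.Core (PS io y1 Coef)
open Vale.Agent.P022D.PA (Base Cv lim)
open Vale.Agent.P022E.Loc (Pl)
open Vale.Agent.P022F.End0 (evc evt evd evy)
open Vale.Agent.P022G.Pt (Du An MD FD ann_dual)

theorem two {P T : Type} [CommRing P] [CommRing T] [IsLocalRing P] {𝔊 : Set (Ideal T)}
    {Φ : ∀ a : Ideal T, P →+* T ⧸ a} {m : Ideal T} {Y Y' : Type} [AddCommGroup Y] [Module T Y]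
    [AddCommGroup Y'] [Module T Y'] [Module P Y] [Module P Y'] (h : Fm 𝔊 Φ m) (c : Ac 𝔊 Φ Y)
    (c' : Ac 𝔊 Φ Y') (w : Y) (s : Finset Y') (f : P) :
    ∃ t : T, f • w = t • w ∧ ∀ v ∈ s, f • v = t • v := by
  obtain ⟨Γ, k, e⟩ := (ac_iff.1 c').fin h.dir h.ne s
  obtain ⟨a, ha, r⟩ := c w
  obtain ⟨Γ', k', i1, i2⟩ := h.dir.dir Γ k _ ⟨a, ha, rfl⟩
  obtain ⟨t, ht⟩ := h.dir.sur _ k' f
  exact ⟨t, r f t (i2 ht), fun w hw => e w hw f t (i1 ht)⟩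

section
variable {O F : Type} [CommRing O] [IsDomain O] [IsDiscreteValuationRing O] [Coef O] [Field F]
  [CharP F 2] {ϖ : O} {S : Dat O F} {L : Pl O} {β : Type} {τ ι' : β → Type} [Fintype β]
  [∀ b, Fintype (τ b)] {K : Kx O β τ ι' L.C} {ι : Type} [Fintype ι] {r s : ℕ} {V : Type}
  [CommRing V] [Nontrivial V] {Y : Pc (S := S) (ι := ι) K r s V} [Base (PP O ι r)]
  {lam : ℕ → Tg O →+* PP O ι r} {Sf : P022D.R.Dat O F} {I : Type} {Y0 : I → Type} {W0 : Type}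
  [∀ i, AddCommGroup (Y0 i)] [∀ i, Module (Tg O) (Y0 i)] [AddCommGroup W0] [Module (Tg O) W0]
  {ses : I → I → I → Prop} {ig : I} {iJ : Finset L.C → I} {b : I → ℕ} {c : ℕ}
  {φ : ℕ → Fin r → GQ} {Yb : ℕ → I → Type} {Wc : ℕ → Type}
  [∀ n i, AddCommGroup (Yb n i)] [∀ n i, Module (Tg O) (Yb n i)] [∀ n, AddCommGroup (Wc n)]
  [∀ n, Module (Tg O) (Wc n)] [∀ n i, Module (PP O ι r) (Yb n i)] [∀ i, Module (PP O ι r) (Y0 i)]
  [Algebra (S0 O τ L ι S.T r) (S1 O τ L ι S.T r)]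

theorem md (A : La Y ϖ lam) (hT : Sf.T = S.T)
    (W : ∀ n, Lv2 ϖ Sf L Y0 W0 ses ig iJ b c n (Y.q n) (Y.τq n) (φ n) (Yb n) (Wc n))
    (hφ : ∀ n i, (mx S.rb (φ n i)).trace ≠ 0) (sb0 : ∀ i, ∃ b, Sb2 (mT L.r) b (Y0 i))
    (cY : ∀ n i, Ac (gg Y n) (ph Y n) (Yb n i)) (c0 : ∀ n i, Ac (gg Y n) (ph Y n) (Y0 i))
    (gal : ∀ J, (Y.rd ϖ).Gal (Y.rd ϖ).E (An Y.U (Du fun n => Yb n (iJ J)))) :
    ∃ a d, MD (Y.rd ϖ) Y.U (uu lam Y.τq) a (Mod.DD lam Y.q φ c) d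
      (fun i => Du fun n => Yb n i) (fun i => CharacterModule (Finset (Fin r) → Y0 i)) ses iJ := by
  choose a ha using fun i => lim (PP O ι r) Y.U fun n => uu lam Y.τq n i
  obtain ⟨d, hd⟩ := lim (PP O ι r) Y.U (Mod.DD lam Y.q φ c)
  refine ⟨a, d, Pt.DM.md (X := Y.rd ϖ) (A.tw.dm W sb0 cY c0) A.ok.hU ha hd (fun h => ?_) A.ue ?_ gal
    (fun J l h t ht n => A.unr (cY n _) (A.fc.gd (hT ▸ (W n).gm _)) l ((W n).unr J l h) t ht)
    ⟨c, fun J l h n w => (A.new (cY n _) l c w).trans ((W n).new J l h w)⟩⟩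
  · exact (((A.dp hφ hd).map (Y.rd ϖ).ψ).map Y.θ).ne_zero h
  · have := Finset.card_pos.2 ⟨_, S.hl0⟩
    change 4 * S.T.card + 2 * r + 1 = 4 * S.T.card - 1 + (Fintype.card (Fin r ⊕ Fin r) + 2)
    rw [Fintype.card_sum, Fintype.card_fin]
    omega

end

theorem pkg2C (h1 : POV) (h2 : GPW) (h3 : GPO) (h4 : CPK) (h5 : RGAL) : PKG2 := by
  intro O F _ _ _ _ _ _ _ ϖ S L X as β τ ι' _ _ _ K ι _ G hϖ hC hK hE Sf I Y0 W0 _ _ _ _ ses ig ib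
    iJ e1 e2 hD p hp a1 a2 a3
  obtain ⟨r, s, V, _, _, _, _, _, _, Y, b1, rfl, b3, b4, b, c, φ, Yb, Wc, Pb, _, _, _, _, _, _,
    W, Ps, -, hφ⟩ := h4 O F ϖ S L X as β τ ι' K ι G hϖ hC hK hE L Sf I Y0 W0 ses ig ib iJ e1.le e2 hD
      p hp a1 a2 a3
  refine ⟨r, s, V, inferInstance, inferInstance, inferInstance, inferInstance, inferInstance,
    inferInstance, Y, b1, rfl, b3, b4, fun {_} => ?_⟩
  letI : Algebra (S0 O τ L ι S.T r) (S1 O τ L ι S.T r) := (io O _ r).toAlgebra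
  obtain ⟨lam, A⟩ := ex_la (fc_of h1 h2 h3 O F ϖ S L X as β τ ι' K ι Y.G' hϖ hC hK) b3
  have g1 : ∀ n i, Gd (gg Y n) (Yb n i) := fun n i => A.fc.gd (e1 ▸ (W n).gm i)
  choose m1 cY using fun n i => A.mod n (g1 n i)
  choose m0 c0 an using fun i => A.mod0 (A.fc.gd (e1 ▸ hD.gm0 i))
  have R := h5 O F ϖ S L X as β τ ι' K ι _ hϖ hC hK r s V Y b1 rfl b3
  obtain ⟨a, d, M⟩ := md A e1 W hφ hD.sb0 cY (fun n i => c0 i n) fun J =>
    (R _ (fun a => ∀ t ∈ (∅ : Set (Tg O)), t ∈ a) (A.gal (fun n => cY n _) (fun n => (W n).dia _)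
      (fun n => g1 n _) ∅ (fun _ h => h.elim) fun _ h => h.elim)).1
  refine ⟨_, a, _, d, _, _, inferInstance, inferInstance, inferInstance, inferInstance, M,
    fun i => (Fin.ann_fun.trans (an i)), fun l hl => ?_⟩
  have hm : (l : ℕ) ∈ L.W ∪ L.C := Finset.mem_union_right _ l.2
  have u1 : L.r (L.τ l) = 1 := hC.cx.unr l (hC.cx.ok.pr l hm).1 (Or.inr hl) _
    (hC.cx.ok.hP l hm).1 (hC.cx.ok.hP l hm).2 _ (hC.cx.ok.tm l hm).tau
  have P := fun n => Ps n l (by have := (hC.cx.one l hl).1; omega) u1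
  have g2 : ∀ n, Gd (gg Y n) (Pb n l) := fun n => A.fc.gd (e1 ▸ (P n).gm)
  choose m2 cP using fun n => A.mod n (g2 n)
  refine ⟨Du fun n => Pb n l, inferInstance, inferInstance, Pt.DF.fd (X := Y.rd ϖ)
    (A.tw.dm W hD.sb0 cY fun n i => c0 i n) (A.tw.dfp P cY cP) b3.hU le_sup_left
    ((R _ (fun a => ∀ t ∈ ({tt (L.τ l)} : Set (Tg O)), t ∈ a) (A.gal cP (fun n => (P n).dia) g2 _
      ?_ ?_)).2.1 l fun a h => h _ rfl)⟩
  · rintro _ rfl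
    rw [A.fc.mem_mT, evt, u1, Matrix.trace_one, Fintype.card_fin, map_natCast]
    exact CharP.cast_eq_zero F 2
  · rintro _ rfl n w
    exact (P n).ps w

theorem final2C (h1 : POV) (h2 : GPW) (h3 : GPO) (h4 : CPK) (h5 : RGAL) (h6 : KDA)
    (h7 : Fin.OUT) (h8 : RCOV) : FINAL2 := by
  intro O F _ _ _ _ _ _ _ ϖ S L X as β τ ι' _ _ _ K ι _ G hϖ hC hK hE Sf I Y0 W0 _ _ _ _ ses ig ib
    iJ e1 e2 hD Z p hZ z1 z2 z3 z4 hp z5 hf
  have hk := (h6 O F ϖ S L X as β τ ι' K ι G hϖ hC hK).1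
  have e3 : Sf.T ⊆ S.T := e1 ▸ Finset.sdiff_subset
  obtain ⟨r, s, V, _, _, _, _, _, _, Y, b1, rfl, b3, rfl, b, c, φ, Yb, Wc, Pb, _, _, _, _, _, _,
    W', -, -, hφ⟩ := h4 O F ϖ S L X as β τ ι' K ι G hϖ hC hK hE (subL L X) Sf I Y0 W0 ses ig ib iJ
      e3 e2 hD p hp (hk.trans (z1.trans z4)) z5 hf
  haveI := P022D.As.base O (Sy (ι ⊕ Fin r) ⊕ Fin r)
  letI : Algebra (S0 O τ L ι S.T r) (S1 O τ L ι S.T r) := (io O _ r).toAlgebra
  obtain ⟨lam, A⟩ := ex_la (fc_of h1 h2 h3 O F ϖ S L X as β τ ι' K ι Y.G' hϖ hC hK) b3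
  have hq : ∀ n i, Y.q n i ∉ X := fun n i h => (b3.gn n i).1 (by
    rw [hC.cx.ok.hT]
    exact Finset.mem_insert_of_mem (Finset.mem_insert_of_mem
      (Finset.mem_union_right _ (hC.cx.sub h))))
  have W := fun n => lv_sub hC.cx e1 e3 (hq n) (W' n)
  have g1 : ∀ n i, Gd (gg Y n) (Op (Yb n) i) := fun n i => A.fc.gd ((W n).gm i)
  have g2 : ∀ n, Gd (gg Y n) (Wc n) := fun n => A.fc.gd (W n).gmC
  choose m1 cY using fun n i => A.mod n (g1 n i)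
  choose m2 cW using fun n => A.mod n (g2 n)
  choose m0 c0 an using fun i => A.mod0 (A.fc.gd (gm0_sub hC.cx (fun i => e1 ▸ hD.gm0 i) i))
  obtain ⟨m3, c3, an3⟩ := A.mod0 (N := W0) (A.fc.gd (gm_sub hC.cx
    (fun _ _ => Finset.notMem_empty _) (e1 ▸ hD.gmW)))
  have R := h5 O F ϖ S L X as β τ ι' K ι _ hϖ hC hK r s V Y b1 rfl b3
  obtain ⟨a, d, M⟩ := md A rfl W hφ (sb0_sub hD.sb0) cY (fun n i => c0 i n) fun J =>
    (R _ (fun a => ∀ t ∈ (∅ : Set (Tg O)), t ∈ a) (A.gal (fun n => cY n _) (fun n => (W n).dia _)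
      (fun n => g1 n _) ∅ (fun _ h => h.elim) fun _ h => h.elim)).1
  obtain ⟨J, j1, j2, j3⟩ := h7 O F ϖ S L X as β τ ι' K ι _ hϖ hC hK r s V Y b1 rfl b3 _ _ _ a _ d _ _
    _ _ (some ig) Wc (A.tw.dm W (sb0_sub hD.sb0) cY fun n i => c0 i n) (A.tw.df W cY cW) M
    ((R _ (fun a => ∀ t ∈ {t : Tg O | ∃ l ∈ X, ∃ g, t = tt (g * L.τ l) - tt g}, t ∈ a)
      (A.gal cW (fun n => (W n).diaC) g2 _ (by
        rintro _ ⟨l, hl, g, rfl⟩
        have hm : l ∈ L.W ∪ L.C := Finset.mem_union_right _ (hC.cx.sub hl)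
        rw [A.fc.mem_mT, map_sub, evt, evt, map_mul, hC.cx.unr l (hC.cx.ok.pr l hm).1 (Or.inr hl) _
          (hC.cx.ok.hP l hm).1 (hC.cx.ok.hP l hm).2 _ (hC.cx.ok.tm l hm).tau, mul_one, sub_self,
          map_zero]) (by
        rintro _ ⟨l, hl, g, rfl⟩ n w
        refine (Ideal.mem_torsionOf_iff _ _).1 (gw_unr hC.cx (fun l hl k => ?_)
          (e1 ▸ (W' n).gmC w) l hl g)
        obtain ⟨i, -, rfl⟩ := Finset.mem_image.1 k
        exact hq n i hl))).2.2 fun a h l hl g => h _ ⟨l, hl, g, rfl⟩)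
    (fun N hN J hJ => by
      rw [iO_pos hJ, Fin.mX_eq]
      exact hD.comb _ _ (fun l => (hK.ok Unit).odd (Fin.inc L X l))
        (fun l => (hK.ok Unit).odd' (Fin.inc L X l)) (fun i => N (some i))
        (fun i j k h => hN _ _ _ ⟨i, j, k, h, rfl, rfl, rfl⟩) _)
    ⟨Finset.univ.map Function.Embedding.inr, c, fun n => by
      rw [Finset.prod_map]
      exact A.tw.cyc (q := Y.q) (φ := φ) (Yb := fun n => Op (Yb n)) (W n) (cW n)⟩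
    (fun J i 𝔮 hq k1 k2 => ⟨_, A.sep (fun n => cY n _) (fun n => (W n).dia _) M.hu i 𝔮 hq.pr k1 k2⟩)
    Z hZ z1 z2 z3 z4 z5
  refine ⟨J, j1, j2, fun E k1 k2 k3 f hf => ?_⟩
  obtain ⟨t, rfl⟩ := (h8 O F ϖ S L X as β τ ι' K ι _ hϖ hC hK r s V Y b1 rfl b3).2.2.2.2.1 f
  refine j3 E k1 k2 ?_ t fun n w w1 w2 => ?_
  · rw [ann_pi, an, iO_pos j2]
    exact Ideal.comap_mono k3
  · obtain ⟨σ, -, k⟩ := (W n).desc n le_rfl w ((A.tw.pw (cW n) n w).symm.trans w1)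
      ((A.tw.fix (cW n)).1 w2)
    obtain ⟨z, z6, z7⟩ := two (A.tw.fm n) (cW n) (c3 n) w σ t
    rw [mul_smul, z6, Mod.DD, A.tw.sm (cW n), ← mul_smul]
    exact k z fun v hv => (z7 v hv).symm.trans (Module.mem_annihilator.1 (an3.ge hf) v)

end Vale.Agent.P022G.H78
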