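import Vale.Agent.P022G.Rows
import Vale.Agent.P022G.Gen
import Vale.Agent.P022E.GW.Hyp

/-!
# P022G: the row GENS
-/

set_option linter.all false

noncomputable section

namespace Vale.Agent.P022G

open NumberField
open Vale.Agent.P022 Vale.Agent.P022G.R Vale.Agent.P022G.Loc
open Vale.Agent.P027M.S (Inert mx)
open Vale.Agent.P022E.Loc (Pl)
open Vale.Agent.P022E.GW (Ov Gn Op Ur)

theorem gensC : GENS := by
  classical
  intro O F _ _ _ _ _ S L κ _ gk hL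
  obtain ⟨R, -, hR⟩ := P022E.GW.Hy.ex_ram (U := S.rb.ker) hL.dh.opn
  let S' : Dat O F := { S with T := S.T ∪ R, hl0 := Finset.mem_union_left _ S.hl0 }
  have hu : ∀ l ∉ S'.T, ∀ P : Ideal (𝓞 Qb), Ov l P → ∀ s, Inert P s → S'.rb s = 1 :=
    fun l hl P hP s hs => hR l (fun h => hl (Finset.mem_union_right _ h)) P hP s hs
  obtain ⟨U, h1, hle, hU⟩ := _root_.P022G.Sel.Finr.ex_U (H := S.rb.ker) hL.dh.opn S'.T
  haveI := H916.isGalois_Qb
  haveI : Finite (GQ ⧸ U) := Subgroup.quotient_finite_of_isOpen U h1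
  haveI := Fintype.ofFinite (GQ ⧸ U)
  have h2 : 2 ∈ S'.T := by
    refine Finset.mem_union_left _ ?_
    rw [hL.hT]
    simp
  have tr : ∀ (Q : Finset ℕ) {ι : Type} (γ : ι → GQ), Gen S' Q γ → Gen S Q γ :=
    fun Q ι γ h Γ _ _ f ho ht hun => h Γ f ho ht fun l hl hn =>
      hun l hl fun k => hn (Finset.mem_union_left _ k)
  refine ⟨(Fin 2 ⊕ L.C ⊕ L.C) ⊕ κ ⊕ (GQ ⧸ U), inferInstance,
    ⟨⟨Sum.elim (Sum.elim ![S.g0, L.c] (Sum.elim (fun l => L.τ l) fun l => L.φ l))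
      (Sum.elim gk Quotient.out), Sum.inl (Sum.inl 0), Sum.inl (Sum.inl 1),
      fun l => Sum.inl (Sum.inr (Sum.inl l)), fun l => Sum.inl (Sum.inr (Sum.inr l)),
      fun t => Sum.inr (Sum.inl t), rfl, rfl, fun _ => rfl, fun _ => rfl, fun _ => rfl, ?_,
      fun r q τ' h => tr _ _ (gen_of S' h2 hu U hle hU _ _ (fun g => ?_) fun l hl _ => ?_)⟩⟩⟩
  · have : (Sum.elim ![Sum.inl (Sum.inl 0), Sum.inl (Sum.inl 1)]
        (Sum.elim (fun l => Sum.inl (Sum.inr (Sum.inl l))) fun l => Sum.inl (Sum.inr (Sum.inr l))) :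
          Fin 2 ⊕ L.C ⊕ L.C → (Fin 2 ⊕ L.C ⊕ L.C) ⊕ κ ⊕ (GQ ⧸ U)) = Sum.inl := by
      funext x
      rcases x with x | x | x
      · fin_cases x <;> rfl
      · rfl
      · rfl
    rw [this]
    exact Sum.inl_injective
  · obtain ⟨u, hu⟩ := QuotientGroup.mk_out_eq_mul U g
    refine ⟨Sum.inl (Sum.inr (Sum.inr (QuotientGroup.mk g))), u⁻¹, U.inv_mem u.2, ?_⟩
    show g = (QuotientGroup.mk g : GQ ⧸ U).out * _
    rw [hu, mul_inv_cancel_right]
  · obtain ⟨i, -, rfl⟩ := Finset.mem_image.1 hl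
    obtain ⟨P, k1, k2⟩ := (h i).2
    exact ⟨Sum.inr i, P, k1, k2⟩

end Vale.Agent.P022G
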