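import Vale.Agent.P022G.Rows
import Vale.Agent.P022G.Kd.A

/-! # P022G, row GPG: the traces are generated by the symbols -/

set_option linter.all false

noncomputable section

namespace Vale.Agent.P022G

theorem gpg : GPG := by
  intro O F _ _ _ _ _ _ _ ϖ S L X as β τ ι' _ _ _ K ι _ G _ _ _ r q τ' hq B _ Z hZ R h1 h2 g h
  obtain ⟨a1, a2, a3, a4, a5⟩ := Z.gen _ hZ.unr _ (G.gen r q τ' hq) _ R h1 h2 g h
  exact ⟨a4, a5, a1, a2, a3⟩

theorem gpgC : GPG := gpg

end Vale.Agent.P022G
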