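import Vale.Agent.P022G.Rows
import Vale.Agent.P022G.Kd.A
import Vale.Agent.P022G.Kdel
import Vale.Agent.P022G.Kdel2

/-! # P022G, row GPO: kernels of points, intersections, the pseudo object of an object -/

set_option linter.all false

noncomputable section

namespace Vale.Agent.P022G

open NumberField IsLocalRing
open Vale.Agent.P022 Vale.Agent.P022.H346 Vale.Agent.P022G.R Vale.Agent.P022G.Loc
open Vale.Agent.P027M.S (Inert mx)
open Vale.Agent.P022D.Sel (M2)
open Vale.Agent.P022E.Loc (Pl)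
open Vale.Agent.P022E.As (Tg cc tt dd yy)
open Vale.Agent.P022F.Gm (GM)

namespace Gpo

variable {O F : Type} [CommRing O] [Field F] {S : Dat O F} {L : Pl O}

/-- a root with given residue exists -/
theorem rt_ex {B : Type} [CommRing B] (Z : PO S B) {g : GQ} (h01 : mx S.rb g 0 1 = 0)
    (hne : mx S.rb g 0 0 ≠ mx S.rb g 1 1) :
    ∃ y : B, y ^ 2 - Z.t g * y + Z.d g = 0 ∧ Z.π y = mx S.rb g 1 1 := by
  obtain ⟨n, hn⟩ := Z.nil
  haveI := P022D.Gma.henselian_of_pow hn
  obtain ⟨c, hc⟩ := S.surj (mx S.rb g 1 1)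
  have ht : Z.π (Z.t g) = mx S.rb g 0 0 + mx S.rb g 1 1 := by rw [Z.π_t, Matrix.trace_fin_two]
  have hd : Z.π (Z.d g) = mx S.rb g 0 0 * mx S.rb g 1 1 := by
    rw [Z.π_d, Matrix.det_fin_two, h01]; ring
  obtain ⟨y, y', h1, h2, h3⟩ := P022D.Gma.hensel (RingHom.ker Z.π) (Z.t g) (Z.d g) (Z.ι c)
    (by rw [RingHom.mem_ker, map_add, map_sub, map_mul, map_pow, Z.alg, hc, ht, hd]; ring)
    ((Z.loc _ (by
      rw [map_sub, map_mul, Z.alg, hc, ht, map_ofNat]
      intro h0
      exact hne (by linear_combination -h0))).map _)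
  refine ⟨y, by rw [← h1, ← h2]; ring, ?_⟩
  rw [RingHom.mem_ker, map_sub, Z.alg, hc] at h3
  exact sub_eq_zero.1 h3

/-- the root with a given residue is unique -/
theorem rt_uniq {B : Type} [CommRing B] (Z : PO S B) {g : GQ}
    (hne : mx S.rb g 0 0 ≠ mx S.rb g 1 1) {y y' : B} (h : y ^ 2 - Z.t g * y + Z.d g = 0)
    (h' : y' ^ 2 - Z.t g * y' + Z.d g = 0) (e : Z.π y = mx S.rb g 1 1)
    (e' : Z.π y' = mx S.rb g 1 1) : y = y' := by
  have hu : IsUnit (y + y' - Z.t g) := Z.loc _ (by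
    rw [map_sub, map_add, e, e', Z.π_t, Matrix.trace_fin_two]
    intro h0
    exact hne (by linear_combination -h0))
  exact sub_eq_zero.1 (hu.mul_left_eq_zero.1 (by linear_combination h - h'))

/-- the residue maps of two standard points agree -/
theorem pi_eq {B B' : Type} [CommRing B] [CommRing B'] {Z : PO S B} {Z' : PO S B'}
    {u : Tg O →+* B} {u' : Tg O →+* B'} (h : Z.Std u) (h' : Z'.Std u')
    (hy : ∀ i, Z.π (u (yy i)) = 0) (hy' : ∀ i, Z'.π (u' (yy i)) = 0) (p : Tg O) :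
    Z.π (u p) = Z'.π (u' p) := by
  have : Z.π.comp u = Z'.π.comp u' := by
    refine MvPolynomial.ringHom_ext (fun o => ?_) fun s => ?_
    · change Z.π (u (cc o)) = Z'.π (u' (cc o))
      rw [h.c, h'.c, Z.alg, Z'.alg]
    · rcases s with g | g | i
      · change Z.π (u (tt g)) = Z'.π (u' (tt g))
        rw [h.t, h'.t, Z.π_t, Z'.π_t]
      · change Z.π (u (dd g)) = Z'.π (u' (dd g))
        rw [h.d, h'.d, Z.π_d, Z'.π_d]
      · change Z.π (u (yy i)) = Z'.π (u' (yy i))
        rw [hy, hy']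
  exact RingHom.congr_fun this p

/-- the entries are the fixed polynomials -/
def Pv (S : Dat O F) (L : Pl O) : Prop :=
  ∀ (B : Type) [CommRing B] (Z : PO S B) (u : Tg O →+* B), Z.Std u →
    (∀ g, u (aT S L g) = Z.a g ∧ u (dT S L g) = Z.b g) ∧ ∀ g h, u (xT S L g h) = Z.x g h

/-- **pull back** along a jointly injective pair -/
theorem pull [IsLocalRing O] (hL : OkG L S) (hP : Pv S L) {Q : Finset ℕ} {r : ℕ} {B B' : Type}
    [CommRing B] [CommRing B'] {Z : PO S B} {Z' : PO S B'} {u : Tg O →+* B} {u' : Tg O →+* B'}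
    (h : Z.Std u) (h' : Z'.Std u') (c : Z.Cl L Q) (c' : Z'.Cl L Q)
    (hy : ∀ i, Z.π (u (yy i)) = 0) (hy' : ∀ i, Z'.π (u' (yy i)) = 0)
    (hr : ∀ i, r ≤ i → u (yy i) = 0) (hr' : ∀ i, r ≤ i → u' (yy i) = 0) (a : Ideal (Tg O))
    (ha : ∀ p, p ∈ a ↔ u p = 0 ∧ u' p = 0) : Gp S L Q r a := by
  let i : Tg O ⧸ a →+* B := Ideal.Quotient.lift a u fun p hp => ((ha p).1 hp).1
  let i' : Tg O ⧸ a →+* B' := Ideal.Quotient.lift a u' fun p hp => ((ha p).1 hp).2
  let m := Ideal.Quotient.mk a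
  have im : ∀ p, i (m p) = u p := fun p => rfl
  have im' : ∀ p, i' (m p) = u' p := fun p => rfl
  have inj : ∀ v w, i v = i w → i' v = i' w → v = w := fun v w e e' => by
    obtain ⟨p, rfl⟩ := Ideal.Quotient.mk_surjective v
    obtain ⟨p', rfl⟩ := Ideal.Quotient.mk_surjective w
    refine Ideal.Quotient.eq.2 ((ha _).2 ⟨?_, ?_⟩)
    · rw [map_sub]; exact sub_eq_zero.2 e
    · rw [map_sub]; exact sub_eq_zero.2 e'
  have pp : ∀ v, Z.π (i v) = Z'.π (i' v) := fun v => by
    obtain ⟨p, rfl⟩ := Ideal.Quotient.mk_surjective v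
    exact pi_eq h h' hy hy' p
  haveI := Z.fin
  haveI := Z'.fin
  have fin : Finite (Tg O ⧸ a) := Finite.of_injective (fun v => (i v, i' v)) fun v w e =>
    inj v w (congrArg Prod.fst e) (congrArg Prod.snd e)
  obtain ⟨v1, v2⟩ := hP B Z u h
  obtain ⟨w1, w2⟩ := hP B' Z' u' h'
  have va := fun g => (v1 g).1
  have vb := fun g => (v1 g).2
  have wa := fun g => (w1 g).1
  have wb := fun g => (w1 g).2
  have dm : ∀ g k, m (dd (g * k)) = m (dd g) * m (dd k) := fun g k => inj _ _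
    (by rw [map_mul, im, im, im, h.d, h.d, h.d, map_mul, Units.val_mul])
    (by rw [map_mul, im', im', im', h'.d, h'.d, h'.d, map_mul, Units.val_mul])
  have d1 : m (dd 1) = 1 := inj _ _ (by rw [map_one, im, h.d, map_one, Units.val_one])
    (by rw [map_one, im', h'.d, map_one, Units.val_one])
  let d0 : GQ →* Tg O ⧸ a := ⟨⟨fun g => m (dd g), d1⟩, dm⟩
  have dv : ∀ g, ((d0.toHomUnits g : (Tg O ⧸ a)ˣ) : Tg O ⧸ a) = m (dd g) := fun g => rfl
  let W : PO S (Tg O ⧸ a) :=
    { ι := m.comp MvPolynomial.C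
      π := Z.π.comp i
      t := fun g => m (tt g)
      d := d0.toHomUnits
      a := fun g => m (aT S L g)
      b := fun g => m (dT S L g)
      x := fun g k => m (xT S L g k)
      fin := fin
      loc := fun v hv => by
        have u1 : IsUnit (i v) := Z.loc _ hv
        have u2 : IsUnit (i' v) := Z'.loc _ (by rw [← pp]; exact hv)
        have hi : Function.Injective fun w => v * w := fun w w' e => inj _ _
          (u1.mul_left_cancel (by rw [← map_mul, ← map_mul]; exact congrArg i e))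
          (u2.mul_left_cancel (by rw [← map_mul, ← map_mul]; exact congrArg i' e))
        obtain ⟨w, hw⟩ := Finite.surjective_of_injective hi 1
        exact IsUnit.of_mul_eq_one w hw
      alg := fun o => by
        change Z.π (u (cc o)) = _
        rw [h.c, Z.alg]
      tf := ⟨inj _ _ (by rw [im, h.t, Z.tf.one, map_ofNat]) (by rw [im', h'.t, Z'.tf.one, map_ofNat]),
        fun g k => inj _ _ (by rw [im, im, h.t, h.t, Z.tf.comm])
          (by rw [im', im', h'.t, h'.t, Z'.tf.comm]),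
        fun g k => inj _ _
          (by simp only [map_mul, map_add, dv, im, h.t, h.d]; exact Z.tf.mul g k)
          (by simp only [map_mul, map_add, dv, im', h'.t, h'.d]; exact Z'.tf.mul g k)⟩
      gm := ⟨fun g => inj _ _ (by simp only [map_add, im, va, vb, h.t]; exact Z.gm.sum g)
          (by simp only [map_add, im', wa, wb, h'.t]; exact Z'.gm.sum g),
        inj _ _ (by rw [im, va, map_one, Z.gm.a1]) (by rw [im', wa, map_one, Z'.gm.a1]),
        inj _ _ (by rw [im, vb, map_one, Z.gm.b1]) (by rw [im', wb, map_one, Z'.gm.b1]),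
        fun g k => inj _ _ (by simp only [map_add, map_mul, im, va, v2]; exact Z.gm.am g k)
          (by simp only [map_add, map_mul, im', wa, w2]; exact Z'.gm.am g k),
        fun g k => inj _ _ (by simp only [map_add, map_mul, im, vb, v2]; exact Z.gm.bm g k)
          (by simp only [map_add, map_mul, im', wb, w2]; exact Z'.gm.bm g k),
        fun g g' k => inj _ _
          (by simp only [map_add, map_mul, im, va, vb, v2]; exact Z.gm.cl g g' k)
          (by simp only [map_add, map_mul, im', wa, wb, w2]; exact Z'.gm.cl g g' k),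
        fun g k k' => inj _ _
          (by simp only [map_add, map_mul, im, va, vb, v2]; exact Z.gm.cr g k k')
          (by simp only [map_add, map_mul, im', wa, wb, w2]; exact Z'.gm.cr g k k'),
        fun g => inj _ _
          (by simp only [map_sub, map_mul, dv, im, va, vb, v2, h.d]; exact Z.gm.det g)
          (by simp only [map_sub, map_mul, dv, im', wa, wb, w2, h'.d]; exact Z'.gm.det g),
        fun g k g' k' => inj _ _ (by simp only [map_mul, im, v2]; exact Z.gm.sw g k g' k')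
          (by simp only [map_mul, im', w2]; exact Z'.gm.sw g k g' k')⟩
      x0 := fun g => ⟨inj _ _ (by rw [im, v2, map_zero, (Z.x0 g).1])
          (by rw [im', w2, map_zero, (Z'.x0 g).1]),
        inj _ _ (by rw [im, v2, map_zero, (Z.x0 g).2]) (by rw [im', w2, map_zero, (Z'.x0 g).2])⟩
      ra := fun g => by rw [RingHom.comp_apply, im, va, Z.ra]
      rb := fun g => by rw [RingHom.comp_apply, im, vb, Z.rb]
      rx := fun g k => by rw [RingHom.comp_apply, im, v2, Z.rx]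
      opn := ⟨Z.N ⊓ Z'.N, Z.N_open.inter Z'.N_open, fun s hs g => inj _ _
        (by rw [im, im, h.t, h.t]; exact hs.1 g) (by rw [im', im', h'.t, h'.t]; exact hs.2 g)⟩ }
  have wi : ∀ o, i (W.ι o) = Z.ι o := fun o => h.c o
  have wi' : ∀ o, i' (W.ι o) = Z'.ι o := fun o => h'.c o
  have wt : ∀ g, i (W.t g) = Z.t g := fun g => h.t g
  have wt' : ∀ g, i' (W.t g) = Z'.t g := fun g => h'.t g
  have wd : ∀ g, i (W.d g) = Z.d g := fun g => h.d g
  have wd' : ∀ g, i' (W.d g) = Z'.d g := fun g => h'.d g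
  refine ⟨W, ⟨fun o => rfl, fun g => rfl, fun g => rfl⟩, ⟨fun g hg => ?_, ?_, fun l hl => ?_,
    fun l hl => ?_, fun l h1 h2 h3 P h4 h5 s h6 g => ?_⟩, hy,
    fun k hk => (ha _).2 ⟨hr k hk, hr' k hk⟩⟩
  · exact inj _ _ (by rw [wd, wi, c.d2 g hg]) (by rw [wd', wi', c'.d2 g hg])
  · exact inj _ _ (by rw [wd, map_neg, map_one, c.dc]) (by rw [wd', map_neg, map_one, c'.dc])
  · exact inj _ _ (by rw [wd, wi, c.dl l hl]) (by rw [wd', wi', c'.dl l hl])
  · obtain ⟨-, r2, r3⟩ := hL.reg l hl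
    obtain ⟨y, y1, y2⟩ := rt_ex W (hL.dh.dg _ r2).1 r3
    obtain ⟨z, z1, z2, z3⟩ := c.ty l hl
    obtain ⟨z', z1', z2', z3'⟩ := c'.ty l hl
    have e : i y = z := rt_uniq Z r3 (by
      have := congrArg i y1
      rwa [map_add, map_sub, map_mul, map_pow, wt, wd, map_zero] at this) z1 y2 z2
    have e' : i' y = z' := rt_uniq Z' r3 (by
      have := congrArg i' y1
      rwa [map_add, map_sub, map_mul, map_pow, wt', wd', map_zero] at this) z1'
      (by rw [← pp]; exact y2) z2'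
    refine ⟨y, y1, y2, inj _ _ ?_ ?_⟩
    · simp only [map_sub, map_mul, map_ofNat, wt, wi, e]; exact z3
    · simp only [map_sub, map_mul, map_ofNat, wt', wi', e']; exact z3'
  · exact inj _ _ (by rw [wt, wt, c.unr l h1 h2 h3 P h4 h5 s h6])
      (by rw [wt', wt', c'.unr l h1 h2 h3 P h4 h5 s h6])

/-- the pseudo object of an object -/
def ofObj {B : Type} [CommRing B] (Y : Obj S B) : PO S B where
  ι := Y.ι
  π := Y.π
  t := fun g => (Y.ρ g).trace
  d := Matrix.GeneralLinearGroup.det.comp Y.ρ.toHomUnits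
  a := fun g => Y.ρ g 0 0
  b := fun g => Y.ρ g 1 1
  x := fun g k => Y.ρ g 0 1 * Y.ρ k 1 0
  fin := Y.fin
  loc := Y.loc
  alg := Y.alg
  tf := _root_.P022G.Kd.tf_rep Y.ρ
  gm := _root_.P022G.Kd2.gm_rep Y.ρ
  x0 := fun g => ⟨by rw [Y.dg.1, zero_mul], by rw [Y.dg.2, mul_zero]⟩
  ra := fun g => by rw [← Y.res g]; rfl
  rb := fun g => by rw [← Y.res g]; rfl
  rx := fun g k => by rw [← Y.res g, ← Y.res k, map_mul]; rfl
  opn := ⟨Y.ρ.toHomUnits.ker, by
    have : (Y.ρ.toHomUnits.ker : Set GQ) = {g | Y.ρ g = 1} := Set.ext fun g => Units.ext_iff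
    rw [this]; exact Y.opn, fun s hs g => by
      have : Y.ρ s = 1 := congrArg Units.val hs
      rw [map_mul, this, mul_one]⟩

theorem ofObj_cl {B : Type} [CommRing B] {Y : Obj S B} {Q : Finset ℕ} (h : Ty (ClG L S) Q B Y) :
    (ofObj Y).Cl L Q :=
  ⟨h.1.d2, h.1.dc, h.1.dl, h.1.ty, fun l h1 h2 h3 P h4 h5 s h6 g => by
    change (Y.ρ (g * s)).trace = (Y.ρ g).trace
    rw [map_mul, h.2 l h1 h2 h3 P h4 h5 s h6, mul_one]⟩

end Gpo

theorem gpo (hP : POV) : GPO := by
  intro O F _ _ _ _ _ _ _ ϖ S L X as β τ ι' _ _ _ K ι _ G h1 h2 h3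
  have hp : Gpo.Pv S L := hP O F ϖ S L X as β τ ι' K ι G h1 h2 h3
  refine ⟨fun Q r B _ Z u a1 a2 a3 a4 => Gpo.pull h2.cx.ok hp a1 a1 a2 a2 a3 a3 a4 a4 _
    fun p => by rw [RingHom.mem_ker, and_self], fun Q r a b ha hb => ?_,
    fun Q B _ Y hY => ⟨Gpo.ofObj Y, Gpo.ofObj_cl hY, rfl, rfl, fun g => ⟨rfl, rfl, rfl, rfl⟩,
      fun g h => rfl⟩⟩
  obtain ⟨Z, a1, a2, a3, a4⟩ := ha
  obtain ⟨Z', b1, b2, b3, b4⟩ := hb
  exact Gpo.pull h2.cx.ok hp a1 b1 a2 b2 a3 b3
    (fun i hi => Ideal.Quotient.eq_zero_iff_mem.2 (a4 i hi))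
    (fun i hi => Ideal.Quotient.eq_zero_iff_mem.2 (b4 i hi)) _ fun p => by
      rw [Ideal.Quotient.eq_zero_iff_mem, Ideal.Quotient.eq_zero_iff_mem, Ideal.mem_inf]

theorem gpoC (hP : POV) : GPO := gpo hP

end Vale.Agent.P022G
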