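import Vale.Agent.P022G.Rows
import Vale.Agent.P022E.As.Bas

/-!
# P022G, row GPW: good ideals belong to pseudo objects
-/

set_option linter.all false

open IsLocalRing NumberField

noncomputable section

namespace Vale.Agent.P022G

open Vale.Agent.P022 Vale.Agent.P022G.R Vale.Agent.P022G.Loc
open Vale.Agent.P027M.S (Inert mx)
open Vale.Agent.P022E.As (Tg cc tt dd yy ev0 mT Gw)
open Vale.Agent.P022E.Loc (Pl)
open Vale.Agent.P022F.Gm (en2 xx GM)
open Vale.Agent.P022D.Gma (ent)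
open Vale.Agent.P022.H346 (TF)

namespace GpwP

/-- simple roots of a quadratic polynomial lift -/
theorem root {B F : Type} [CommRing B] [Field F] (π : B →+* F) (loc : ∀ u, π u ≠ 0 → IsUnit u)
    (nil : ∀ u, π u = 0 → IsNilpotent u) (t d y0 : B) (h : π (y0 ^ 2 - t * y0 + d) = 0)
    (h' : π (2 * y0 - t) ≠ 0) : ∃ y, π y = π y0 ∧ y ^ 2 - t * y + d = 0 := by
  have key : ∀ k : ℕ, ∃ y, π y = π y0 ∧ (y0 ^ 2 - t * y0 + d) ^ (k + 1) ∣ y ^ 2 - t * y + d := by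
    intro k
    induction k with
    | zero => exact ⟨y0, rfl, by rw [zero_add, pow_one]⟩
    | succ k ih =>
      obtain ⟨y, e, c, hc⟩ := ih
      obtain ⟨w, hw⟩ := (loc (2 * y - t) (by
        rw [map_sub, map_mul, e, ← map_mul, ← map_sub]; exact h')).exists_right_inv
      refine ⟨y - (y ^ 2 - t * y + d) * w, ?_, (y0 ^ 2 - t * y0 + d) ^ k * c ^ 2 * w ^ 2, ?_⟩
      · rw [map_sub, hc, map_mul, map_mul, map_pow, h, zero_pow k.succ_ne_zero, zero_mul, zero_mul,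
          sub_zero, e]
      · have e2 : (y - (y ^ 2 - t * y + d) * w) ^ 2 - t * (y - (y ^ 2 - t * y + d) * w) + d =
            (y ^ 2 - t * y + d) ^ 2 * w ^ 2 := by
          linear_combination (-(y ^ 2 - t * y + d)) * hw
        rw [e2, hc]
        ring
  obtain ⟨n, hn⟩ := nil _ h
  obtain ⟨y, e, c, hc⟩ := key n
  exact ⟨y, e, by rw [hc, pow_succ, hn, zero_mul, zero_mul]⟩

variable {O F : Type} [CommRing O] [IsLocalRing O] [Field F] {S : Dat O F} {L : Pl O} {ϖ : O}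

theorem gp (ok : OkG L S) (hϖ : maximalIdeal O = Ideal.span {ϖ}) {Q : Finset ℕ} {r : ℕ}
    {a : Ideal (Tg O)} (ha : a ≠ ⊤) (h : Gw ϖ L S.T Q r a) : Gp S L Q r a := by
  have vc : ∀ c : O, ev0 L.r (cc c) = c := fun c => MvPolynomial.eval₂Hom_C _ _ c
  have vt : ∀ g, ev0 L.r (tt g : Tg O) = (L.r g).trace := fun g => MvPolynomial.eval₂Hom_X' _ _ _
  have vd : ∀ g, ev0 L.r (dd g : Tg O) = (L.r g).det := fun g => MvPolynomial.eval₂Hom_X' _ _ _
  have vy : ∀ i, ev0 L.r (yy i : Tg O) = 0 := fun g => MvPolynomial.eval₂Hom_X' _ _ _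
  have rad : ∀ b : Tg O, S.red (ev0 L.r b) = 0 → b ∈ a.radical := fun b hb =>
    P022E.As.Bas.rad h hϖ ((ok.ker _).1 hb)
  have un : ∀ p : Tg O, S.red (ev0 L.r p) ≠ 0 → IsUnit (Ideal.Quotient.mk a p) := fun p hn => by
    have hu : IsUnit (ev0 L.r p) := by
      by_contra hu
      exact hn ((ok.ker _).2 hu)
    obtain ⟨k, hk⟩ := rad (p - cc (ev0 L.r p)) (by rw [map_sub, vc, sub_self, map_zero])
    have h1 : IsNilpotent (Ideal.Quotient.mk a (p - cc (ev0 L.r p))) :=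
      ⟨k, by rw [← map_pow]; exact Ideal.Quotient.eq_zero_iff_mem.2 hk⟩
    have h2 := h1.isUnit_add_right_of_commute
      (hu.map ((Ideal.Quotient.mk a).comp (MvPolynomial.C : O →+* Tg O))) (Commute.all _ _)
    rwa [map_sub, show ((Ideal.Quotient.mk a).comp (MvPolynomial.C : O →+* Tg O)) (ev0 L.r p) =
      Ideal.Quotient.mk a (cc (ev0 L.r p)) from rfl, sub_add_cancel] at h2
  have hk : ∀ p ∈ a, (S.red.comp (ev0 L.r)) p = 0 := fun p hp => by
    by_contra hn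
    have := un p hn
    rw [Ideal.Quotient.eq_zero_iff_mem.2 hp, isUnit_zero_iff] at this
    exact ha ((Ideal.eq_top_iff_one a).2 (Ideal.Quotient.eq_zero_iff_mem.1
      ((map_one _).trans this.symm)))
  have eq : ∀ {x y : Tg O}, x - y ∈ a → Ideal.Quotient.mk a x = Ideal.Quotient.mk a y :=
    fun hx => Ideal.Quotient.eq.2 hx
  obtain ⟨π, hπ⟩ : ∃ π : Tg O ⧸ a →+* F, ∀ p, π (Ideal.Quotient.mk a p) = S.red (ev0 L.r p) :=
    ⟨Ideal.Quotient.lift a _ hk, fun _ => rfl⟩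
  have loc : ∀ u, π u ≠ 0 → IsUnit u := fun u hu => by
    obtain ⟨p, rfl⟩ := Ideal.Quotient.mk_surjective u
    exact un p (hπ p ▸ hu)
  have nil : ∀ u, π u = 0 → IsNilpotent u := fun u hu => by
    obtain ⟨p, rfl⟩ := Ideal.Quotient.mk_surjective u
    obtain ⟨k, hk⟩ := rad p (hπ p ▸ hu)
    exact ⟨k, by rw [← map_pow]; exact Ideal.Quotient.eq_zero_iff_mem.2 hk⟩
  let d0 : GQ →* Tg O ⧸ a :=
    { toFun := fun g => Ideal.Quotient.mk a (dd g)
      map_one' := (eq h.d1).trans (map_one _)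
      map_mul' := fun g k => (eq (h.dm g k)).trans (map_mul _ _ _) }
  obtain ⟨d, hd⟩ : ∃ d : GQ →* (Tg O ⧸ a)ˣ, ∀ g, (d g : Tg O ⧸ a) = Ideal.Quotient.mk a (dd g) :=
    ⟨d0.toHomUnits, fun _ => rfl⟩
  obtain ⟨t, ht⟩ : ∃ t : GQ → Tg O ⧸ a, ∀ g, t g = Ideal.Quotient.mk a (tt g) := ⟨_, fun _ => rfl⟩
  obtain ⟨ι, hι⟩ : ∃ ι : O →+* Tg O ⧸ a, ∀ c, ι c = Ideal.Quotient.mk a (cc c) :=
    ⟨(Ideal.Quotient.mk a).comp MvPolynomial.C, fun _ => rfl⟩
  have T0 : TF t d :=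
    ⟨(ht 1).trans ((eq h.t1).trans (map_ofNat _ 2)), fun g k => by rw [ht, ht, eq (h.tc g k)],
      fun g k => by
        have := eq (h.tm g k)
        rwa [map_mul, map_add, map_mul, ← hd, ← ht, ← ht, ← ht, ← ht] at this⟩
  have pc : ∀ c, π (ι c) = S.red c := fun c => by rw [hι, hπ, vc]
  have pt : ∀ g, π (t g) = mx S.rb g 0 0 + mx S.rb g 1 1 := fun g => by
    rw [ht, hπ, vt, ← Matrix.trace_fin_two, ← ok.lift g]
    exact AddMonoidHom.map_trace S.red (L.r g)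
  have pd : π (d S.g0 : Tg O ⧸ a) = mx S.rb S.g0 0 0 * mx S.rb S.g0 1 1 := by
    rw [hd, hπ, vd, S.red.map_det, RingHom.mapMatrix_apply, ok.lift, Matrix.det_fin_two, S.d01,
      zero_mul, sub_zero]
  have mm : ∀ g k, mx S.rb (g * k) = mx S.rb g * mx S.rb k := fun g k =>
    congrArg Units.val (map_mul S.rb g k)
  have ne : mx S.rb S.g0 0 0 - mx S.rb S.g0 1 1 ≠ 0 := sub_ne_zero.2 S.dne
  obtain ⟨c, hc⟩ := S.surj (mx S.rb S.g0 1 1)
  obtain ⟨y, py, hy⟩ := root π loc nil (t S.g0) (d S.g0) (ι c)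
    (by rw [map_add, map_sub, map_pow, map_mul, pc, pt, pd, hc]; ring)
    (by
      rw [map_sub, map_mul, map_ofNat, pc, pt, hc]
      exact fun e => ne (by linear_combination -e))
  rw [pc, hc] at py
  obtain ⟨u, hu⟩ := (loc (t S.g0 - y - y) (by
    rw [map_sub, map_sub, pt, py, add_sub_cancel_right]; exact ne)).exists_right_inv
  obtain ⟨G0, -, -, x0, x1⟩ := P022F.Gm.gm T0 S.g0 (α := t S.g0 - y) (β := y) (u := u)
    (sub_add_cancel _ _) (by linear_combination -hy) hu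
  have pa : ∀ g, π (ent t S.g0 y u g) = mx S.rb g 0 0 := fun g => by
    have e := congrArg π hu
    rw [map_mul, map_sub, map_sub, map_one, pt, py] at e
    rw [ent, map_mul, map_sub, map_mul, pt, pt, py, mm]
    simp only [Matrix.mul_apply, Fin.sum_univ_two, S.d01, S.d10]
    linear_combination (mx S.rb g 0 0) * e
  have ct : ∀ g ∈ L.TT, t g = ι (L.r g).trace := fun g hg => by rw [ht, hι, eq (h.clt g hg)]
  have cd : ∀ g ∈ L.DD, (d g : Tg O ⧸ a) = ι (L.r g).det := fun g hg => by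
    rw [hd, hι, eq (h.cld g hg)]
  refine ⟨⟨ι, π, t, d, _, _, _, h.fin, loc, pc, T0, G0, fun g => ⟨x0 g, x1 g⟩, pa, fun g => ?_,
    fun g k => ?_, h.opn.imp fun U e => ⟨e.1, fun v hv g => by rw [ht, ht, eq (e.2 v hv g)]⟩⟩,
    ⟨fun o => (hι o).symm, fun g => (ht g).symm, fun g => (hd g).symm⟩,
    ⟨fun g hg => cd g (Or.inl hg), ?_, fun l hl => cd _ (Or.inr (Or.inr (Or.inl ⟨l, hl, rfl⟩))),
      fun l hl => ?_, fun l a1 a2 a3 P a4 a5 s a6 g => ?_⟩, fun i => ?_, h.yz⟩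
  · rw [en2, map_sub, pa, pt, add_sub_cancel_left]
  · rw [xx, map_sub, map_mul, pa, pa, pa, mm, Matrix.mul_apply, Fin.sum_univ_two,
      add_sub_cancel_left]
  · exact (cd _ (Or.inr (Or.inl rfl))).trans (by rw [ok.odd, map_neg, map_one])
  · obtain ⟨z, z1, z2, z3⟩ := ok.ty l hl
    have w1 := congrArg ι (show z ^ 2 - (L.r (L.g0 l)).trace * z + (L.r (L.g0 l)).det = 0 from z1)
    have w3 := congrArg ι (show (L.r (L.τ l * L.g0 l)).trace - z * (L.r (L.τ l)).trace =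
      L.a l * ((L.r (L.g0 l)).trace - 2 * z) from z3)
    simp only [map_add, map_sub, map_mul ι, map_pow, map_zero, map_ofNat] at w1 w3
    refine ⟨ι z, ?_, (pc z).trans z2, ?_⟩
    · show ι z ^ 2 - t (L.g0 l) * ι z + (d (L.g0 l) : Tg O ⧸ a) = 0
      rw [ct _ ⟨l, hl, Or.inr (Or.inr rfl)⟩, cd _ (Or.inr (Or.inr (Or.inr ⟨l, hl, rfl⟩))), w1]
    · show t (L.τ l * L.g0 l) - ι z * t (L.τ l) = ι (L.a l) * (t (L.g0 l) - 2 * ι z)
      rw [ct _ ⟨l, hl, Or.inr (Or.inr rfl)⟩, ct _ ⟨l, hl, Or.inr (Or.inl rfl)⟩,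
        ct _ ⟨l, hl, Or.inl rfl⟩, w3]
  · show t (g * s) = t g
    rw [ht, ht, eq (h.unr l a1 a2 a3 P a4 a5 s a6 g)]
  · show π _ = 0
    rw [hπ, vy, map_zero]

end GpwP

theorem gpw : GPW := fun O F _ _ _ _ _ _ _ ϖ S L X as β τ ι' _ _ _ K ι _ G hϖ hC _ Q r a ha h =>
  GpwP.gp hC.cx.ok hϖ.maximalIdeal_eq ha h

end Vale.Agent.P022G
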