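import Vale.Agent.P022G.Rows
import Vale.Agent.P022G.Kd.A
import Vale.Agent.P022G.Ext

/-!
# P022G, row KDA: pseudo objects are objects over a bigger ring
-/

set_option linter.all false

noncomputable section

namespace Vale.Agent.P022G

open NumberField IsLocalRing
open Vale.Agent.P022 Vale.Agent.P022G.R Vale.Agent.P022G.Loc
open Vale.Agent.P027M.S (Inert mx)
open Vale.Agent.P022D.Sel (M2)
open Vale.Agent.P022E.Loc (Pl)

variable {O F : Type} [CommRing O] [Field F] {S : Dat O F} {L : Pl O} {B : Type} [CommRing B]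

theorem PO.N_ent (Z : PO S B) : ∀ k ∈ Z.N, Z.a k = 1 ∧ Z.b k = 1 ∧ (∀ g, Z.x k g = 0) ∧
    ∀ g, Z.x g k = 0 :=
  haveI := Z.N_normal
  _root_.P022G.Kl.ker_ent Z.gm Z.N Z.N_inv

theorem PO.exE [IsLocalRing O] (hL : OkG L S) (Z : PO S B) :
    ∃ (B' : Type) (_ : CommRing B') (κ : B →+* B') (π' : B' →+* F) (β γ : GQ → B'),
      Ext.Ex Z.π Z.a Z.b Z.x (fun g => mx S.rb g 0 1) (fun g => mx S.rb g 1 0) κ π' β γ := by
  haveI := Z.fin
  by_cases h : ∃ g, g ∉ L.H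
  · obtain ⟨g, hg⟩ := h
    have e := hL.det g
    rw [Matrix.det_fin_two, (hL.dh.ad g hg).1, zero_mul, zero_sub] at e
    obtain ⟨β, γ, k⟩ := Ext.ex1 Z.gm (fun y => by
      obtain ⟨c, rfl⟩ := S.surj y
      exact ⟨_, Z.alg c⟩) Z.loc Z.rx (g1 := g) (fun k => by simp [k] at e) fun k => by simp [k] at e
    exact ⟨B, _, _, _, β, γ, k⟩
  · push Not at h
    haveI : IsGalois ℚ Qb := IsAlgClosure.isGalois ℚ Qb
    haveI : Finite (GQ ⧸ Z.N) := Subgroup.quotient_finite_of_isOpen _ Z.N_open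
    rw [show (fun g => mx S.rb g 0 1) = 0 from funext fun g => (hL.dh.dg g (h g)).1,
      show (fun g => mx S.rb g 1 0) = 0 from funext fun g => (hL.dh.dg g (h g)).2]
    refine Ext.ex2 Z.gm Z.loc Z.nil (fun g k => by rw [Z.rx, (hL.dh.dg g (h g)).1, zero_mul]) Z.N
      fun n hn g k => ?_
    obtain ⟨a1, a2, a3, a4⟩ := Z.N_ent n hn
    rw [Z.gm.cl, Z.gm.cr, a1, a2, a3, a4]
    exact ⟨by ring, by ring⟩

/-- **every pseudo object is the trace of an object over a bigger ring** -/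
theorem PO.ext [IsLocalRing O] (hL : OkG L S) (Z : PO S B) :
    ∃ (B' : Type) (_ : CommRing B') (κ : B →+* B') (Y : Obj S B'), Function.Injective κ ∧
      Y.ι = κ.comp Z.ι ∧ (∀ w, Y.π (κ w) = Z.π w) ∧ (∀ l, Y.α l = 1 ∧ Y.β l = 1) ∧
      (∀ g, Y.ρ g 0 0 = κ (Z.a g) ∧ Y.ρ g 1 1 = κ (Z.b g) ∧ (Y.ρ g).trace = κ (Z.t g) ∧
        (Y.ρ g).det = κ (Z.d g)) ∧ (∀ g h, Y.ρ g 0 1 * Y.ρ h 1 0 = κ (Z.x g h)) ∧
      (∀ n ∈ Z.N, Y.ρ n = 1) ∧ ∀ Q, Z.Cl L Q → Ty (ClG L S) Q B' Y := by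
  obtain ⟨B', _, κ, π', β, γ, E⟩ := Z.exE hL
  let ρ : GQ →* M2 B' :=
    { toFun := fun g => !![κ (Z.a g), β g; γ g, κ (Z.b g)]
      map_one' := by
        rw [Z.gm.a1, Z.gm.b1, map_one, E.b0 1 fun h => (Z.gm.x1 h).1, E.c0 1 fun h => (Z.gm.x1 h).2,
          Matrix.one_fin_two]
      map_mul' := fun g h => by
        rw [Matrix.mul_fin_two, Z.gm.am, Z.gm.bm, E.bm, E.cm, map_add, map_add, map_mul, map_mul,
          ← E.mul, ← E.mul, mul_comm (β g) (κ _), mul_comm (γ g) (κ _), mul_comm (γ g), add_comm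
          (β h * γ g)] }
  have hρ : ∀ g, ρ g = !![κ (Z.a g), β g; γ g, κ (Z.b g)] := fun _ => rfl
  have hN : ∀ n ∈ Z.N, ρ n = 1 := fun n hn => by
    obtain ⟨a1, a2, a3, a4⟩ := Z.N_ent n hn
    rw [hρ, a1, a2, map_one, E.b0 n a3, E.c0 n a4, Matrix.one_fin_two]
  have ht : ∀ g, (ρ g).trace = κ (Z.t g) := fun g => by
    rw [hρ, Matrix.trace_fin_two_of, ← map_add, Z.gm.sum]
  have hd : ∀ g, (ρ g).det = κ (Z.d g) := fun g => by
    rw [hρ, Matrix.det_fin_two_of, E.mul, ← map_mul, ← map_sub, Z.gm.det]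
  refine ⟨B', _, κ, ⟨κ.comp Z.ι, π', ρ, fun _ => 1, fun _ => 1, E.fin, E.loc,
    fun c => (E.res _).trans (Z.alg c), fun g => ?_,
    Subgroup.isOpen_mono (H₁ := Z.N) (H₂ := ρ.ker) hN Z.N_open,
    ⟨E.b0 _ fun h => (Z.x0 h).1, E.c0 _ fun h => (Z.x0 h).2⟩, fun _ => mul_one _,
    fun _ => Matrix.map_one _ (map_zero _) (map_one _), fun _ _ => rfl, rfl, rfl⟩, E.inj, rfl,
    E.res, fun _ => ⟨rfl, rfl⟩, fun g => ⟨rfl, rfl, ht g, hd g⟩, E.mul, hN, fun Q h =>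
    ⟨⟨fun g hg => (hd g).trans (congrArg κ (h.d2 g hg)), ?_,
      fun l hl => (hd _).trans (congrArg κ (h.dl l hl)), fun l hl => ?_⟩,
      fun l a1 a2 a3 P a4 a5 g hg => hN g (h.unr l a1 a2 a3 P a4 a5 g hg)⟩⟩
  · ext i j
    fin_cases i <;> fin_cases j
    exacts [(E.res _).trans (Z.ra g), E.rb g, E.rc g, (E.res _).trans (Z.rb g)]
  · exact (hd _).trans (by rw [h.dc, map_neg, map_one])
  · obtain ⟨y, a1, a2, a3⟩ := h.ty l hl
    refine ⟨κ y, ?_, (E.res y).trans a2, ?_⟩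
    · show κ y ^ 2 - (ρ _).trace * κ y + (ρ _).det = 0
      rw [ht, hd, ← map_pow, ← map_mul, ← map_sub, ← map_add, a1, map_zero]
    · show (ρ _).trace - κ y * (ρ _).trace = κ (Z.ι _) * ((ρ _).trace - 2 * κ y)
      rw [ht, ht, ht, ← map_mul, ← map_sub, a3, map_mul, map_sub, map_mul, map_ofNat]

theorem gv_map {ι B' : Type} [CommRing B'] (κ : B →+* B') (rc : ι → M2 O) (j : O →+* B)
    (a d : ι → B) (x : ι → ι → B) (s : Sy ι) : κ (gv rc j a d x s) =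
      gv rc (κ.comp j) (fun i => κ (a i)) (fun i => κ (d i)) (fun i k => κ (x i k)) s := by
  rcases s with s | s | s <;> simp [gv]

/-- the relations of the objects hold for the pseudo objects -/
theorem aG_le [IsLocalRing O] (hL : OkG L S) {κ' ι : Type} {gk : κ' → GQ} (G : Gs S L gk ι) :
    G.aG ≤ G.aP := by
  rintro f hf B _ j v ψ ⟨Z, hZ, rfl, rfl⟩ hψ
  obtain ⟨B', _, κ, Y, inj, e1, -, -, e2, e3, -, e4⟩ := Z.ext hL
  refine inj ((hf B' Y.ι _ (κ.comp ψ) ⟨Y, e4 _ hZ, rfl, rfl⟩ ⟨fun o => ?_, fun s => ?_⟩).trans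
    (map_zero κ).symm)
  · rw [e1]
    exact congrArg κ (hψ.c o)
  · rw [RingHom.comp_apply, hψ.x, PO.val, gv_map, sv, e1]
    simp only [(e2 _).1, (e2 _).2.1, e3]

theorem kdaC (h : GPO) : KDA := by
  intro O F _ _ _ _ _ _ _ ϖ S L X as β τ ι' _ _ _ K ι _ G hϖ hC hK
  refine ⟨?_, fun i k f hf => Ideal.mul_mem_left _ _ (aG_le hC.cx.ok G hf)⟩
  rintro f hf B _ j v ψ ⟨Y, hY, rfl, rfl⟩ hψ
  obtain ⟨Z, a1, a2, -, a3, a4⟩ :=
    (h O F ϖ S L X as β τ ι' K ι G hϖ hC hK).2.2 ∅ B Y hY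
  refine hf B _ _ ψ ⟨Z, a1, a2.symm, ?_⟩ hψ
  simp only [sv, PO.val, a2, (a3 _).2.2.1, (a3 _).2.2.2, a4]

end Vale.Agent.P022G
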