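import Vale.Agent.P022G.Rows
import Vale.Agent.P022G.Kd.B
import Vale.Agent.P022D.As.Cov

/-!
# P022G, row KDEL
-/

set_option linter.all false

noncomputable section

namespace Vale.Agent.P022G

open NumberField IsLocalRing MvPowerSeries
open Vale.Agent.P022 Vale.Agent.P022G.R Vale.Agent.P022G.Loc
open Vale.Agent.P027M.S (Inert mx)
open Vale.Agent.P022D.Sel (M2)
open Vale.Agent.P022D.Core (PS Coef)
open Vale.Agent.P022E.Loc (Pl)
open Vale.Agent.P022E.GW (Ov Gn)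

namespace KdC

variable {O F : Type} [CommRing O] [Field F]

theorem e8_map {B B' : Type} [CommRing B] [CommRing B'] (μ : B →+* B') (s b n : B) (Φ T : M2 B)
    (k : Fin 8) : μ (e8 s b n Φ T k) = e8 (μ s) (μ b) (μ n) (Φ.map μ) (T.map μ) k := by
  fin_cases k <;> simp [e8]

theorem val_map {β C : Type} {τ ι : β → Type} (K : Kx O β τ ι C) {B B' : Type} [CommRing B]
    [CommRing B'] (μ : B →+* B') (j : O →+* B) (w : (Σ b, τ b) → M2 B) (Φ T : C → M2 B)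
    (i : (Σ b, τ b) ⊕ (C × Fin 8)) :
    μ (K.val j w Φ T i) = K.val (μ.comp j) (fun t => (w t).map μ) (fun c => (Φ c).map μ)
      (fun c => (T c).map μ) i := by
  rcases i with t | ⟨c, k⟩
  · simp [Kx.val]
  · have e : ∀ M : M2 B, (K.u c).map (μ.comp j) * M.map μ * (K.v c).map (μ.comp j) =
        ((K.u c).map j * M * (K.v c).map j).map μ := fun M => by
      rw [Matrix.map_mul, Matrix.map_mul]; rfl
    change μ (e8 _ _ _ _ _ k) = e8 _ _ _ (_ * (Φ c).map μ * _) (_ * (T c).map μ * _) k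
    rw [e, e]
    exact e8_map μ _ _ _ _ _ k

/-- the residue map of a power series ring -/
def res (S : Dat O F) (σ : Type) : PS O σ →+* F := S.red.comp constantCoeff

theorem res_C (S : Dat O F) (σ : Type) (o : O) : res S σ (C o) = S.red o := by simp [res]

theorem res_X (S : Dat O F) (σ : Type) (s : σ) : res S σ (X s) = 0 := by simp [res]

theorem res_unit [IsLocalRing O] {S : Dat O F} {L : Pl O} (hL : OkG L S) (σ : Type)
    (u : PS O σ) (h : res S σ u ≠ 0) : IsUnit u := by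
  rw [isUnit_iff_constantCoeff]
  by_contra hn
  exact h ((hL.ker _).2 hn)

variable {S : Dat O F} {L : Pl O} {β : Type} {τ ι' : β → Type} (K : Kx O β τ ι' L.C) {ι : Type}
  (G : Gs S L K.g ι) (r : ℕ)

theorem ψ0_C (o : O) : ψ0 S L τ ι r (C o) = C o := rename_C _ o

theorem ψ0_X (s : Sy (ι ⊕ Fin r)) : ψ0 S L τ ι r (X s) = X (e0 r s) := rename_X _ _

theorem ψ0_a (rc : ι ⊕ Fin r → M2 O) (i : ι ⊕ Fin r) :
    ψ0 S L τ ι r (aS rc id i) = aS rc (e0 r) i := by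
  rw [aS, aS, map_add, ψ0_C, ψ0_X]; rfl

theorem ψ0_d (rc : ι ⊕ Fin r → M2 O) (i : ι ⊕ Fin r) :
    ψ0 S L τ ι r (dS rc id i) = dS rc (e0 r) i := by
  rw [dS, dS, map_add, ψ0_C, ψ0_X]; rfl

theorem ψ0_x (rc : ι ⊕ Fin r → M2 O) (i k : ι ⊕ Fin r) :
    ψ0 S L τ ι r (xS rc id i k) = xS rc (e0 r) i k := by
  rw [xS, xS, map_add, ψ0_C, ψ0_X]; rfl

theorem t0_x (i k : ι ⊕ Fin r) :
    xS (G.rcr r) (e0 r) i k - ZS K G r i 0 1 * ZS K G r k 1 0 ∈ t0 K G r :=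
  Ideal.subset_span (Or.inl (Or.inl ⟨(i, k), rfl⟩))

theorem t0_κ (i : Ix τ L) : X (Sum.inl i) - κS K G r i ∈ t0 K G r :=
  Ideal.subset_span (Or.inl (Or.inr ⟨i, rfl⟩))

theorem t0_4 : ZS K G r (Sum.inl G.i0) 0 1 ∈ t0 K G r ∧ ZS K G r (Sum.inl G.i0) 1 0 ∈ t0 K G r ∧
    αS τ L ι S.T r S.l0 0 0 - 1 ∈ t0 K G r ∧ αS τ L ι S.T r S.l0 1 1 - 1 ∈ t0 K G r :=
  ⟨Ideal.subset_span (Or.inr (by simp)), Ideal.subset_span (Or.inr (by simp)),
    Ideal.subset_span (Or.inr (by simp)), Ideal.subset_span (Or.inr (by simp))⟩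

theorem ZS_res (i : ι ⊕ Fin r) : (ZS K G r i).map (res S _) = (G.rcr r i).map S.red := by
  ext a b
  fin_cases a <;> fin_cases b <;> simp [ZS, aS, dS, res_C, res_X]

theorem αS_res (l : ℕ) : (αS τ L ι S.T r l).map (res S _) = 1 := by
  unfold αS
  split_ifs
  · ext a b
    fin_cases a <;> fin_cases b <;> simp [res_X]
  · exact Matrix.map_one _ (map_zero _) (map_one _)

theorem αS_inv [IsLocalRing O] (hL : OkG L S) (l : ℕ) :
    αS τ L ι S.T r l * (αS τ L ι S.T r l)⁻¹ = 1 :=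
  Matrix.mul_nonsing_inv _ (res_unit hL _ _ (by
    rw [RingHom.map_det, RingHom.mapMatrix_apply, αS_res, Matrix.det_one]; exact one_ne_zero))

/-- a point of the framed ring which kills the tautological relations is the evaluation at the
universal matrices -/
theorem hm_v0 {A : Type} [CommRing A] (μ : S0 O τ L ι S.T r →+* A)
    (h : ∀ s ∈ t0 K G r, μ s = 0) (ρ : GQ → M2 A) (τ' : Fin r → GQ)
    (hρ : ∀ i, ρ (Sum.elim G.γ τ' i) = (ZS K G r i).map μ) :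
    Hm (μ.comp C) (v0 K G r (μ.comp C) ρ (fun l => (αS τ L ι S.T r l).map μ)
      (fun l => ((αS τ L ι S.T r l)⁻¹).map μ) τ') μ := by
  have e : ∀ {a b}, a - b ∈ t0 K G r → μ a = μ b := fun hab => by
    have := h _ hab
    rwa [map_sub, sub_eq_zero] at this
  have hl : ∀ l i, (lS K G r l i).map μ = ((αS τ L ι S.T r l)⁻¹).map μ * ρ (G.γ i) *
      (αS τ L ι S.T r l).map μ := fun l i => by
    rw [lS, Matrix.map_mul, Matrix.map_mul, ← hρ]; rfl
  refine ⟨fun o => rfl, ?_⟩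
  rintro (i | (i | i | ⟨i, k⟩) | (i | i) | ⟨⟨l, hl'⟩, a, b⟩)
  · rw [e (t0_κ K G r i), κS, val_map]
    simp only [hl, G.hK, G.hφ, G.hτ]
    rfl
  · change _ = ρ _ 0 0 - μ (C _)
    rw [hρ, Matrix.map_apply, ← map_sub]
    exact congrArg μ (add_sub_cancel_left _ _).symm
  · change _ = ρ _ 1 1 - μ (C _)
    rw [hρ, Matrix.map_apply, ← map_sub]
    exact congrArg μ (add_sub_cancel_left _ _).symm
  · change _ = ρ _ 0 1 * ρ _ 1 0 - μ (C _)
    rw [hρ, hρ, Matrix.map_apply, Matrix.map_apply, ← map_mul, ← e (t0_x K G r i k), ← map_sub]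
    exact congrArg μ (add_sub_cancel_left _ _).symm
  · change _ = ρ _ 0 1 - μ (C _)
    rw [hρ, Matrix.map_apply, ← map_sub]
    exact congrArg μ (add_sub_cancel_left _ _).symm
  · change _ = ρ _ 1 0 - μ (C _)
    rw [hρ, Matrix.map_apply, ← map_sub]
    exact congrArg μ (add_sub_cancel_left _ _).symm
  · change _ = ((αS τ L ι S.T r l).map μ - 1) a b
    rw [αS, dif_pos hl']
    fin_cases a <;> fin_cases b <;> simp

theorem rcr_res [IsLocalRing O] {X : Finset ℕ} {as : ℕ} (hC : Cx S L X as) {q : Fin r → ℕ}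
    {τ' : Fin r → GQ} (hq : ∀ i, q i ∉ S.T ∧ ∃ P, Ov (q i) P ∧ Gn (q i) P (τ' i))
    (i : ι ⊕ Fin r) : (G.rcr r i).map S.red = mx S.rb (Sum.elim G.γ τ' i) := by
  rcases i with i | i
  · exact hC.ok.lift _
  · obtain ⟨h1, P, ⟨h2, h3, h4⟩, h5, -⟩ := hq i
    change (1 : M2 O).map S.red = mx S.rb (τ' i)
    rw [← hC.ok.lift, hC.unr _ h2 (Or.inl h1) P h3 h4 _ h5]

end KdC

open KdC

/-- the general form: `f` vanishes on all objects on which the kernel of `Z` acts trivially and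
whose traces and determinants come from `Z` -/
theorem kdel_gen {O F : Type} [CommRing O] [IsDomain O] [IsDiscreteValuationRing O] [Coef O]
    [Field F] [Finite F] [CharP F 2] {S : Dat O F} {L : Pl O} {X : Finset ℕ} {as : ℕ}
    {β : Type} {τ ι' : β → Type} [Fintype β] [∀ b, Fintype (τ b)]
    (K : Kx O β τ ι' L.C) {ι : Type} [Fintype ι] (G : Gs S L K.g ι) (hC : Cx S L X as)
    (r : ℕ) (q : Fin r → ℕ) (τ' : Fin r → GQ)
    (hq : ∀ i, q i ∉ S.T ∧ ∃ P, Ov (q i) P ∧ Gn (q i) P (τ' i))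
    {B : Type} [CommRing B] (Z : PO S B) (ψ : PS O (Sy (ι ⊕ Fin r)) →+* B)
    (hZ : Z.Cl L (Finset.univ.image q)) (hψ : Hm Z.ι (Z.val (G.rcr r) (Sum.elim G.γ τ')) ψ)
    (i k : ι ⊕ Fin r) (f : S0 O τ L ι S.T r)
    (hf : ∀ (A : Type) [CommRing A] (Y : Obj S A) (μ : S0 O τ L ι S.T r →+* A),
      Ty (ClG L S) (Finset.univ.image q) A Y → Hm Y.ι (v0 K G r Y.ι Y.ρ Y.α Y.β τ') μ →
      (∀ s ∈ (RingHom.ker ψ).map (ψ0 S L τ ι r) ⊔ t0 K G r, μ s = 0) → (∀ g ∈ Z.N, Y.ρ g = 1) →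
      (∀ i, Y.ρ (Sum.elim G.γ τ' i) = (ZS K G r i).map μ) →
      (∀ l, Y.α l = (αS τ L ι S.T r l).map μ) →
      (∀ g u, ψ u = Z.t g → (Y.ρ g).trace = μ (ψ0 S L τ ι r u)) →
      (∀ g u, ψ u = Z.d g → (Y.ρ g).det = μ (ψ0 S L τ ι r u)) → μ f = 0) :
    ψ0 S L τ ι r (xS (G.rcr r) id i k) * f ∈
      (RingHom.ker ψ).map (ψ0 S L τ ι r) ⊔ t0 K G r := by
  haveI := P022D.As.base O (V0 τ L ι S.T r)
  obtain ⟨t1, t2, t3, t4⟩ := t0_4 K G r
  obtain ⟨J, h1, h2⟩ := Z.core hC.ok hZ (Sum.elim G.γ τ') (G.gen r q τ' hq) (Sum.inl G.i0) G.h0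
    ψ C hψ.c (aS (G.rcr r) id) (dS (G.rcr r) id) (xS (G.rcr r) id)
    (fun i => by rw [aS, map_add, hψ.c, hψ.x]; exact add_sub_cancel _ _)
    (fun i => by rw [dS, map_add, hψ.c, hψ.x]; exact add_sub_cancel _ _)
    (fun i k => by
      rw [xS, map_add, hψ.c, hψ.x]
      exact add_sub_cancel (Z.ι (G.rcr r i 0 1 * G.rcr r k 1 0)) _)
    (ψ0 S L τ ι r) (res S _) (res_unit hC.ok _)
    (fun o => by rw [ψ0_C (S := S), res_C]) (ZS K G r)
    (fun i => by rw [ZS_res, rcr_res K G r hC hq]) (t0 K G r)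
    (fun i => by rw [ψ0_a]; simp [ZS])
    (fun i => by rw [ψ0_d]; simp [ZS])
    (fun i k => by rw [ψ0_x]; exact t0_x K G r i k) t1 t2
  have hfI : f ∈ (RingHom.ker ψ).map (ψ0 S L τ ι r) ⊔ t0 K G r ⊔ J := by
    refine loc_test (res S _) (res_unit hC.ok _) _ f fun A _ _ μ π' a1 a2 a3 => ?_
    have a4 : ∀ s ∈ t0 K G r, μ s = 0 := fun s hs =>
      a3 s (Ideal.mem_sup_left (Ideal.mem_sup_right hs))
    obtain ⟨Y, y1, y2, y3, y4, y5, y6, y7, y8, y9⟩ := h2 A μ π' a1 a2 a3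
      (fun l => (αS τ L ι S.T r l).map μ) (fun l => ((αS τ L ι S.T r l)⁻¹).map μ)
      (fun l => by
        rw [← Matrix.map_mul, αS_inv r hC.ok]
        exact Matrix.map_one _ (map_zero _) (map_one _))
      (fun l => by
        rw [← αS_res (S := S) (L := L) (τ := τ) (ι := ι) r l]
        ext a b
        exact a2 _)
      (fun l hl => by
        rw [αS, dif_neg hl]
        exact Matrix.map_one _ (map_zero _) (map_one _))
      ⟨by simpa [sub_eq_zero] using a4 _ t3, by simpa [sub_eq_zero] using a4 _ t4⟩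
    have y0 : Y.ι = μ.comp C := by
      rw [y1]
      exact RingHom.ext fun o => congrArg μ (ψ0_C r o)
    refine hf A Y μ y5 ?_ (fun s hs => a3 s (Ideal.mem_sup_left hs)) y7 y6
      (fun l => by rw [y3]) y8 y9
    rw [y0, y3, y4]
    exact hm_v0 K G r μ a4 Y.ρ τ' y6
  obtain ⟨u, hu, s, hs, rfl⟩ := Submodule.mem_sup.1 hfI
  rw [mul_add]
  refine add_mem (Ideal.mul_mem_left _ _ hu) ?_
  have e : ψ0 S L τ ι r (xS (G.rcr r) id i k) * s = ZS K G r i 0 1 * ZS K G r k 1 0 * s +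
      (xS (G.rcr r) (e0 r) i k - ZS K G r i 0 1 * ZS K G r k 1 0) * s := by
    rw [ψ0_x]; ring
  rw [e]
  exact add_mem (h1 i k s hs) (Ideal.mem_sup_right (Ideal.mul_mem_right _ _ (t0_x K G r i k)))

theorem kdelC : KDEL := by
  intro O F _ _ _ _ _ _ _ ϖ S L X as β τ ι' _ _ _ K ι _ G hϖ hC hK r q τ' hq B _ Z ψ hZ hψ i k f hf
  exact kdel_gen K G hC.cx r q τ' hq Z ψ hZ hψ i k f fun A _ Y μ h1 h2 _ _ _ _ _ _ =>
    hf A Y.ι _ μ ⟨Y, h1, rfl, rfl⟩ h2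

end Vale.Agent.P022G
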