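import Vale.Agent.P022G.Rows
import Vale.Agent.P022G.Crv.Uni

/-!
# P022G, row LAM: universal traces
-/

set_option linter.all false

noncomputable section

namespace Vale.Agent.P022G

open NumberField IsLocalRing MvPowerSeries
open Vale.Agent.P022 Vale.Agent.P022.H346 Vale.Agent.P022G.R Vale.Agent.P022G.Loc
open Vale.Agent.P027M.S (Inert mx)
open Vale.Agent.P022D.Sel (M2)
open Vale.Agent.P022D.Core (PS Coef)
open Vale.Agent.P022E.Loc (Pl)
open Vale.Agent.P022E.GW (Ov Gn)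
open Vale.Agent.P022F.Gm (GM)
open Vale.Agent.P022G.Crv

namespace LamP

variable {O F : Type} [CommRing O] [Field F] {S : Dat O F} {L : Pl O} {Q : Finset ℕ} {ι : Type}
  {rc : ι → M2 O} {γ : ι → GQ}

/-- finitely many pseudo objects do not distinguish an element from a word in the generators -/
theorem ex_word [CharP F 2] (hg : Gen S Q γ) {σ : Type} [Finite σ] {B : σ → Type}
    [∀ e, CommRing (B e)] (Z : ∀ e, PO S (B e)) (hZ : ∀ e, (Z e).Cl L Q) (g : GQ) :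
    ∃ w ∈ Subgroup.closure (Set.range γ), ∀ e, w⁻¹ * g ∈ kr (Z e).tf := by
  let K : Subgroup GQ := ⨅ e, kr (Z e).tf
  have hn : K.Normal := Subgroup.normal_iInf_normal fun e => kr_nor _
  have ho : IsOpen (K : Set GQ) := by
    rw [Subgroup.coe_iInf]
    exact isOpen_iInter_of_finite fun e => po_open (Z e)
  have := Vale.Agent.P022D.Sel.OddP.compact_GQ
  have : Finite (GQ ⧸ K) := Subgroup.quotient_finite_of_isOpen K ho
  have o : ∀ g, QuotientGroup.mk' K g = 1 ↔ g ∈ K := fun g => QuotientGroup.eq_one_iff g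
  have h := hg (GQ ⧸ K) (QuotientGroup.mk' K) (by simp only [o]; exact ho) (fun g hg => by
      choose k hk using fun e => po_two (Z e) hg
      obtain ⟨n, hn⟩ := (Set.finite_range k).bddAbove
      exact ⟨n, by
        rw [← map_pow, o]
        exact Subgroup.mem_iInf.2 fun e => hk e n (hn ⟨e, rfl⟩)⟩)
    (fun l a b c P d e' s hs => (o s).2 (Subgroup.mem_iInf.2 fun e =>
      (hZ e).unr l a b c P d e' s hs)) g
  rw [show (Set.range fun i => QuotientGroup.mk' K (γ i)) =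
    QuotientGroup.mk' K '' Set.range γ from (Set.range_comp _ _), ← MonoidHom.map_closure] at h
  obtain ⟨w, hw, e⟩ := h
  exact ⟨w, hw, Subgroup.mem_iInf.1 (QuotientGroup.eq.1 e)⟩

theorem ex_fin [CharP F 2] (hg : Gen S Q γ) (hrc : ∀ i, IsUnit (rc i).det) {σ : Type} [Finite σ]
    {B : σ → Type} [∀ e, CommRing (B e)] (Z : ∀ e, PO S (B e)) (ψ : ∀ e, PS O (Sy ι) →+* B e)
    (hZ : ∀ e, (Z e).Cl L Q) (hψ : ∀ e, Hm (Z e).ι ((Z e).val rc γ) (ψ e)) (g h : GQ) :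
    (∃ f, ∀ e, ψ e f = (Z e).a g) ∧ (∃ f, ∀ e, ψ e f = (Z e).b g) ∧
      ∃ f, ∀ e, ψ e f = (Z e).x g h := by
  obtain ⟨w, hw, e1⟩ := ex_word hg Z hZ g
  obtain ⟨v, hv, e2⟩ := ex_word hg Z hZ h
  let D : GQ →* (∀ e, B e)ˣ :=
    (MulEquiv.piUnits (M := B)).symm.toMonoidHom.comp (Pi.monoidHom fun e => (Z e).d)
  have T : GM (fun g e => (Z e).t g) D (fun g e => (Z e).a g) (fun g e => (Z e).b g)
      (fun g h e => (Z e).x g h) :=
    ⟨fun g => funext fun e => (Z e).gm.sum g, funext fun e => (Z e).gm.a1,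
      funext fun e => (Z e).gm.b1, fun g h => funext fun e => (Z e).gm.am g h,
      fun g h => funext fun e => (Z e).gm.bm g h, fun g h k => funext fun e => (Z e).gm.cl g h k,
      fun g h k => funext fun e => (Z e).gm.cr g h k, fun g => funext fun e => (Z e).gm.det g,
      fun g h k l => funext fun e => (Z e).gm.sw g h k l⟩
  obtain ⟨h1, h2⟩ := P022G.Kd2.mem T γ (Pi.ringHom ψ).range
    (fun i => ⟨aS rc id i, funext fun e => hm_a (Z e) (hψ e) i⟩)
    (fun i => ⟨dS rc id i, funext fun e => hm_d (Z e) (hψ e) i⟩)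
    (fun i k => ⟨xS rc id i k, funext fun e => hm_x (Z e) (hψ e) i k⟩) (fun i => by
      have hu : IsUnit (aS rc id i * dS rc id i - xS rc id i i) := by
        rw [MvPowerSeries.isUnit_iff_constantCoeff]
        have h3 := hrc i
        rw [Matrix.det_fin_two] at h3
        simpa only [aS, dS, xS, map_sub, map_mul, map_add, constantCoeff_C, constantCoeff_X,
          add_zero] using h3
      obtain ⟨u, hu⟩ := hu.exists_right_inv
      refine ⟨u, (Units.inv_eq_of_mul_eq_one_right (funext fun e => ?_)).symm⟩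
      have := congrArg (ψ e) hu
      rw [map_mul, map_sub, map_mul, hm_a (Z e) (hψ e), hm_d (Z e) (hψ e), hm_x (Z e) (hψ e),
        (Z e).gm.det, map_one] at this
      exact this)
  obtain ⟨⟨f1, a1⟩, ⟨f2, a2⟩, -⟩ := h1 w hw
  obtain ⟨f3, a3⟩ := h2 w hw v hv
  exact ⟨⟨f1, fun e => (congrFun a1 e).trans (po_congr (Z e) (e1 e) (e2 e)).1.symm⟩,
    ⟨f2, fun e => (congrFun a2 e).trans (po_congr (Z e) (e1 e) (e2 e)).2.1.symm⟩,
    ⟨f3, fun e => (congrFun a3 e).trans (po_congr (Z e) (e1 e) (e2 e)).2.2.symm⟩⟩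

variable [IsLocalRing O] [IsNoetherianRing O] [IsAdicComplete (maximalIdeal O) O] [Finite F]
  [Fintype ι]

/-- a function on the points which is a power series on finite families is a power series -/
theorem ex_univ (Φ : ∀ (B : Type) [CommRing B], PO S B → B)
    (h : ∀ (σ : Type) [Finite σ] (B : σ → Type) [∀ e, CommRing (B e)] (Z : ∀ e, PO S (B e))
      (ψ : ∀ e, PS O (Sy ι) →+* B e), (∀ e, (Z e).Cl L Q) →
      (∀ e, Hm (Z e).ι ((Z e).val rc γ) (ψ e)) → ∃ f, ∀ e, ψ e f = Φ _ (Z e)) :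
    ∃ f, ∀ (B : Type) [CommRing B] (Z : PO S B) (ψ : PS O (Sy ι) →+* B), Z.Cl L Q →
      Hm Z.ι (Z.val rc γ) ψ → ψ f = Φ B Z := by
  have := P022D.CA.Cpl.isAdicCompleteV (σ := Sy ι) (V := O) inferInstance
  obtain ⟨f, hf⟩ := cpt (maximalIdeal (PS O (Sy ι))) (fin_pow S)
    {s | ∃ (B : Type) (_ : CommRing B) (Z : PO S B) (ψ : PS O (Sy ι) →+* B),
      (Z.Cl L Q ∧ Hm Z.ι (Z.val rc γ) ψ) ∧ s = {f | ψ f = Φ B Z}} (by
      rintro _ ⟨B, _, Z, ψ, hZ, rfl⟩
      obtain ⟨k, hk⟩ := hm_nil Z hZ.2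
      refine ⟨k, fun f hf f' e => ?_⟩
      have := hk _ e
      rw [map_sub, sub_eq_zero] at this
      exact this.symm.trans hf) (fun T hT => by
      choose B _ Z ψ hZ e using fun s : T => hT s.1 s.2
      obtain ⟨f, hf⟩ := h T B Z ψ (fun s => (hZ s).1) fun s => (hZ s).2
      exact ⟨f, fun s hs => (e ⟨s, hs⟩).ge (hf ⟨s, hs⟩)⟩)
  exact ⟨f, fun B _ Z ψ hZ hψ => hf _ ⟨B, _, Z, ψ, ⟨hZ, hψ⟩, rfl⟩⟩

/-- **the universal entries of level `Q`** -/
theorem uni [CharP F 2] (hg : Gen S Q γ) (hrc : ∀ i, IsUnit (rc i).det) :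
    ∃ (a b : GQ → PS O (Sy ι)) (x : GQ → GQ → PS O (Sy ι)), ∀ (B : Type) [CommRing B]
      (Z : PO S B) (ψ : PS O (Sy ι) →+* B), Z.Cl L Q → Hm Z.ι (Z.val rc γ) ψ →
      (∀ g, ψ (a g) = Z.a g) ∧ (∀ g, ψ (b g) = Z.b g) ∧ ∀ g h, ψ (x g h) = Z.x g h := by
  choose a ha using fun g => ex_univ (L := L) (Q := Q) (rc := rc) (γ := γ) (fun B _ Z => Z.a g)
    fun σ _ B _ Z ψ hZ hψ => (ex_fin hg hrc Z ψ hZ hψ g g).1
  choose b hb using fun g => ex_univ (L := L) (Q := Q) (rc := rc) (γ := γ) (fun B _ Z => Z.b g)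
    fun σ _ B _ Z ψ hZ hψ => (ex_fin hg hrc Z ψ hZ hψ g g).2.1
  choose x hx using fun g h => ex_univ (L := L) (Q := Q) (rc := rc) (γ := γ)
    (fun B _ Z => Z.x g h) fun σ _ B _ Z ψ hZ hψ => (ex_fin hg hrc Z ψ hZ hψ g h).2.2
  exact ⟨a, b, x, fun B _ Z ψ hZ hψ => ⟨fun g => ha g B Z ψ hZ hψ, fun g => hb g B Z ψ hZ hψ,
    fun g h => hx g h B Z ψ hZ hψ⟩⟩

omit [IsNoetherianRing O] [IsAdicComplete (maximalIdeal O) O] [Finite F] [Fintype ι] in
theorem rcr_unit (hL : OkG L S) {κ : Type} {gk : κ → GQ} (G : Gs S L gk ι) (r : ℕ)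
    (i : ι ⊕ Fin r) : IsUnit (G.rcr r i).det := by
  rcases i with i | i
  · rw [← notMem_maximalIdeal, ← hL.ker, RingHom.map_det]
    have h3 := hL.det (G.γ i)
    rw [← hL.lift] at h3
    exact fun e => one_ne_zero (h3.symm.trans e)
  · show IsUnit (1 : M2 O).det
    rw [Matrix.det_one]
    exact isUnit_one

end LamP

theorem lamC : LAM := by
  intro O F _ _ _ _ _ _ _ ϖ S L X as β τ ι' _ _ _ K ι _ G hϖ hC hK r q τ' hq
  haveI := Coef.cpl (O := O)
  obtain ⟨a, b, x, h⟩ := LamP.uni (L := L) (rc := G.rcr r) (G.gen r q τ' hq)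
    (LamP.rcr_unit hC.cx.ok G r)
  refine ⟨fun g => a g + b g, fun g => a g * b g - x g g, fun B _ Z ψ hZ hψ g => ?_⟩
  obtain ⟨h1, h2, h3⟩ := h B Z ψ hZ hψ
  exact ⟨by rw [map_add, h1, h2, Z.gm.sum], by rw [map_sub, map_mul, h1, h2, h3, Z.gm.det]⟩

end Vale.Agent.P022G
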