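import Vale.Agent.P022G.Rows
import Vale.Agent.P022G.Nice5

/-! # P022G, row NICE -/

set_option linter.all false

noncomputable section

namespace Vale.Agent.P022G.Nice

open NumberField IsLocalRing Vale.Agent.P022
open Vale.Agent.P022D.Sel (Ginf M2)
open _root_.P022G.Sel (mr rd tI Lv)
open Vale.Agent.P027M.S (mx)
open Vale.Agent.P022D.Core (PS Coef)
open Vale.Agent.P022E.Loc (Pl)
open Vale.Agent.P022G.R Vale.Agent.P022G.Loc

/-- a homomorphism to a domain of characteristic two kills the maximal ideal -/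
theorem kills {O V : Type} [CommRing O] [IsDomain O] [IsDiscreteValuationRing O] [Coef O]
    [CommRing V] [IsDomain V] [CharP V 2] (j : O →+* V) : ∀ o ∈ maximalIdeal O, j o = 0 := by
  obtain ⟨p, hp⟩ := IsDiscreteValuationRing.exists_irreducible O
  obtain ⟨n, u, e⟩ := IsDiscreteValuationRing.eq_unit_mul_pow_irreducible (Coef.ne (O := O)) hp
  have h : j 2 = 0 := by
    rw [map_ofNat]
    exact CharP.cast_eq_zero V 2
  rw [e, map_mul, map_pow] at h
  have h1 : j p = 0 := pow_eq_zero_iff' |>.1 ((mul_eq_zero.1 h).resolve_left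
    (u.isUnit.map j).ne_zero) |>.1
  intro o ho
  rw [hp.maximalIdeal_eq, Ideal.mem_span_singleton] at ho
  obtain ⟨c, rfl⟩ := ho
  rw [map_mul, h1, zero_mul]

theorem fin_q {V : Type} [CommRing V] [IsDomain V] [IsDiscreteValuationRing V]
    [Finite (ResidueField V)] {t : V} (ht : Irreducible t) (N : ℕ) : Finite (V ⧸ tI t N) := by
  have : Finite (V ⧸ Ideal.span {t}) := by
    rw [← ht.maximalIdeal_eq]
    exact ‹Finite (ResidueField V)›
  rw [tI, ← Ideal.span_singleton_pow]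
  exact Ideal.finite_quotient_pow ⟨{t}, by simp⟩ N

variable {O F : Type} [CommRing O] [IsLocalRing O] [Field F]
  {S : Dat O F} {L : Pl O} {κ : Type} {gk : κ → GQ} {ι : Type} (G : Gs S L gk ι)
  {V : Type} [CommRing V] [IsDomain V] [IsDiscreteValuationRing V] [CharP V 2]

/-- the kernel of the residual representation acts trivially modulo `t` -/
theorem rd_res (hL : OkG L S) {t : V} {j : O →+* V} (hj : ∀ o ∈ maximalIdeal O, j o = 0)
    {ρ : GQ →* GL (Fin 2) V} {θ : PS O (Sy ι) →+* V} (h : G.Crv t j ρ θ) {g : GQ}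
    (hg : S.rb g = 1) : rd (tI t 1) ρ g = 1 := by
  rw [rd_one]
  intro a b
  have e : j (L.r g a b - (1 : M2 O) a b) = 0 := hj _ ((hL.ker _).1 (by
    rw [map_sub, show S.red (L.r g a b) = mx S.rb g a b from congrFun (congrFun (hL.lift g) a) b,
      mx, hg, Units.val_one, Matrix.one_apply, Matrix.one_apply]
    split_ifs <;> simp))
  have e2 : j (L.r g a b) = (1 : M2 V) a b := by
    rw [map_sub, sub_eq_zero] at e
    rw [e, Matrix.one_apply, Matrix.one_apply]
    split_ifs <;> simp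
  have := h.res g a b
  rwa [e2, ← pow_one t] at this

/-- the generators generate modulo every power of `t` -/
theorem gen_rd [Finite (ResidueField V)] (hL : OkG L S) {t : V} (ht : Irreducible t)
    {j : O →+* V} (hj : ∀ o ∈ maximalIdeal O, j o = 0) {ρ : GQ →* GL (Fin 2) V}
    {θ : PS O (Sy ι) →+* V} (h : G.Crv t j ρ θ) (N : ℕ) (g : GQ) :
    rd (tI t N) ρ g ∈ Submonoid.closure (Set.range fun i => rd (tI t N) ρ (G.γ i)) := by
  haveI := fin_q ht N
  have k := G.gen 0 Fin.elim0 Fin.elim0 (fun i => i.elim0) _ (rd (tI t N) ρ) (h.lv N).opn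
    (fun g hg => ⟨N, by rw [← map_pow]; exact rd_two ρ (rd_res G hL hj h hg) N⟩)
    (fun l hl hT _ P hP hm s hs => (h.lv N).unr l hT P ⟨hl, hP, hm⟩ s hs) g
  rw [← Subgroup.closure_toSubmonoid_of_finite]
  refine Subgroup.closure_mono ?_ k
  rintro _ ⟨i | i, rfl⟩
  · exact ⟨i, rfl⟩
  · exact i.elim0

/-- an off-diagonal entry which vanishes on the generators vanishes -/
theorem ent_zero [Finite (ResidueField V)] (hL : OkG L S) {t : V} (ht : Irreducible t)
    {j : O →+* V} (hj : ∀ o ∈ maximalIdeal O, j o = 0) {ρ : GQ →* GL (Fin 2) V}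
    {θ : PS O (Sy ι) →+* V} (h : G.Crv t j ρ θ) {a b : Fin 2} (hab : a ≠ b)
    (h0 : ∀ i, mr ρ (G.γ i) a b = 0) (g : GQ) : mr ρ g a b = 0 := by
  refine sep_max _ fun N => ?_
  rw [ht.maximalIdeal_eq, Ideal.span_singleton_pow, ← Ideal.Quotient.eq_zero_iff_mem]
  have k : ∀ u ∈ Submonoid.closure (Set.range fun i => rd (tI t N) ρ (G.γ i)),
      (u : M2 (V ⧸ tI t N)) a b = 0 := fun u hu => by
    induction hu using Submonoid.closure_induction with
    | mem x hx =>
      obtain ⟨i, rfl⟩ := hx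
      show Ideal.Quotient.mk (tI t N) (mr ρ (G.γ i) a b) = 0
      rw [h0, map_zero]
    | one => rw [Units.val_one, Matrix.one_apply_ne hab]
    | mul x y _ _ hx hy =>
      rw [Units.val_mul, Matrix.mul_apply, Fin.sum_univ_two]
      fin_cases a <;> fin_cases b
      · exact absurd rfl hab
      · simp only [Fin.zero_eta, Fin.mk_one] at hx hy ⊢
        rw [hx, hy, mul_zero, zero_mul, add_zero]
      · simp only [Fin.zero_eta, Fin.mk_one] at hx hy ⊢
        rw [hx, hy, mul_zero, zero_mul, add_zero]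
      · exact absurd rfl hab
  exact k _ (gen_rd G hL ht hj h N g)

theorem ent_ne {t : V} {ρ : GQ →* GL (Fin 2) V} {T : Finset ℕ} {D : ℕ → Set GQ}
    (h : _root_.P022G.Sel.Nice t ρ T D) (a b : Fin 2) : ∃ g, mr ρ g a b ≠ 0 := by
  by_contra hn
  push Not at hn
  obtain ⟨δ, h0, hδ⟩ := h.irr
  have k : ∀ W ∈ Submodule.span V (mr ρ '' (Ginf : Set GQ)), W a b = 0 := fun W hW => by
    induction hW using Submodule.span_induction with
    | mem x hx =>
      obtain ⟨g, -, rfl⟩ := hx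
      exact hn g
    | zero => rfl
    | add x y _ _ hx hy => rw [Matrix.add_apply, hx, hy, add_zero]
    | smul c x _ hx => rw [Matrix.smul_apply, hx, smul_zero]
  have := k _ (hδ (Matrix.of fun _ _ => 1))
  rw [Matrix.smul_apply, Matrix.of_apply, smul_eq_mul, mul_one] at this
  exact h0 this

theorem shp (hL : OkG L S) {t : V} {j : O →+* V} (hj : ∀ o ∈ maximalIdeal O, j o = 0)
    {ρ : GQ →* GL (Fin 2) V} {θ : PS O (Sy ι) →+* V} (h : G.Crv t j ρ θ) :
    _root_.P022G.Lb90.Shp t ρ := by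
  have k : ∀ g a b, mx S.rb g a b = 0 → t ∣ mr ρ g a b := fun g a b e => by
    have := h.res g a b
    rwa [hj _ ((hL.ker _).1 ((congrFun (congrFun (hL.lift g) a) b).trans e)), sub_zero] at this
  exact ⟨L.H, fun g hg => ⟨k _ _ _ (hL.dh.dg g hg).1, k _ _ _ (hL.dh.dg g hg).2⟩,
    fun g hg => ⟨k _ _ _ (hL.dh.ad g hg).1, k _ _ _ (hL.dh.ad g hg).2⟩⟩

theorem irr_of [Finite (ResidueField V)] (hL : OkG L S) {t : V} (ht : Irreducible t)
    {j : O →+* V} (hj : ∀ o ∈ maximalIdeal O, j o = 0) {ρ : GQ →* GL (Fin 2) V}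
    {θ : PS O (Sy ι) →+* V} (h : G.Crv t j ρ θ) (hn : _root_.P022G.Sel.Nice t ρ S.T L.D) :
    G.Irr (RingHom.ker θ) := by
  obtain ⟨g, hg⟩ := ent_ne hn 0 1
  obtain ⟨g', hg'⟩ := ent_ne hn 1 0
  obtain ⟨i, hi⟩ := not_forall.1 fun e => hg (ent_zero G hL ht hj h (by decide) e g)
  obtain ⟨k, hk⟩ := not_forall.1 fun e => hg' (ent_zero G hL ht hj h (by decide) e g')
  refine ⟨i, k, fun e => mul_ne_zero hi hk ?_⟩
  rw [RingHom.mem_ker, xS, map_add, h.hm.c, h.hm.x] at e
  simp only [id, sv, gv, Sum.elim_inr] at e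
  linear_combination e

end Vale.Agent.P022G.Nice

namespace Vale.Agent.P022G

theorem nice : NICE := by
  intro O F _ _ _ _ _ _ _ ϖ S L X as β τ ι' _ _ _ K ι _ G _ hC _ V _ _ _ _ _ _ t j ρ θ ht h hcv h0
  have hj := Nice.kills j
  have hn := Nice.crvNice G hC.cx ht hj h (h0 _)
    (Nice.ex_var (ι := ι) hj h.hm.c (Nice.not_max hcv.2))
  exact ⟨hn, Nice.shp G hC.cx.ok hj h, Nice.irr_of G hC.cx.ok ht hj h hn⟩

end Vale.Agent.P022G
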