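import Vale.Agent.P022G.Rows
import Vale.Agent.P022G.Kd.A

/-! P022G: the entries of a pseudo object are the fixed polynomials in the traces. -/

set_option linter.all false

noncomputable section

namespace Vale.Agent.P022G

open NumberField IsLocalRing
open Vale.Agent.P022 Vale.Agent.P022G.R Vale.Agent.P022G.Loc
open Vale.Agent.P027M.S (Inert mx)
open Vale.Agent.P022D.Sel (M2)
open Vale.Agent.P022E.Loc (Pl)
open Vale.Agent.P022E.As (Tg cc tt)

namespace Pov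

variable {O F B : Type} [CommRing O] [Field F] [CommRing B]

/-- roots of unity of odd order are determined by their residues -/
theorem odd_eq [CharP F 2] (π : B →+* F) (loc : ∀ u, π u ≠ 0 → IsUnit u) {x y : B} {m n : ℕ}
    (hm : Odd m) (hn : Odd n) (hx : x ^ m = 1) (hy : y ^ n = 1) (h : π x = π y) : x = y := by
  have x1 : x ^ (m * n) = 1 := by rw [pow_mul, hx, one_pow]
  have y1 : y ^ (m * n) = 1 := by rw [mul_comm, pow_mul, hy, one_pow]
  have e := Commute.geom_sum₂_mul (Commute.all x y) (m * n)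
  rw [x1, y1, sub_self] at e
  have y0 : π y ≠ 0 := fun z => by
    have := congrArg π hy
    rw [map_pow, z, zero_pow hn.pos.ne', map_one] at this
    exact zero_ne_one this
  refine sub_eq_zero.1 ((loc _ ?_).mul_right_eq_zero.1 e)
  simp only [map_sum, map_mul, map_pow, h]
  rw [geom_sum₂_self, CharTwo.natCast_eq_ite, if_neg (Nat.not_even_iff_odd.2 (hm.mul hn)), one_mul]
  exact pow_ne_zero _ y0

theorem dg_pow {R : Type} [CommRing R] {M : M2 R} (h1 : M 0 1 = 0) (h2 : M 1 0 = 0) (n : ℕ) :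
    (M ^ n) 0 0 = M 0 0 ^ n ∧ (M ^ n) 1 1 = M 1 1 ^ n := by
  induction n with
  | zero => simp
  | succ n ih =>
    simp only [pow_succ, Matrix.mul_apply, Fin.sum_univ_two, h1, h2, ih.1, ih.2, mul_zero,
      add_zero, zero_add, and_self]

variable [IsLocalRing O] {S : Dat O F} {L : Pl O} {X : Finset ℕ} {as : ℕ}

/-- the eigenvalues of `g0` are constant -/
theorem eig [CharP F 2] (h : Cy S L X as) (Z : PO S B) :
    Z.a S.g0 = Z.ι (L.r S.g0 0 0) ∧ Z.b S.g0 = Z.ι (L.r S.g0 1 1) := by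
  haveI : IsGalois ℚ Qb := IsAlgClosure.isGalois ℚ Qb
  haveI := Z.N_normal
  haveI := Z.fin
  haveI : Finite (GQ ⧸ Z.N) := Subgroup.quotient_finite_of_isOpen Z.N Z.N_open
  obtain ⟨m, m1, hm⟩ := h.odd (GQ ⧸ Z.N) (QuotientGroup.mk' Z.N)
    (by simp only [QuotientGroup.mk'_apply, QuotientGroup.eq_one_iff]; exact Z.N_open)
  rw [← map_pow] at hm
  have k := Z.N_inv _ ((QuotientGroup.eq_one_iff _).1 hm) 1
  rw [one_mul, Z.gm.a1, Z.gm.b1] at k
  have pw : ∀ n : ℕ, Z.a (S.g0 ^ n) = Z.a S.g0 ^ n ∧ Z.b (S.g0 ^ n) = Z.b S.g0 ^ n := fun n => by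
    induction n with
    | zero => simp [Z.gm.a1, Z.gm.b1]
    | succ n ih => rw [pow_succ, Z.gm.am, Z.gm.bm, (Z.x0 _).1, (Z.x0 _).2, ih.1, ih.2, add_zero,
        add_zero, pow_succ, pow_succ]; exact ⟨rfl, rfl⟩
  obtain ⟨N, hN⟩ := Z.nil
  let f0 : GQ →* M2 B := (Z.ι.mapMatrix (m := Fin 2)).toMonoidHom.comp L.r
  let q := Ideal.Quotient.mk (maximalIdeal O ^ N)
  let f1 : GQ →* M2 (O ⧸ maximalIdeal O ^ N) := (q.mapMatrix (m := Fin 2)).toMonoidHom.comp L.r
  have le : maximalIdeal O ^ N ≤ RingHom.ker Z.ι := by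
    rw [RingHom.ker_eq_comap_bot, ← hN]
    refine le_trans (Ideal.pow_right_mono (fun c hc => ?_) N) (Ideal.le_comap_pow _ N)
    show Z.π (Z.ι c) = 0
    rw [Z.alg]
    exact (h.cx.ok.ker c).2 hc
  obtain ⟨n, n1, hn⟩ := h.odd (M2 B)ˣ f0.toHomUnits
    (Subgroup.isOpen_mono (H₁ := f1.ker) (H₂ := f0.toHomUnits.ker) (fun g hg => Units.ext (by
      have hg' : q.mapMatrix (L.r g) = q.mapMatrix 1 := by rw [map_one]; exact hg
      show Z.ι.mapMatrix (L.r g) = 1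
      rw [← map_one Z.ι.mapMatrix]
      ext i j
      exact (RingHom.sub_mem_ker_iff _).1
        (le (Ideal.Quotient.eq.1 (congrFun (congrFun hg' i) j))))) (h.cx.ok.cont N))
  have e : f0 S.g0 ^ n = 1 := by
    have := congrArg Units.val hn
    rwa [Units.val_pow_eq_pow_val] at this
  have d := dg_pow (M := f0 S.g0) (by show Z.ι (L.r S.g0 0 1) = 0; rw [h.cx.g0.2.2.1, map_zero])
    (by show Z.ι (L.r S.g0 1 0) = 0; rw [h.cx.g0.2.2.2, map_zero]) n
  rw [e, Matrix.one_apply_eq, Matrix.one_apply_eq] at d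
  have lf : ∀ a b, S.red (L.r S.g0 a b) = mx S.rb S.g0 a b := fun a b =>
    congrFun (congrFun (h.cx.ok.lift S.g0) a) b
  exact ⟨odd_eq Z.π Z.loc m1 n1 ((pw m).1.symm.trans k.1) d.1.symm (by rw [Z.ra, Z.alg, lf]),
    odd_eq Z.π Z.loc m1 n1 ((pw m).2.symm.trans k.2) d.2.symm (by rw [Z.rb, Z.alg, lf])⟩

theorem pov [CharP F 2] (h : Cy S L X as) (Z : PO S B) (u : Tg O →+* B) (hu : Z.Std u) :
    (∀ g, u (aT S L g) = Z.a g ∧ u (dT S L g) = Z.b g) ∧ ∀ g k, u (xT S L g k) = Z.x g k := by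
  obtain ⟨e0, e1⟩ := eig h Z
  have un : IsUnit (L.r S.g0 0 0 - L.r S.g0 1 1) := by
    by_contra n
    have := (h.cx.ok.ker _).2 ((mem_maximalIdeal _).2 n)
    have lf : ∀ a b, S.red (L.r S.g0 a b) = mx S.rb S.g0 a b := fun a b =>
      congrFun (congrFun (h.cx.ok.lift S.g0) a) b
    rw [map_sub, lf, lf, sub_eq_zero] at this
    exact S.dne this
  have iv := congrArg Z.ι (Ring.mul_inverse_cancel _ un)
  rw [map_mul, map_sub, map_one, ← e0, ← e1] at iv
  have ea : ∀ g, u (aT S L g) = Z.a g := fun g => by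
    rw [aT, P022D.Gma.ent, map_mul, map_sub, map_mul, hu.c, hu.c, hu.t, hu.t, ← e1, ← Z.gm.sum,
      ← Z.gm.sum, Z.gm.am, Z.gm.bm, (Z.x0 _).1, (Z.x0 _).2]
    linear_combination Z.a g * iv
  refine ⟨fun g => ⟨ea g, ?_⟩, fun g k => ?_⟩
  · rw [dT, map_sub, hu.t, ea, ← Z.gm.sum, add_sub_cancel_left]
  · rw [xT, map_sub, map_mul, ea, ea, ea, Z.gm.am, add_sub_cancel_left]

end Pov

theorem povC : POV := fun O F _ _ _ _ _ _ _ ϖ S L X as β τ ι' _ _ _ K ι _ G _ hC _ B _ Z u hu =>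
  Pov.pov hC Z u hu

end Vale.Agent.P022G
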