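import Vale.Agent.P022G.Rows
import Vale.Agent.P022G.Tor2
import Vale.Agent.P022G.Kdel
import Vale.Agent.P022G.Kdel2
import Vale.Agent.P022D.As.Cov

/-!
# P022G, row RCOV: the cover, the curve and the ring of level zero
-/

set_option linter.all false

noncomputable section

namespace Vale.Agent.P022G

open NumberField IsLocalRing MvPowerSeries Filter
open Vale.Agent.P022 Vale.Agent.P022G.R Vale.Agent.P022G.Loc
open Vale.Agent.P027M.S (Inert mx)
open Vale.Agent.P022D.Sel (M2)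
open Vale.Agent.P022D.Core (PS io y1 Coef)
open Vale.Agent.P022E.Loc (Pl)
open Vale.Agent.P022E.GW (Ov Gn)

namespace Rcov

variable {O F : Type} [CommRing O] [Field F] {S : Dat O F} {L : Pl O}

/-- evaluations with values in the maximal ideal are unique -/
theorem hm_ext [IsLocalRing O] {σ B : Type} [Fintype σ] [CommRing B] [IsNoetherianRing B]
    [IsLocalRing B] {j : O →+* B} {v : σ → B} {θ θ' : PS O σ →+* B} (h : Hm j v θ)
    (h' : Hm j v θ') (hj : ∀ c ∈ maximalIdeal O, j c ∈ maximalIdeal B)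
    (hv : ∀ s, v s ∈ maximalIdeal B) : θ = θ' :=
  Tor.hom_ext (Tor.loc_of (fun c hc => h.c c ▸ hj c hc) fun s => h.x s ▸ hv s)
    (Tor.loc_of (fun c hc => h'.c c ▸ hj c hc) fun s => h'.x s ▸ hv s)
    (fun c => (h.c c).trans (h'.c c).symm) fun s => (h.x s).trans (h'.x s).symm

/-- the residual representation as a homomorphism to matrices -/
def rm (S : Dat O F) : GQ →* M2 F := (Units.coeHom _).comp S.rb

/-- the residual pseudo object -/
def Z0 [Finite F] [IsLocalRing O] (h : OkG L S) : PO S F where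
  ι := S.red
  π := RingHom.id F
  t g := (rm S g).trace
  d := Matrix.GeneralLinearGroup.det.comp (rm S).toHomUnits
  a g := rm S g 0 0
  b g := rm S g 1 1
  x g k := rm S g 0 1 * rm S k 1 0
  fin := inferInstance
  loc u hu := isUnit_iff_ne_zero.2 hu
  alg _ := rfl
  tf := _root_.P022G.Kd.tf_rep _
  gm := _root_.P022G.Kd2.gm_rep _
  x0 g := ⟨by rw [show rm S S.g0 0 1 = 0 from S.d01, zero_mul],
    by rw [show rm S S.g0 1 0 = 0 from S.d10, mul_zero]⟩
  ra _ := rfl
  rb _ := rfl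
  rx _ _ := rfl
  opn := ⟨S.rb.ker, h.dh.opn, fun u hu g => by
    have : rm S u = 1 := congrArg Units.val (show S.rb u = 1 from hu)
    rw [map_mul, this, mul_one]⟩

theorem rm_eq [IsLocalRing O] (h : OkG L S) (g : GQ) : rm S g = (L.r g).map S.red := (h.lift g).symm

theorem Z0_d [Finite F] [IsLocalRing O] (h : OkG L S) (g : GQ) :
    ((Z0 h).d g : F) = S.red (L.r g).det := by
  show (rm S g).det = _
  rw [rm_eq h, RingHom.map_det]
  rfl

theorem Z0_t [Finite F] [IsLocalRing O] (h : OkG L S) (g : GQ) :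
    (Z0 h).t g = S.red (L.r g).trace := by
  show (rm S g).trace = _
  rw [rm_eq h, Matrix.trace_fin_two, Matrix.trace_fin_two, map_add]
  rfl

theorem rm_one [IsLocalRing O] {X : Finset ℕ} {as : ℕ} (h : Cx S L X as) {l : ℕ} (hl : l ∉ S.T)
    {P : Ideal (𝓞 Qb)} (hP : Ov l P) {s : GQ} (hs : Inert P s) : L.r s = 1 :=
  h.unr l hP.1 (Or.inl hl) P hP.2.1 hP.2.2 s hs

theorem Z0_cl [Finite F] [IsLocalRing O] {X : Finset ℕ} {as : ℕ} (h : Cx S L X as)
    (Q : Finset ℕ) : (Z0 h.ok).Cl L Q where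
  d2 g _ := Z0_d _ g
  dc := by rw [Z0_d, h.ok.odd, map_neg, map_one]
  dl l _ := Z0_d _ _
  ty l hl := by
    obtain ⟨y, y1, y2, y3⟩ := h.ok.ty l hl
    refine ⟨S.red y, ?_, y2, ?_⟩
    · have := congrArg S.red y1
      rw [map_add, map_sub, map_pow, map_mul, map_zero] at this
      rw [Z0_t, Z0_d]
      exact this
    · have := congrArg S.red y3
      rw [map_sub, map_mul S.red, map_mul S.red, map_sub, map_mul S.red, map_ofNat] at this
      rw [Z0_t, Z0_t, Z0_t]
      exact this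
  unr l hl h1 _ P p1 p2 s hs g := by
    rw [Z0_t, Z0_t, map_mul, rm_one h h1 ⟨hl, p1, p2⟩ hs, mul_one]

theorem Z0_val [Finite F] [IsLocalRing O] (h : OkG L S) {ι : Type} {rc : ι → M2 O} {γ : ι → GQ}
    (e : ∀ i, rc i = L.r (γ i)) (s : Sy ι) : (Z0 h).val rc γ s = 0 := by
  rcases s with i | i | ⟨i, k⟩
  · show rm S (γ i) 0 0 - S.red (rc i 0 0) = 0
    rw [rm_eq h, e, Matrix.map_apply, sub_self]
  · show rm S (γ i) 1 1 - S.red (rc i 1 1) = 0
    rw [rm_eq h, e, Matrix.map_apply, sub_self]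
  · show rm S (γ i) 0 1 * rm S (γ k) 1 0 - S.red (rc i 0 1 * rc k 1 0) = 0
    rw [rm_eq h, rm_eq h, e, e, Matrix.map_apply, Matrix.map_apply, map_mul, sub_self]

variable {β : Type} {τ ι' : β → Type} {K : Kx O β τ ι' L.C} {ι : Type} {G : Gs S L K.g ι} {r : ℕ}

/-- naturality of the coordinates -/
theorem val_map {B B' : Type} [CommRing B] [CommRing B'] (u : B →+* B') (j : O →+* B)
    (j' : O →+* B') (hj : ∀ o, u (j o) = j' o) (w : (Σ b, τ b) → M2 B) (Φ T : L.C → M2 B)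
    (i : Ix τ L) : u (K.val j w Φ T i) =
      K.val j' (fun t => (w t).map u) (fun γ => (Φ γ).map u) (fun γ => (T γ).map u) i := by
  have m : ∀ (a b : M2 O) (Z : M2 B) p q, u ((a.map j * Z * b.map j) p q) =
      (a.map j' * Z.map u * b.map j') p q := fun a b Z p q => by
    simp only [Matrix.mul_apply, Fin.sum_univ_two, Matrix.map_apply, map_add, map_mul, hj]
  rcases i with t | ⟨γ, x⟩
  · simp only [Kx.val, Sum.elim_inl, map_sub, hj, Matrix.map_apply]
  · simp only [Kx.val, Sum.elim_inr]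
    fin_cases x <;> simp [e8, m, hj]

section ev
variable {B : Type} [CommRing B] {j : O →+* B} {ρ : GQ → M2 B} {α α' : ℕ → M2 B}
  {τ' : Fin r → GQ} {θ : PS O (V0 τ L ι S.T r) →+* B}

theorem map_Z (h : Hm j (v0 K G r j ρ α α' τ') θ) (i : ι ⊕ Fin r) :
    (ZS K G r i).map θ = ρ (Sum.elim G.γ τ' i) := by
  ext a b
  fin_cases a <;> fin_cases b
  · show θ (aS _ _ i) = _
    rw [aS, map_add, h.c, h.x]
    exact add_sub_cancel _ _
  · show θ (C _ + X _) = _
    rw [map_add, h.c, h.x]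
    exact add_sub_cancel _ _
  · show θ (C _ + X _) = _
    rw [map_add, h.c, h.x]
    exact add_sub_cancel _ _
  · show θ (dS _ _ i) = _
    rw [dS, map_add, h.c, h.x]
    exact add_sub_cancel _ _

theorem map_x (h : Hm j (v0 K G r j ρ α α' τ') θ) (i k : ι ⊕ Fin r) :
    θ (xS (G.rcr r) (e0 r) i k) = ρ (Sum.elim G.γ τ' i) 0 1 * ρ (Sum.elim G.γ τ' k) 1 0 := by
  rw [xS, map_add, h.c, h.x]
  exact add_sub_cancel _ _

theorem map_α (h : Hm j (v0 K G r j ρ α α' τ') θ) (h1 : ∀ l ∉ S.T, α l = 1) (l : ℕ) :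
    (αS τ L ι S.T r l).map θ = α l := by
  unfold αS
  split_ifs with hl
  · ext a b
    rw [Matrix.map_apply, Matrix.add_apply, map_add, Matrix.of_apply, h.x]
    show θ _ + (α l - 1) a b = _
    rw [Matrix.sub_apply, Matrix.one_apply, Matrix.one_apply]
    split_ifs <;> simp
  · rw [h1 l hl, Matrix.map_one _ (map_zero θ) (map_one θ)]

theorem α_unit (l : ℕ) : IsUnit (αS (O := O) τ L ι S.T r l).det := by
  unfold αS
  split_ifs with hl
  · rw [MvPowerSeries.isUnit_iff_constantCoeff, Matrix.det_fin_two]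
    simp
  · simp

theorem map_l (h : Hm j (v0 K G r j ρ α α' τ') θ) (h1 : ∀ l ∉ S.T, α l = 1)
    (h2 : ∀ l, α l * α' l = 1) (l : ℕ) (i : ι) :
    (lS K G r l i).map θ = α' l * ρ (G.γ i) * α l := by
  have e : ((αS τ L ι S.T r l)⁻¹).map θ = α' l := by
    have := congrArg (fun m => m.map θ) (Matrix.nonsing_inv_mul _ (α_unit (O := O) (S := S)
      (L := L) (τ := τ) (ι := ι) (r := r) l))
    simp only [Matrix.map_mul] at this
    rw [map_α h h1, Matrix.map_one _ (map_zero θ) (map_one θ)] at this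
    rw [← mul_one (Matrix.map _ θ), ← h2 l, ← mul_assoc, this, one_mul]
  rw [lS, Matrix.map_mul, Matrix.map_mul, e, map_Z h, map_α h h1]
  rfl

/-- the tautological relations hold at every framed point -/
theorem t0_le (h : Hm j (v0 K G r j ρ α α' τ') θ) (h1 : ∀ l ∉ S.T, α l = 1)
    (h2 : ∀ l, α l * α' l = 1) (h3 : ρ S.g0 0 1 = 0 ∧ ρ S.g0 1 0 = 0)
    (h4 : α S.l0 0 0 = 1 ∧ α S.l0 1 1 = 1) : t0 K G r ≤ RingHom.ker θ := by
  have z := fun i a b => congrFun (congrFun (map_Z h i) a) b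
  have w := fun a b => congrFun (congrFun (map_α h h1 S.l0) a) b
  simp only [Matrix.map_apply] at z w
  refine Ideal.span_le.2 ?_
  rintro _ ((⟨p, rfl⟩ | ⟨i, rfl⟩) | rfl | rfl | rfl | rfl) <;> refine RingHom.mem_ker.2 ?_
  · rw [map_sub, map_mul, map_x h, z, z, sub_self]
  · rw [map_sub, h.x, κS, val_map θ C j h.c]
    simp only [map_l h h1 h2, G.hK, G.hφ, G.hτ]
    exact sub_self _
  · rw [z, Sum.elim_inl, G.h0, h3.1]
  · rw [z, Sum.elim_inl, G.h0, h3.2]
  · rw [map_sub, w, h4.1, map_one, sub_self]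
  · rw [map_sub, w, h4.2, map_one, sub_self]

end ev

/-- the symbols of level zero inside all symbols -/
def em (ι : Type) (r : ℕ) : Sy ι ↪ Sy (ι ⊕ Fin r) ⊕ Fin r :=
  ((Function.Embedding.inl (α := ι) (β := Fin r)).sumMap
    ((Function.Embedding.inl (α := ι) (β := Fin r)).sumMap
      ((Function.Embedding.inl (α := ι) (β := Fin r)).prodMap
        (Function.Embedding.inl (α := ι) (β := Fin r))))).trans Function.Embedding.inl

theorem jv_em (s : Sy ι) : G.jv r (em ι r s) = X s := by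
  rcases s with i | i | ⟨i, k⟩
  · exact add_sub_cancel_left _ _
  · exact add_sub_cancel_left _ _
  · exact add_sub_cancel_left _ _

theorem jr_surj [IsLocalRing O] [IsNoetherianRing O] [Fintype ι] {jr : PP O ι r →+* PS O (Sy ι)}
    (h : Hm C (G.jv r) jr) : Function.Surjective jr := by
  let e : PS O (Sy ι) →+* PP O ι r := (MvPowerSeries.rename (R := O) (em ι r) : _ →ₐ[O] _)
  have k : jr.comp e = RingHom.id _ :=
    hm_ext (j := C) (v := fun s => X s)
      ⟨fun o => by rw [RingHom.comp_apply, show e (C o) = C o from rename_C _ o, h.c],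
        fun s => by
          rw [RingHom.comp_apply, show e (X s) = X (em ι r s) from rename_X _ s, h.x, jv_em]⟩
      ⟨fun _ => rfl, fun _ => rfl⟩
      (fun c hc => (P022D.CA.Cpl.mem_max_iff _).2 (by rwa [constantCoeff_C]))
      fun s => (P022D.CA.Cpl.mem_max_iff _).2 (by simp)
  exact fun f => ⟨e f, congrArg (fun φ : PS O (Sy ι) →+* PS O (Sy ι) => φ f) k⟩

theorem j_pi [IsDomain O] [IsDiscreteValuationRing O] [Coef O] {ϖ : O} (hϖ : Irreducible ϖ)
    {V : Type} [CommRing V] [IsDomain V] [CharP V 2] (j : O →+* V) : j ϖ = 0 := by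
  obtain ⟨n, u, e⟩ := IsDiscreteValuationRing.eq_unit_mul_pow_irreducible (Coef.ne (O := O)) hϖ
  have := congrArg j e
  rw [map_ofNat, CharTwo.two_eq_zero, map_mul, map_pow] at this
  exact eq_zero_of_pow_eq_zero ((mul_eq_zero.1 this.symm).resolve_left (u.isUnit.map j).ne_zero)

theorem j_max [IsDomain O] [IsDiscreteValuationRing O] [Coef O] {ϖ : O} (hϖ : Irreducible ϖ)
    {V : Type} [CommRing V] [IsDomain V] [CharP V 2] (j : O →+* V) {c : O}
    (hc : c ∈ maximalIdeal O) : j c = 0 := by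
  rw [hϖ.maximalIdeal_eq, Ideal.mem_span_singleton] at hc
  obtain ⟨d, rfl⟩ := hc
  rw [map_mul, j_pi hϖ, zero_mul]

/-- the two descriptions of the curve in the ring of symbols -/
theorem comp_eq [IsDomain O] [IsDiscreteValuationRing O] [Coef O] {ϖ : O} (hϖ : Irreducible ϖ)
    [Fintype β] [∀ b, Fintype (τ b)] [Fintype ι] {s : ℕ} {V : Type} [CommRing V] [IsDomain V]
    [IsDiscreteValuationRing V] [CharP V 2] {Y : Pc (S := S) (ι := ι) K r s V}
    (ht : Irreducible Y.t) (h : Y.Ok) : Y.θ.comp (ψ1 S L τ ι r) = Y.θA.comp Y.jr := by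
  have one : ((Y.ρ 1 : GL (Fin 2) V) : M2 V) = 1 := by rw [map_one, Units.val_one]
  have a1 : ∀ i, Y.θA (aS Y.G'.rc id i) = (Y.ρ (Y.G'.γ i) : M2 V) 0 0 := fun i => by
    rw [aS, map_add, h.crv.hm.c, h.crv.hm.x]
    exact add_sub_cancel _ _
  have a2 : ∀ i, Y.θA (dS Y.G'.rc id i) = (Y.ρ (Y.G'.γ i) : M2 V) 1 1 := fun i => by
    rw [dS, map_add, h.crv.hm.c, h.crv.hm.x]
    exact add_sub_cancel _ _
  have a3 : ∀ i k, Y.θA (xS Y.G'.rc id i k) =
      (Y.ρ (Y.G'.γ i) : M2 V) 0 1 * (Y.ρ (Y.G'.γ k) : M2 V) 1 0 := fun i k => by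
    rw [xS, map_add, h.crv.hm.c, h.crv.hm.x]
    exact add_sub_cancel _ _
  have rs : ∀ (i : ι ⊕ Fin r) a b, (Y.ρ (Sum.elim Y.G'.γ (fun _ => 1) i) : M2 V) a b -
      Y.j (Y.G'.rcr r i a b) ∈ maximalIdeal V := fun i a b => by
    rw [ht.maximalIdeal_eq, Ideal.mem_span_singleton]
    rcases i with i | i
    · exact h.crv.res _ a b
    · have := h.crv.res 1 a b
      rwa [map_one L.r] at this
  refine hm_ext (j := Y.j) (v := Sum.elim (sv (Y.G'.rcr r) Y.j
    fun i => (Y.ρ (Sum.elim Y.G'.γ (fun _ => 1) i) : M2 V)) fun _ => 0) ⟨fun o => ?_, fun z => ?_⟩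
    ⟨fun o => by rw [RingHom.comp_apply, h.jr.c, h.crv.hm.c], fun z => ?_⟩
    (fun c hc => by rw [j_max hϖ _ hc]; exact zero_mem _) fun z => ?_
  · rw [← h.cf.c o, RingHom.comp_apply, RingHom.comp_apply,
      show ψ1 S L τ ι r (C o) = C o from rename_C _ o, show io O _ r (C o) = C o from rename_C _ o]
  · rcases z with z | i
    · have := h.cf.x (e0 r z)
      rw [RingHom.comp_apply, show io O _ r (X (e0 r z)) = X (Sum.inl (e0 r z)) from
        rename_X _ _] at this
      rw [RingHom.comp_apply, show ψ1 S L τ ι r (X (Sum.inl z)) = X (Sum.inl (e0 r z)) from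
        rename_X _ _, this]
      rfl
    · rw [RingHom.comp_apply, show ψ1 S L τ ι r (X (Sum.inr i)) = X (Sum.inr i) from
        rename_X _ _]
      exact h.y0 i
  · rw [RingHom.comp_apply, h.jr.x]
    rcases z with ((i | i) | (i | i) | ⟨i | i, k | k⟩) | i <;>
      simp [Gs.jv, gv, sv, a1, a2, a3, h.crv.hm.c, one]
  · rcases z with (i | i | ⟨i, k⟩) | i
    · exact rs i 0 0
    · exact rs i 1 1
    · have := add_mem (Ideal.mul_mem_right
        ((Y.ρ (Sum.elim Y.G'.γ (fun _ => 1) k) : M2 V) 1 0) _ (rs i 0 1))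
        (Ideal.mul_mem_left _ (Y.j (Y.G'.rcr r i 0 1)) (rs k 1 0))
      convert this using 1
      simp only [Sum.elim_inl, Sum.elim_inr, sv, gv, map_mul]
      ring
    · exact zero_mem _

/-- the traces and determinants of the inertia elements are residually trivial -/
theorem ta_res [IsLocalRing O] [Finite F] [CharP F 2] {X : Finset ℕ} {as : ℕ} (hC : Cx S L X as)
    [Fintype β] [∀ b, Fintype (τ b)] [Fintype ι] {s : ℕ} {V : Type} [CommRing V]
    {Y : Pc (S := S) (ι := ι) K r s V} (h : Y.Ok) (i : Fin r) :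
    S.red (constantCoeff (Y.ta i)) = 0 ∧ S.red (constantCoeff (Y.da i)) = 1 := by
  have key : ∀ n, S.red (constantCoeff (Y.tn n i)) = 0 ∧ S.red (constantCoeff (Y.dn n i)) = 1 :=
    fun n => by
      obtain ⟨P, hP, hs⟩ := h.ine n i
      have k := h.tn n i F (Z0 hC.ok) (S.red.comp constantCoeff) (Z0_cl hC _)
        ⟨fun o => by rw [RingHom.comp_apply, constantCoeff_C]; rfl, fun z => by
          rw [RingHom.comp_apply, constantCoeff_X, map_zero, Z0_val hC.ok]
          rintro (a | a)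
          · rfl
          · obtain ⟨h1, P', hP', hg⟩ := h.gn n a
            exact (rm_one hC h1 hP' hg.1).symm⟩
      rw [Z0_t, Z0_d, rm_one hC (h.gn n i).1 hP hs, Matrix.trace_one, Matrix.det_one, map_one,
        map_natCast, Fintype.card_fin, CharP.cast_eq_zero] at k
      exact k
  have lim : ∀ (z : ℕ → PS O (Sy (ι ⊕ Fin r))) (a : PS O (Sy (ι ⊕ Fin r))) (c : F),
      P022D.PA.Cv (Y.U : Filter ℕ) z a → (∀ n, S.red (constantCoeff (z n)) = c) →
      S.red (constantCoeff a) = c := fun z a c hz hc => by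
    obtain ⟨n, hn⟩ := (hz 1).exists
    rw [pow_one, P022D.CA.Cpl.mem_max_iff, ← hC.ok.ker, map_sub, map_sub, hc, sub_eq_zero] at hn
    exact hn.symm
  exact ⟨lim _ _ _ (h.cvt i) fun n => (key n).1, lim _ _ _ (h.cvd i) fun n => (key n).2⟩

end Rcov

open Rcov in
/-- **row RCOV** -/
theorem rcovC (hO : COBJ) (hA : KDA) : RCOV := by
  intro O F _ _ _ _ _ _ _ ϖ S L X as β τ ι' _ _ _ K ι _ G hϖ hC hK r s V _ _ _ _ _ _ Y ht hG h
  subst hG
  have e := comp_eq hϖ ht h
  have p0 : (Y.rd ϖ).p0 = (RingHom.ker Y.θA).comap Y.jr := by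
    show (RingHom.ker Y.θ).comap (ψ1 S L τ ι r) = _
    rw [RingHom.comap_ker, RingHom.comap_ker, e]
  have cc : ∀ f, constantCoeff (ψ0 S L τ ι r f) = constantCoeff f := fun f =>
    constantCoeff_rename _ f
  have nu : ∀ f : S0 O τ L ι S.T r, S.red (constantCoeff f) = 0 → ¬ IsUnit f := fun f hf hu =>
    ((hu.map constantCoeff).map S.red).ne_zero hf
  refine ⟨P022D.As.cov O _ r _ _ fun i => ⟨nu _ ?_, nu _ ?_⟩, ?_, ?_, p0, jr_surj h.jr, ?_⟩
  · show S.red (constantCoeff (ψ0 S L τ ι r (Y.ta i) - 2)) = 0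
    rw [map_sub, map_sub, cc, (ta_res hC.cx h i).1, map_ofNat, map_ofNat, CharTwo.two_eq_zero,
      sub_zero]
  · show S.red (constantCoeff (1 - ψ0 S L τ ι r (Y.ta i) + ψ0 S L τ ι r (Y.da i))) = 0
    rw [map_add, map_add, map_sub, map_sub, cc, cc, (ta_res hC.cx h i).1, (ta_res hC.cx h i).2,
      map_one, map_one, sub_zero, CharTwo.add_self_eq_zero]
  · refine Ideal.map_le_iff_le_comap.2 ?_
    show _ ≤ (RingHom.ker Y.θ).comap (io O _ r)
    rw [RingHom.comap_ker]
    exact t0_le h.cf (fun _ _ => rfl) (fun _ => mul_one _) h.crv.dg ⟨rfl, rfl⟩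
  · rw [p0]
    exact Ideal.comap_mono ((hA O F ϖ S L X as β τ ι' K ι Y.G' hϖ hC hK).1.trans
      (hO O F ϖ S L X as β τ ι' K ι Y.G' hϖ hC hK V Y.t Y.j Y.ρ Y.θA ht h.crv).1)
  · rw [← j_pi hϖ Y.j, ← h.cf.c, RingHom.comp_apply,
      show io O _ r (C ϖ) = C ϖ from rename_C _ ϖ]

end Vale.Agent.P022G
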