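import Vale.Agent.P022G.Rw.RgalA

/-!
# P022G: the equations hold over the patched ring
-/

set_option linter.all false

noncomputable section

namespace Vale.Agent.P022G

open IsLocalRing MvPowerSeries Filter
open Vale.Agent.P022 Vale.Agent.P022G.R Vale.Agent.P022G.Loc Vale.Agent.P022G.Rg
open Vale.Agent.P027M.S (Inert mx)
open Vale.Agent.P022D.Sel (M2)
open Vale.Agent.P022D.Core (PS io y1)
open Vale.Agent.P022E.Loc (Pl)
open Vale.Agent.P022E.GW (Ov Gn)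
open Vale.Agent.P022E.As (Tg cc tt dd yy)

namespace Rg

variable {O F : Type} [CommRing O] [Field F] {S : Dat O F} {L : Pl O}

theorem val_res [IsLocalRing O] {X : Finset ℕ} {as : ℕ} (hC : Cx S L X as) {κ ι : Type}
    {gk : κ → GQ} (G : Gs S L gk ι) {r : ℕ} {q : Fin r → ℕ} {τ' : Fin r → GQ}
    (hq : ∀ i, q i ∉ S.T ∧ ∃ P, Ov (q i) P ∧ Gn (q i) P (τ' i)) {B : Type} [CommRing B]
    (Z : PO S B) (s : Sy (ι ⊕ Fin r)) : Z.π (Z.val (G.rcr r) (Sum.elim G.γ τ') s) = 0 := by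
  have e : ∀ i a b, S.red (G.rcr r i a b) = mx S.rb (Sum.elim G.γ τ' i) a b := by
    intro i a b
    rw [← hC.ok.lift]
    rcases i with i | i
    · rfl
    · obtain ⟨h1, P, h2, h3⟩ := hq i
      change S.red ((1 : M2 O) a b) = S.red (L.r (τ' i) a b)
      rw [hC.unr _ h2.1 (Or.inl h1) P h2.2.1 h2.2.2 _ h3.1]
  rcases s with i | i | ⟨i, k⟩
  · change Z.π (Z.a _ - Z.ι _) = 0
    rw [map_sub, Z.ra, Z.alg, e, sub_self]
  · change Z.π (Z.b _ - Z.ι _) = 0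
    rw [map_sub, Z.rb, Z.alg, e, sub_self]
  · change Z.π (Z.x _ _ - Z.ι _) = 0
    rw [map_sub, Z.rx, Z.alg, map_mul, e, e, sub_self]

theorem std_val {B ι : Type} [CommRing B] {Z : PO S B} {u : Tg O →+* B} (h : Z.Std u)
    (h1 : ∀ g, u (aT S L g) = Z.a g ∧ u (dT S L g) = Z.b g)
    (h2 : ∀ g h, u (xT S L g h) = Z.x g h) (rc : ι → M2 O) (γ : ι → GQ) (s : Sy ι) :
    u (vT S L rc γ s) = Z.val rc γ s := by
  rcases s with i | i | ⟨i, k⟩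
  · change u (aT S L _ - cc _) = Z.a _ - Z.ι _
    rw [map_sub, (h1 _).1, h.c]
  · change u (dT S L _ - cc _) = Z.b _ - Z.ι _
    rw [map_sub, (h1 _).2, h.c]
  · change u (xT S L _ _ - cc _) = Z.x _ _ - Z.ι _
    rw [map_sub, h2, h.c]

/-- elements which do not change the traces -/
theorem triv {B : Type} [CommRing B] {Z : PO S B} {u : Tg O →+* B} (h : Z.Std u)
    (h1 : ∀ g, u (aT S L g) = Z.a g ∧ u (dT S L g) = Z.b g) {s : GQ}
    (hs : ∀ g, Z.t (g * s) = Z.t g) :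
    Z.a s = 1 ∧ Z.b s = 1 ∧ ∀ g, Z.x s g = 0 ∧ Z.x g s = 0 := by
  have e : ∀ g, Z.a g = (Z.t (g * S.g0) - u (cc (L.r S.g0 1 1)) * Z.t g) *
      u (cc (Ring.inverse (L.r S.g0 0 0 - L.r S.g0 1 1))) := fun g => by
    rw [← (h1 g).1, aT, P022D.Gma.ent, map_mul, map_sub, map_mul, h.t, h.t]
  have a1 : ∀ g, Z.a (g * s) = Z.a g := fun g => by
    rw [e, e, hs, Z.tf.comm (g * s), ← mul_assoc, hs, Z.tf.comm S.g0]
  have a2 : ∀ g, Z.a (s * g) = Z.a g := fun g => by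
    rw [e, e, Z.tf.comm s, hs, mul_assoc, Z.tf.comm s, hs]
  have a3 : Z.a s = 1 := by rw [← Z.gm.a1, ← a1 1, one_mul]
  refine ⟨a3, ?_, fun g => ⟨?_, ?_⟩⟩
  · have := Z.gm.sum s
    rw [a3, ← one_mul s, hs, Z.tf.one, one_mul] at this
    linear_combination this
  · have := Z.gm.am s g
    rw [a2, a3, one_mul] at this
    exact left_eq_add.1 this
  · have := Z.gm.am g s
    rw [a1, a3, mul_one] at this
    exact left_eq_add.1 this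

theorem quad_mem {R : Type} [CommRing R] (I : Ideal R) {y t t' d d' : R}
    (h : y ^ 2 - (t' - 2) * y + (1 - t' + d') ∈ I) (m1 : t' - t ∈ I) (m2 : d' - d ∈ I) :
    y ^ 2 - (t - 2) * y + (1 - t + d) ∈ I := by
  convert sub_mem (add_mem h (Ideal.mul_mem_left _ (y + 1) m1)) m2 using 1
  ring

variable [IsLocalRing O] {β : Type} {τ ι' : β → Type} {K : Kx O β τ ι' L.C} {ι : Type} {r s : ℕ}
  {V : Type} [CommRing V]

/-- the ideal generated by `A`, the tautological relations and a power of the maximal ideal -/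
def bb (Y : Pc (S := S) (ι := ι) K r s V) (A : Ideal (PP O ι r)) (j : ℕ) :
    Ideal (S1 O τ L ι S.T r) :=
  A.map (ψ1 S L τ ι r) ⊔ (t0 K Y.G' r).map (io O _ r) ⊔ maximalIdeal (S1 O τ L ι S.T r) ^ j

/-- a pseudo object of level `n` which controls `A` modulo the `j`-th power -/
structure Ky (Y : Pc (S := S) (ι := ι) K r s V) (n : ℕ) (A : Ideal (PP O ι r)) (j : ℕ) {B : Type}
    [CommRing B] (Z : PO S B) (Ψ : PP O ι r →+* B) : Prop where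
  cl : Z.Cl L (Finset.univ.image (Y.q n))
  hm : Hm Z.ι (Z.val (Y.G'.rcr r) (Sum.elim Y.G'.γ (Y.τ' n))) (Ψ.comp (io O _ r))
  qd : ∀ i, Ψ (y1 O _ i) ^ 2 - (Z.t (Y.τq n i) - 2) * Ψ (y1 O _ i) +
    (1 - Z.t (Y.τq n i) + Z.d (Y.τq n i)) = 0
  le : RingHom.ker Ψ ≤ A ⊔ maximalIdeal (PP O ι r) ^ j

variable {Y : Pc (S := S) (ι := ι) K r s V} {n j : ℕ} {A : Ideal (PP O ι r)} {B : Type}
  [CommRing B] {Z : PO S B} {Ψ : PP O ι r →+* B}

theorem bt {f : S0 O τ L ι S.T r} (hf : f ∈ t0 K Y.G' r) : io O _ r f ∈ bb Y A j :=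
  Ideal.mem_sup_left (Ideal.mem_sup_right (Ideal.mem_map_of_mem _ hf))

theorem bm {f : S0 O τ L ι S.T r} (hf : f ∈ maximalIdeal (S0 O τ L ι S.T r) ^ j) :
    io O _ r f ∈ bb Y A j :=
  Ideal.mem_sup_right (_root_.P022G.Lk.map_pow_le _ (io_max _ r) j (Ideal.mem_map_of_mem _ hf))

theorem bm0 {f : PS O (Sy (ι ⊕ Fin r))} (hf : f ∈ maximalIdeal (PS O (Sy (ι ⊕ Fin r))) ^ j) :
    io O _ r (ψ0 S L τ ι r f) ∈ bb Y A j := by
  rw [← p1io]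
  exact Ideal.mem_sup_right (_root_.P022G.Lk.map_pow_le _ p1_max j (Ideal.mem_map_of_mem _
    (_root_.P022G.Lk.map_pow_le _ (io_max _ r) j (Ideal.mem_map_of_mem _ hf))))

theorem Ky.mem (h : Ky Y n A j Z Ψ) {f : PP O ι r} (hf : Ψ f = 0) :
    ψ1 S L τ ι r f ∈ bb Y A j := by
  obtain ⟨x, hx, y, hy, e⟩ := Submodule.mem_sup.1 (h.le hf)
  rw [← e, map_add]
  exact add_mem (Ideal.mem_sup_left (Ideal.mem_sup_left (Ideal.mem_map_of_mem _ hx)))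
    (Ideal.mem_sup_right (_root_.P022G.Lk.map_pow_le _ p1_max j (Ideal.mem_map_of_mem _ hy)))

theorem Ky.mem0 (h : Ky Y n A j Z Ψ) {f : PS O (Sy (ι ⊕ Fin r))}
    (hf : Ψ.comp (io O _ r) f = 0) : io O _ r (ψ0 S L τ ι r f) ∈ bb Y A j := by
  rw [← p1io]
  exact h.mem hf

theorem Ky.rk (h : Ky Y n A j Z Ψ) (ϖ : O) :
    (Y.rd ϖ).𝔞 ≤ A ⊔ maximalIdeal (PP O ι r) ^ j := by
  have ex : ∀ i k, Ψ (xS (Y.G'.rcr r) Sum.inl i k) =
      Z.x (Sum.elim Y.G'.γ (Y.τ' n) i) (Sum.elim Y.G'.γ (Y.τ' n) k) := fun i k => by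
    rw [← io_x]
    exact ev_x (Ψ := Ψ.comp (io O _ r)) (e := id) h.hm.c h.hm.x i k
  refine le_trans (sup_le (Ideal.span_le.2 ?_) (Ideal.span_le.2 ?_)) h.le
  · rintro _ ⟨i, k, i', k', rfl⟩
    rw [SetLike.mem_coe, RingHom.mem_ker, map_sub, map_mul, map_mul, ex, ex, ex, ex, Z.gm.sw,
      sub_self]
  · rintro _ (⟨i, rfl⟩ | ⟨i, rfl⟩)
    · rw [SetLike.mem_coe, RingHom.mem_ker, ex, Sum.elim_inl, Y.G'.h0]
      exact (Z.x0 _).1
    · rw [SetLike.mem_coe, RingHom.mem_ker, ex, Sum.elim_inl, Y.G'.h0]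
      exact (Z.x0 _).2

theorem Ky.kn (h : Ky Y n A j Z Ψ) {i k : ι ⊕ Fin r} {f : S0 O τ L ι S.T r}
    (h8 : ψ0 S L τ ι r (xS (Y.G'.rcr r) id i k) * f ∈
      (RingHom.ker (Ψ.comp (io O _ r))).map (ψ0 S L τ ι r) ⊔ t0 K Y.G' r) :
    io O _ r (xS (Y.G'.rcr r) (e0 r) i k) * io O _ r f ∈ bb Y A j := by
  rw [p0x] at h8
  rw [← map_mul]
  exact (sup_le (Ideal.map_le_iff_le_comap.2 fun u hu => h.mem0 hu) fun u hu => bt hu :
    _ ≤ (bb Y A j).comap (io O _ r)) h8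

theorem Ky.root (h : Ky Y n A j Z Ψ) (i : Fin r)
    (t1 : Ψ.comp (io O _ r) (Y.tn n i) = Z.t (Y.τq n i))
    (t2 : Ψ.comp (io O _ r) (Y.dn n i) = Z.d (Y.τq n i))
    (c1 : Y.tn n i - Y.ta i ∈ maximalIdeal (PS O (Sy (ι ⊕ Fin r))) ^ j)
    (c2 : Y.dn n i - Y.da i ∈ maximalIdeal (PS O (Sy (ι ⊕ Fin r))) ^ j) :
    y1 O _ i ^ 2 - io O _ r (ψ0 S L τ ι r (Y.ta i) - 2) * y1 O _ i +
      io O _ r (1 - ψ0 S L τ ι r (Y.ta i) + ψ0 S L τ ι r (Y.da i)) ∈ bb Y A j := by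
  have h8 := h.mem (f := y1 O _ i ^ 2 - (io O _ r (Y.tn n i) - 2) * y1 O _ i +
      (1 - io O _ r (Y.tn n i) + io O _ r (Y.dn n i))) (by
    rw [RingHom.comp_apply] at t1 t2
    rw [map_add, map_sub, map_mul, map_pow, map_add, map_sub, map_sub, map_one, map_ofNat, t1, t2]
    exact h.qd i)
  have m1 := bm0 (Y := Y) (A := A) c1
  have m2 := bm0 (Y := Y) (A := A) c2
  rw [map_add, map_sub, map_mul, map_pow, map_add, map_sub, map_sub, map_one, map_ofNat, p1io,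
    p1io, p1y] at h8
  rw [map_sub, map_sub] at m1 m2
  rw [map_add, map_sub, map_sub, map_one, map_ofNat]
  exact quad_mem _ h8 m1 m2

theorem Ky.tr (h : Ky Y n A j Z Ψ) (uv : ∀ γ, K.u γ * K.v γ = 1) (l : L.C)
    (hl : Z.t (L.τ l) = 0) : io O _ r ((DD K ι S.T r).T l).trace ∈ bb Y A j := by
  have h8 := h.mem0 (f := trS (Y.G'.rcr r) id (Sum.inl (Y.G'.iτ l))) (by
    rw [trS, map_add, ev_a (e := id) h.hm.c h.hm.x, ev_d (e := id) h.hm.c h.hm.x, Z.gm.sum,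
      Sum.elim_inl, Y.G'.hτ, hl])
  have h9 := bt (Y := Y) (A := A) (j := j) (blk_tr K Y.G' uv l)
  rw [map_sub] at h9
  have := add_mem h9 h8
  rwa [sub_add_cancel] at this

theorem Ky.one (h : Ky Y n A j Z Ψ) (uv : ∀ γ, K.u γ * K.v γ = 1) (l : L.C)
    (u1 : Z.a (L.τ l) = 1) (u2 : Z.b (L.τ l) = 1)
    (u3 : ∀ g, Z.x (L.τ l) g = 0 ∧ Z.x g (L.τ l) = 0) (i k : ι ⊕ Fin r) (a b : Fin 2) :
    io O _ r (xS (Y.G'.rcr r) (e0 r) i k * ((DD K ι S.T r).T l - 1) a b) ∈ bb Y A j := by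
  refine blk_one K Y.G' uv l ((bb Y A j).comap (io O _ r)) (fun _ hu => bt hu) _ _ ?_ ?_ ?_ ?_ a b
  · rw [← p0a, ← map_one (ψ0 S L τ ι r), ← map_sub]
    exact h.mem0 (by
      rw [map_sub, map_one, ev_a (e := id) h.hm.c h.hm.x, Sum.elim_inl, Y.G'.hτ, u1, sub_self])
  · rw [← p0d, ← map_one (ψ0 S L τ ι r), ← map_sub]
    exact h.mem0 (by
      rw [map_sub, map_one, ev_d (e := id) h.hm.c h.hm.x, Sum.elim_inl, Y.G'.hτ, u2, sub_self])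
  · rw [← p0x]
    exact h.mem0 (by rw [ev_x (e := id) h.hm.c h.hm.x, Sum.elim_inl, Y.G'.hτ]; exact (u3 _).1)
  · rw [← p0x]
    exact h.mem0 (by rw [ev_x (e := id) h.hm.c h.hm.x, Sum.elim_inl, Y.G'.hτ]; exact (u3 _).2)

theorem ex_ky [Fintype ι] {X : Finset ℕ} {as : ℕ} (hC : Cx S L X as)
    (hq : ∀ i, Y.q n i ∉ S.T ∧ ∃ P, Ov (Y.q n i) P ∧ Gn (Y.q n i) P (Y.τ' n i))
    {a : Ideal (Tg O)} {Z : PO S (Tg O ⧸ a)} (z1 : Z.Std (Ideal.Quotient.mk a))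
    (z2 : Z.Cl L (Finset.univ.image (Y.q n))) (z3 : ∀ i, Z.π (Ideal.Quotient.mk a (yy i)) = 0)
    (p1 : ∀ g, Ideal.Quotient.mk a (aT S L g) = Z.a g ∧ Ideal.Quotient.mk a (dT S L g) = Z.b g)
    (p2 : ∀ g h, Ideal.Quotient.mk a (xT S L g h) = Z.x g h)
    (a3 : ∀ i, dd (Y.τq n i) - (1 + yy i) * (tt (Y.τq n i) - (1 + yy i)) ∈ a)
    (a4 : ∀ Ψ : PP O ι r →+* Tg O ⧸ a, Hm ((Ideal.Quotient.mk a).comp MvPolynomial.C)
      (fun z => Ideal.Quotient.mk a (Y.G'.vP (Y.τ' n) z)) Ψ →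
      RingHom.ker Ψ ≤ A ⊔ maximalIdeal (PP O ι r) ^ j) : ∃ Ψ, Ky Y n A j Z Ψ := by
  haveI := Z.fin
  obtain ⟨Ψ, hΨ⟩ := ex_hm Z.π Z.loc ((Ideal.Quotient.mk a).comp MvPolynomial.C)
    (fun z => Ideal.Quotient.mk a (Y.G'.vP (Y.τ' n) z)) (by
      rintro (z | i)
      · exact (congrArg Z.π (std_val z1 p1 p2 _ _ z)).trans (val_res hC Y.G' hq Z z)
      · exact z3 i)
  refine ⟨Ψ, z2, ⟨fun o => ?_, fun z => ?_⟩, fun i => ?_, a4 Ψ hΨ⟩
  · rw [RingHom.comp_apply, ioC, hΨ.c]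
    exact z1.c o
  · rw [RingHom.comp_apply, ioX, hΨ.x]
    exact std_val z1 p1 p2 _ _ z
  · have e1 : Ψ (y1 O _ i) = Ideal.Quotient.mk a (yy i) := hΨ.x (Sum.inr i)
    have e2 := Ideal.Quotient.eq_zero_iff_mem.2 (a3 i)
    simp only [map_sub, map_mul, map_add, map_one, z1.t, z1.d] at e2
    rw [e1]
    linear_combination e2

variable [Fintype β] [∀ b, Fintype (τ b)] [Fintype ι]

theorem del_not (hY : Y.Ok) : ∃ i k : ι,
    Y.θ (io O _ r (xS (Y.G'.rcr r) (e0 r) (Sum.inl i) (Sum.inl k))) ≠ 0 := by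
  obtain ⟨i, k, hik⟩ := hY.irr
  refine ⟨i, k, fun h => hik ?_⟩
  have e1 := hY.cf.x (e0 r (Sum.inr (Sum.inr (Sum.inl i, Sum.inl k))))
  have e2 := hY.crv.hm.x (Sum.inr (Sum.inr (i, k)))
  have e3 : Y.θ.comp (io O _ r) (xS (Y.G'.rcr r) (e0 r) (Sum.inl i) (Sum.inl k)) = 0 := h
  rw [xS, map_add, hY.cf.c, e1] at e3
  rw [RingHom.mem_ker, xS, map_add, hY.crv.hm.c, id, e2]
  exact e3

theorem eq_kn [∀ b, Fintype (ι' b)] {ϖ : O} (hO : K.Ok L S ϖ) (G : Gs S L K.g ι) (q : Fin r → ℕ)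
    (τ' : Fin r → GQ) : (DD K ι S.T r).I ≤ Kn K G r q τ' := by
  rintro f hf B _ _ _ ψ ⟨Z, h1, rfl, rfl⟩ h2
  exact hO.eqs _ B Z h1.1 ψ h2.c (fun i => h2.x (Sum.inl i)) hf

end Rg

theorem rgalC (hK : KDEL) (hP : POV) : RGAL := by
  intro O F _ _ _ _ _ _ _ ϖ S L X as β τ ι' _ _ _ K ι _ G hϖ hC hO r s V _ _ _ _ _ _ Y ht hG hY
    _ N _ _ W H
  letI : Algebra (S0 O τ L ι S.T r) (S1 O τ L ι S.T r) := (io O _ r).toAlgebra
  subst hG
  have hKD := hK O F ϖ S L X as β τ ι' K ι Y.G' hϖ hC hO r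
  have hPV := hP O F ϖ S L X as β τ ι' K ι Y.G' hϖ hC hO
  obtain ⟨i0, k0, hδ⟩ := del_not hY
  obtain ⟨δ, eδ⟩ : ∃ δ : S0 O τ L ι S.T r,
    δ = xS (Y.G'.rcr r) (e0 r) (Sum.inl i0) (Sum.inl k0) := ⟨_, rfl⟩
  have hp : (Y.rd ϖ).𝔭.IsPrime := RingHom.ker_isPrime Y.θ
  have key : ∀ n j, ∃ (a : Ideal (Tg O)) (Z : PO S (Tg O ⧸ a)) (Ψ : PP O ι r →+* Tg O ⧸ a),
      W a ∧ Z.Std (Ideal.Quotient.mk a) ∧
      Ky Y n (Module.annihilator (PP O ι r) (N n)) j Z Ψ := by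
    intro n j
    obtain ⟨a, ⟨Z, z1, z2, z3, -⟩, a2, a3, a4⟩ := H n j
    obtain ⟨p1, p2⟩ := hPV _ Z _ z1
    obtain ⟨Ψ, h⟩ := ex_ky hC.cx (hY.gn n) z1 z2 z3 p1 p2 a3 a4
    exact ⟨a, Z, Ψ, a2, z1, h⟩
  have ha : ∀ n, (Y.rd ϖ).𝔞 ≤ Module.annihilator (PP O ι r) (N n) := fun n f hf =>
    P022D.PA.mem_of_sup _ _ fun j => by
      obtain ⟨a, Z, Ψ, -, -, h⟩ := key n j
      exact h.rk ϖ hf
  have kA : ∀ n j, ∀ f ∈ Kn K Y.G' r (Y.q n) (Y.τ' n),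
      io O _ r δ * io O _ r f ∈ bb Y (Module.annihilator (PP O ι r) (N n)) j := by
    intro n j f hf
    obtain ⟨a, Z, Ψ, -, -, h⟩ := key n j
    rw [eδ]
    exact h.kn (hKD _ _ (hY.gn n) _ Z _ h.cl h.hm (Sum.inl i0) (Sum.inl k0) f hf)
  have main : ∀ E' : Ideal (S0 O τ L ι S.T r),
      (∀ f ∈ E', ∀ n j, io O _ r δ * io O _ r f ∈
        bb Y (Module.annihilator (PP O ι r) (N n)) j) →
      (Y.rd ϖ).Gal ((Y.rd ϖ).E ⊔ E') (Pt.An Y.U N) := by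
    intro E' hE
    refine Pt.gal_lim (Y.rd ϖ) hp p1_max Y.U N _ (Eventually.of_forall ha)
      {c | ∀ j, ∀ᶠ n in (Y.U : Filter ℕ),
        io O _ r δ * c ∈ bb Y (Module.annihilator (PP O ι r) (N n)) j} ?_
      fun c hc => ⟨io O _ r δ, eδ ▸ hδ, hc⟩
    refine sup_le (Ideal.map_le_iff_le_comap.2 (sup_le (sup_le ?_ (Ideal.span_le.2 ?_)) ?_))
      (Ideal.span_le.2 ?_)
    · exact fun f hf => Ideal.subset_span fun j => Eventually.of_forall fun n =>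
        kA n j f (eq_kn hO _ _ _ hf)
    · rintro _ ⟨a, rfl⟩
      refine Ideal.subset_span fun j => (hY.cvk a j).mono fun n hn => ?_
      have h1 := sub_mem (kA n j _ (hY.kn n a)) (Ideal.mul_mem_left _ (io O _ r δ) (bm hn))
      rwa [map_sub, ← mul_sub, sub_sub_cancel] at h1
    · exact fun f hf => Ideal.subset_span fun j => Eventually.of_forall fun n => hE f hf n j
    · rintro _ ⟨i, rfl⟩
      refine Ideal.subset_span fun j => ((hY.cvt i j).and (hY.cvd i j)).mono fun n hn => ?_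
      obtain ⟨a, Z, Ψ, -, -, h⟩ := key n j
      obtain ⟨t1, t2⟩ := hY.tn n i _ Z _ h.cl h.hm
      exact Ideal.mul_mem_left _ _ (h.root i t1 t2 hn.1 hn.2)
  refine ⟨?_, fun l hl => main _ fun f hf n j => ?_, fun hX => main _ fun f hf n j => ?_⟩
  · exact (main ⊥ fun f hf n j => by
      rw [Ideal.mem_bot.1 hf, map_zero, mul_zero]; exact zero_mem _).mono _ le_sup_left le_rfl
  · obtain ⟨c, rfl⟩ := Ideal.mem_span_singleton'.1 hf
    obtain ⟨a, Z, Ψ, h1, h2, h⟩ := key n j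
    rw [map_mul]
    exact Ideal.mul_mem_left _ _ (Ideal.mul_mem_left _ _ (h.tr hO.uv l
      ((h2.t _).symm.trans (Ideal.Quotient.eq_zero_iff_mem.2 (hl a h1)))))
  · obtain ⟨a, Z, Ψ, h1, h2, h⟩ := key n j
    rw [← map_mul]
    refine Submodule.span_induction (p := fun f _ => io O _ r (δ * f) ∈
      bb Y (Module.annihilator (PP O ι r) (N n)) j) ?_ ?_ ?_ ?_ hf
    · rintro _ ⟨l, hl, a1, a2, rfl⟩
      obtain ⟨u1, u2, u3⟩ := triv h2 (hPV _ Z _ h2).1 (s := L.τ l) fun g => by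
        rw [← h2.t, ← h2.t]
        exact Ideal.Quotient.eq.2 (hX a h1 l hl g)
      rw [eδ]
      exact h.one hO.uv l u1 u2 u3 _ _ a1 a2
    · rw [mul_zero, map_zero]; exact zero_mem _
    · intro x y _ _ h1 h2
      rw [mul_add, map_add]; exact add_mem h1 h2
    · intro c x _ h1
      rw [smul_eq_mul, mul_left_comm, map_mul]; exact Ideal.mul_mem_left _ _ h1

end Vale.Agent.P022G
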