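import Vale.Agent.P022G.Rows
import Vale.Agent.P022G.Pt.T
import Vale.Agent.P022D.As.Cov

/-!
# P022G: transfer along the projection to level zero
-/

set_option linter.all false

noncomputable section

namespace Vale.Agent.P022G.Jr

open IsLocalRing MvPowerSeries
open Vale.Agent.P022 Vale.Agent.P022G.R Vale.Agent.P022G.Loc Vale.Agent.P022G.Pt
open Vale.Agent.P022D.Core (PS io y1 Coef)
open Vale.Agent.P022E.Loc (Pl)
open Vale.Agent.P022G.Chain (Pd)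

variable {O F : Type} [CommRing O] [Field F] {S : Dat O F} {L : Pl O}

section sym
variable {κ ι : Type} {gk : κ → GQ} {G : Gs S L gk ι} {r : ℕ} {jr : PP O ι r →+* PS O (Sy ι)}
  (h : Hm C (G.jv r) jr)
include h

theorem jr_a (i : ι) : jr (aS (G.rcr r) Sum.inl (Sum.inl i)) = aS G.rc id i := by
  rw [aS, map_add, h.c, h.x]
  exact add_sub_cancel _ _

theorem jr_d (i : ι) : jr (dS (G.rcr r) Sum.inl (Sum.inl i)) = dS G.rc id i := by
  rw [dS, map_add, h.c, h.x]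
  exact add_sub_cancel _ _

theorem jr_x (i k : ι) : jr (xS (G.rcr r) Sum.inl (Sum.inl i) (Sum.inl k)) = xS G.rc id i k := by
  rw [xS, map_add, h.c, h.x]
  exact add_sub_cancel _ _

theorem jr_x1 (i : ι ⊕ Fin r) (k : Fin r) : jr (xS (G.rcr r) Sum.inl i (Sum.inr k)) = 0 := by
  rw [xS, map_add, h.c, h.x]
  cases i <;> exact add_sub_cancel _ _

theorem jr_x2 (i : Fin r) (k : ι ⊕ Fin r) : jr (xS (G.rcr r) Sum.inl (Sum.inr i) k) = 0 := by
  rw [xS, map_add, h.c, h.x]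
  exact add_sub_cancel _ _

theorem jr_tr (i : ι) : jr (trS (G.rcr r) Sum.inl (Sum.inl i)) = trS G.rc id i := by
  rw [trS, map_add, jr_a h, jr_d h, trS]

theorem jr_tr2 (i k : ι) :
    jr (tr2 (G.rcr r) Sum.inl (Sum.inl i) (Sum.inl k)) = tr2 G.rc id i k := by
  simp only [tr2, map_add, map_mul, jr_a h, jr_d h, jr_x h]

theorem tau_le (i : ι) {Z : Ideal (PS O (Sy ι))} (hZ : tauP G.rc id i ⊆ Z) :
    tauP (G.rcr r) Sum.inl (Sum.inl i) ⊆ ((Z.comap jr : Ideal (PP O ι r)) : Set (PP O ι r)) := by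
  rintro u ((rfl | rfl) | ⟨k | k, rfl⟩ | ⟨k | k, rfl⟩) <;>
    simp only [SetLike.mem_coe, Ideal.mem_comap, map_sub, map_one, jr_a h, jr_d h, jr_x h,
      jr_x1 h, jr_x2 h, zero_mem]
  · exact hZ (Or.inl (Or.inl rfl))
  · exact hZ (Or.inl (Or.inr rfl))
  · exact hZ (Or.inr (Or.inl ⟨k, rfl⟩))
  · exact hZ (Or.inr (Or.inr ⟨k, rfl⟩))

theorem tau_ge (i : ι) {Z : Ideal (PS O (Sy ι))}
    (hZ : tauP (G.rcr r) Sum.inl (Sum.inl i) ⊆ ((Z.comap jr : Ideal (PP O ι r)) : Set (PP O ι r))) :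
    tauP G.rc id i ⊆ Z := by
  rintro u ((rfl | rfl) | ⟨k, rfl⟩ | ⟨k, rfl⟩)
  · have := hZ (Or.inl (Or.inl rfl))
    rwa [SetLike.mem_coe, Ideal.mem_comap, map_sub, map_one, jr_a h] at this
  · have := hZ (Or.inl (Or.inr rfl))
    rwa [SetLike.mem_coe, Ideal.mem_comap, map_sub, map_one, jr_d h] at this
  · have := hZ (Or.inr (Or.inl ⟨Sum.inl k, rfl⟩))
    rwa [SetLike.mem_coe, Ideal.mem_comap, jr_x h] at this
  · have := hZ (Or.inr (Or.inr ⟨Sum.inl k, rfl⟩))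
    rwa [SetLike.mem_coe, Ideal.mem_comap, jr_x h] at this

/-- the equations of a type -/
theorem ip_iff (J : Finset L.C) (Z : Ideal (PS O (Sy ι))) :
    IPt (G.rcr r) Sum.inl (fun l => Sum.inl (G.iτ l)) (fun l => Sum.inl (G.iφ l)) J ≤ Z.comap jr ↔
      IPt G.rc id G.iτ G.iφ J ≤ Z := by
  rw [IPt, IPt, Ideal.span_le, Ideal.span_le]
  constructor
  · rintro H u (⟨l, hl, rfl | rfl | rfl⟩ | ⟨l, hl, hu⟩)
    · rw [← jr_tr h]; exact H (Or.inl ⟨l, hl, Or.inl rfl⟩)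
    · rw [← jr_tr h]; exact H (Or.inl ⟨l, hl, Or.inr (Or.inl rfl)⟩)
    · rw [← jr_tr2 h]; exact H (Or.inl ⟨l, hl, Or.inr (Or.inr rfl)⟩)
    · exact tau_ge h _ (fun v hv => H (Or.inr ⟨l, hl, hv⟩)) hu
  · rintro H u (⟨l, hl, rfl | rfl | rfl⟩ | ⟨l, hl, hu⟩)
    · rw [SetLike.mem_coe, Ideal.mem_comap, jr_tr h]; exact H (Or.inl ⟨l, hl, Or.inl rfl⟩)
    · rw [SetLike.mem_coe, Ideal.mem_comap, jr_tr h]
      exact H (Or.inl ⟨l, hl, Or.inr (Or.inl rfl)⟩)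
    · rw [SetLike.mem_coe, Ideal.mem_comap, jr_tr2 h]
      exact H (Or.inl ⟨l, hl, Or.inr (Or.inr rfl)⟩)
    · exact tau_le h _ (fun v hv => H (Or.inr ⟨l, hl, hv⟩)) hu

end sym

theorem dim_comap {P A : Type} [CommRing P] [CommRing A] {f : P →+* A}
    (hf : Function.Surjective f) (E : Ideal A) :
    ringKrullDim (P ⧸ E.comap f) = ringKrullDim (A ⧸ E) := by
  have e : E.comap f = RingHom.ker ((Ideal.Quotient.mk E).comp f) := by
    rw [← RingHom.comap_ker, Ideal.mk_ker]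
  rw [e]
  exact ringKrullDim_eq_of_ringEquiv (RingHom.quotientKerEquivOfSurjective
    (Ideal.Quotient.mk_surjective.comp hf))

theorem le_of_comap {P A : Type} [CommRing P] [CommRing A] {f : P →+* A}
    (hf : Function.Surjective f) {I E : Ideal A} (h : I.comap f ≤ E.comap f) : I ≤ E :=
  fun x hx => by
    obtain ⟨y, rfl⟩ := hf x
    exact h hx

section
variable [IsDomain O] [IsDiscreteValuationRing O] [Coef O] {β : Type} {τ ι' : β → Type}
  [Fintype β] [∀ b, Fintype (τ b)] {K : Kx O β τ ι' L.C} {ι : Type} [Fintype ι] {r s : ℕ}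
  {V : Type} [CommRing V] {Y : Pc (S := S) (ι := ι) K r s V} {ϖ : O}
  [Algebra (S0 O τ L ι S.T r) (S1 O τ L ι S.T r)] [P022D.PA.Base (PP O ι r)]
  {κ I : Type} [Fintype κ] {u : ℕ → κ → PP O ι r} {a : κ → PP O ι r} {D : ℕ → PP O ι r}
  {d : PP O ι r} {M : I → ℕ → Type} {Gm : I → Type} [∀ i n, AddCommGroup (M i n)]
  [∀ i n, Module (PP O ι r) (M i n)] [∀ i, AddCommGroup (Gm i)] [∀ i, Module (PP O ι r) (Gm i)]
  {ses : I → I → I → Prop} {iJ : Finset L.C → I}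

/-- from a modular surface in `A` to the component -/
theorem up (H : (Y.rd ϖ).Ok3) (W : MD (Y.rd ϖ) Y.U u a D d M Gm ses iJ)
    (hp : (Y.rd ϖ).p0 = (RingHom.ker Y.θA).comap Y.jr) (hs : Function.Surjective Y.jr)
    {J : Finset L.C} {A E : Ideal (PS O (Sy ι))}
    (hA : Module.annihilator (PP O ι r) (Gm (iJ J)) ≤ A.comap Y.jr) (h1 : E.IsPrime)
    (h2 : ((2 : ℕ) : WithBot ℕ∞) ≤ ringKrullDim (PS O (Sy ι) ⧸ E)) (h3 : E ≤ RingHom.ker Y.θA)
    (h4 : A ≤ E) : Au3 (Y.rd ϖ) Y.U M iJ J :=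
  haveI := P022D.As.base O (V0 τ L ι S.T r)
  T.upJ H W (Ideal.comap_isPrime _ _) (hp ▸ Ideal.comap_mono h3)
    (by rw [dim_comap hs]; exact_mod_cast h2) (hA.trans (Ideal.comap_mono h4))

/-- from the component to every prime of the type -/
theorem dn (H : (Y.rd ϖ).Ok3) (W : MD (Y.rd ϖ) Y.U u a D d M Gm ses iJ) (hj : Hm C (Y.G'.jv r) Y.jr)
    (hp : (Y.rd ϖ).p0 = (RingHom.ker Y.θA).comap Y.jr) (hs : Function.Surjective Y.jr)
    (hk : Y.G'.aP ≤ Y.G'.aG) {J : Finset L.C} {A E : Ideal (PS O (Sy ι))}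
    (hA : A.comap Y.jr ≤ Module.annihilator (PP O ι r) (Gm (iJ J))) (h1 : E.IsPrime)
    (h2 : Y.G'.IT ϖ J ≤ E) (h3 : E ≤ RingHom.ker Y.θA) (h : Au3 (Y.rd ϖ) Y.U M iJ J) : A ≤ E :=
  haveI := P022D.As.base O (V0 τ L ι S.T r)
  le_of_comap hs (hA.trans (T.dnJ H W h (Ideal.comap_isPrime _ _) (hp ▸ Ideal.comap_mono h3)
    (Ideal.comap_mono (hk.trans (le_sup_left.trans (le_sup_left.trans h2))))
    (by
      change Y.jr (C ϖ) ∈ E
      rw [hj.c]
      exact h2 (Ideal.mem_sup_left (Ideal.mem_sup_right (Ideal.mem_span_singleton_self _))))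
    ((ip_iff hj J E).2 (le_sup_right.trans h2))))

end

end Vale.Agent.P022G.Jr
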