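import Vale.Agent.P022G.Rows
import Vale.Agent.P022G.Col0

/-!
# P022G: row RFL
-/

set_option linter.all false

noncomputable section

namespace Vale.Agent.P022G

open MvPowerSeries Vale.Agent.P022G.R Vale.Agent.P022G.Loc
open Vale.Agent.P022D.Core (PS io)
open Vale.Agent.P022E.Loc (Pl)

section
variable {O F : Type} [CommRing O] [IsLocalRing O] [Field F] {S : Dat O F} {L : Pl O} {β : Type}
  {τ ι' : β → Type} {K : Kx O β τ ι' L.C} {ι : Type} {r s : ℕ} {V : Type} [CommRing V]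
  [Fintype β] [∀ b, Fintype (τ b)] [Fintype ι] {Y : Pc (S := S) (ι := ι) K r s V}

/-- the value of a symbol at the curve -/
theorem Pc.Ok.th_x (h : Y.Ok) (i k : ι) :
    Y.θ (psiS O S L τ ι r (xS (Y.G'.rcr r) Sum.inl (Sum.inl i) (Sum.inl k))) =
      Y.θA (xS Y.G'.rc id i k) := by
  rw [psiS_x, xS, xS, map_add, map_add, map_add, h.crv.hm.c, h.crv.hm.x]
  exact congrArg₂ (· + ·) (h.cf.c _) (h.cf.x _)

/-- a symbol outside the curve -/
theorem Pc.Ok.ex_x (h : Y.Ok) : ∃ i k : ι,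
    psiS O S L τ ι r (xS (Y.G'.rcr r) Sum.inl (Sum.inl i) (Sum.inl k)) ∉ RingHom.ker Y.θ := by
  obtain ⟨i, k, e⟩ := h.irr
  exact ⟨i, k, fun e' => e (by rwa [RingHom.mem_ker, ← h.th_x])⟩

end

theorem rflC (hR : RCOV) : RFL := by
  intro O F _ _ _ _ _ _ _ ϖ S L X as β τ ι' _ _ _ K ι _ G hϖ hC hK r s V _ _ _ _ _ _ Y ht hG hY
  obtain ⟨i, k, e⟩ := hY.ex_x
  haveI := RingHom.ker_isPrime Y.θ
  have h := col0_pt K Y.G' r (RingHom.ker Y.θ)
    (hR O F ϖ S L X as β τ ι' K ι G hϖ hC hK r s V Y ht hG hY).2.1 _ _ e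
  exact ⟨h.pur, h.tf _⟩

end Vale.Agent.P022G
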