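import Vale.Agent.P022G.Rows
import Vale.Agent.P022G.Pt.Gal
import Vale.Agent.P022D.R.Gas
import Vale.Agent.P022D.CA.Cpl

/-!
# P022G: the maps between the rings at a curve
-/

set_option linter.all false

noncomputable section

namespace Vale.Agent.P022G.Rg

open IsLocalRing MvPowerSeries
open Vale.Agent.P022 Vale.Agent.P022G.R Vale.Agent.P022G.Loc
open Vale.Agent.P027M.S (Inert mx)
open Vale.Agent.P022D.Sel (M2)
open Vale.Agent.P022D.Core (PS io y1)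
open Vale.Agent.P022E.Loc (Pl)
open Vale.Agent.P022E.GW (Ov Gn)
open Vale.Agent.P022E.As (Tg cc tt dd yy)

variable {O F : Type} [CommRing O] [Field F]

theorem ex_hm {B σ : Type} [CommRing B] [Finite B] [Fintype σ] (π : B →+* F)
    (loc : ∀ u, π u ≠ 0 → IsUnit u) (j : O →+* B) (v : σ → B) (hv : ∀ s, π (v s) = 0) :
    ∃ Ψ : PS O σ →+* B, Hm j v Ψ := by
  obtain ⟨n, hn⟩ := IsArtinianRing.isNilpotent_jacobson_bot (R := B)
  have h := P022D.R.van_of_pow j v _ hn fun s => Ideal.mem_jacobson_bot.2 fun y => loc _ (by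
    rw [map_add, map_mul, hv, zero_mul, zero_add, map_one]
    exact one_ne_zero)
  exact ⟨P022D.R.evl j v, P022D.R.evl_C h, P022D.R.evl_X h⟩

theorem ioC (σ : Type) (r : ℕ) (o : O) : io O σ r (C o) = C o := rename_C _ o

theorem ioX (σ : Type) (r : ℕ) (s : σ) : io O σ r (X s) = X (Sum.inl s) := rename_X _ s

theorem io_max [IsLocalRing O] (σ : Type) (r : ℕ) : ∀ f ∈ maximalIdeal (PS O σ),
    io O σ r f ∈ maximalIdeal (PS O (σ ⊕ Fin r)) := fun f hf => by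
  rw [P022D.CA.Cpl.mem_max_iff] at hf ⊢
  have e : constantCoeff (io O σ r f) = constantCoeff f := constantCoeff_rename _ f
  rwa [e]

variable {S : Dat O F} {L : Pl O} {β : Type} {τ ι' : β → Type} {ι : Type} {r : ℕ}

theorem p0C (o : O) : ψ0 S L τ ι r (C o) = C o := rename_C _ o

theorem p0X (s : Sy (ι ⊕ Fin r)) : ψ0 S L τ ι r (X s) = X (e0 r s) := rename_X _ s

theorem p1C (o : O) : ψ1 S L τ ι r (C o) = C o := rename_C _ o

theorem p1y (i : Fin r) : ψ1 S L τ ι r (y1 O _ i) = y1 O _ i := rename_X _ _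

theorem p1io (f : PS O (Sy (ι ⊕ Fin r))) :
    ψ1 S L τ ι r (io O _ r f) = io O _ r (ψ0 S L τ ι r f) :=
  (rename_rename _ _ f).trans (rename_rename (e0 r : Sy (ι ⊕ Fin r) ↪ V0 τ L ι S.T r)
    (Function.Embedding.inl : V0 τ L ι S.T r ↪ V0 τ L ι S.T r ⊕ Fin r) f).symm

theorem p1_max [IsLocalRing O] : ∀ f ∈ maximalIdeal (PP O ι r),
    ψ1 S L τ ι r f ∈ maximalIdeal (S1 O τ L ι S.T r) := fun f hf => by
  rw [P022D.CA.Cpl.mem_max_iff] at hf ⊢
  have e : constantCoeff (ψ1 S L τ ι r f) = constantCoeff f := constantCoeff_rename _ f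
  rwa [e]

theorem io_a (rc : ι → M2 O) (i : ι) : io O (Sy ι) r (aS rc id i) = aS rc Sum.inl i := by
  rw [aS, aS, map_add, ioC, ioX]; rfl

theorem io_d (rc : ι → M2 O) (i : ι) : io O (Sy ι) r (dS rc id i) = dS rc Sum.inl i := by
  rw [dS, dS, map_add, ioC, ioX]; rfl

theorem io_x (rc : ι → M2 O) (i k : ι) : io O (Sy ι) r (xS rc id i k) = xS rc Sum.inl i k := by
  rw [xS, xS, map_add, ioC, ioX]; rfl

theorem p0a (rc : ι ⊕ Fin r → M2 O) (i : ι ⊕ Fin r) :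
    ψ0 S L τ ι r (aS rc id i) = aS rc (e0 r) i := by
  rw [aS, aS, map_add, p0C, p0X]; rfl

theorem p0d (rc : ι ⊕ Fin r → M2 O) (i : ι ⊕ Fin r) :
    ψ0 S L τ ι r (dS rc id i) = dS rc (e0 r) i := by
  rw [dS, dS, map_add, p0C, p0X]; rfl

theorem p0x (rc : ι ⊕ Fin r → M2 O) (i k : ι ⊕ Fin r) :
    ψ0 S L τ ι r (xS rc id i k) = xS rc (e0 r) i k := by
  rw [xS, xS, map_add, p0C, p0X]; rfl

section hm
variable {σ B : Type} [CommRing B] {j : O →+* B} {rc : ι → M2 O} {e : Sy ι → σ}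
  {a d : ι → B} {x : ι → ι → B} {Ψ : PS O σ →+* B}

theorem ev_a (hc : ∀ o, Ψ (C o) = j o) (hx : ∀ s, Ψ (X (e s)) = gv rc j a d x s) (i : ι) :
    Ψ (aS rc e i) = a i := by
  rw [aS, map_add, hc, hx]
  exact add_sub_cancel _ _

theorem ev_d (hc : ∀ o, Ψ (C o) = j o) (hx : ∀ s, Ψ (X (e s)) = gv rc j a d x s) (i : ι) :
    Ψ (dS rc e i) = d i := by
  rw [dS, map_add, hc, hx]
  exact add_sub_cancel _ _

theorem ev_x (hc : ∀ o, Ψ (C o) = j o) (hx : ∀ s, Ψ (X (e s)) = gv rc j a d x s) (i k : ι) :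
    Ψ (xS rc e i k) = x i k := by
  rw [xS, map_add, hc, hx]
  exact add_sub_cancel _ _

end hm

theorem al_unit (l : ℕ) : IsUnit (αS (O := O) τ L ι S.T r l).det := by
  unfold αS
  split_ifs with h
  · rw [MvPowerSeries.isUnit_iff_constantCoeff, RingHom.map_det]
    have : (constantCoeff : PS O (V0 τ L ι S.T r) →+* O).mapMatrix (1 + Matrix.of fun a b =>
        X (Sum.inr (Sum.inr (Sum.inr (⟨l, h⟩, a, b))))) = 1 := by
      rw [map_add, map_one]
      ext a b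
      simp
    rw [this, Matrix.det_one]
    exact isUnit_one
  · rw [Matrix.det_one]
    exact isUnit_one

variable (K : Kx O β τ ι' L.C) (G : Gs S L K.g ι)

/-- the tame blocks are conjugates of the universal matrices -/
theorem blk (uv : ∀ γ, K.u γ * K.v γ = 1) (l : L.C) :
    ∃ A A' : M2 (S0 O τ L ι S.T r), A * A' = 1 ∧ ∀ a b, (DD K ι S.T r).T l a b -
      (A * ZS K G r (Sum.inl (G.iτ l)) * A') a b ∈ t0 K G r := by
  have h1 : (K.u l).map (C : O →+* S0 O τ L ι S.T r) * (K.v l).map C = 1 := by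
    rw [← Matrix.map_mul, uv, Matrix.map_one _ (map_zero _) (map_one _)]
  refine ⟨(K.u l).map C * (αS τ L ι S.T r l)⁻¹, αS τ L ι S.T r l * (K.v l).map C, ?_, ?_⟩
  · rw [mul_assoc, ← mul_assoc _ (αS τ L ι S.T r l), Matrix.nonsing_inv_mul _ (al_unit l), one_mul,
      h1]
  have e : (K.u l).map C * (αS τ L ι S.T r l)⁻¹ * ZS K G r (Sum.inl (G.iτ l)) *
      (αS τ L ι S.T r l * (K.v l).map C) =
      (K.u l).map C * lS K G r l (G.iτ l) * (K.v l).map C := by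
    simp only [lS, mul_assoc]
  rw [e]
  have k : ∀ m : Fin 8, X (Sum.inl (Sum.inr (l, m))) - κS K G r (Sum.inr (l, m)) ∈ t0 K G r :=
    fun m => Ideal.subset_span (Or.inl (Or.inr ⟨Sum.inr (l, m), rfl⟩))
  generalize hM : (K.u l).map C * lS K G r l (G.iτ l) * (K.v l).map C = M
  have k4 : X (Sum.inl (Sum.inr (l, 4))) - (M 0 0 - 1) ∈ t0 K G r := hM ▸ k 4
  have k5 : X (Sum.inl (Sum.inr (l, 5))) - (M 0 1 - C (K.n l)) ∈ t0 K G r := hM ▸ k 5
  have k6 : X (Sum.inl (Sum.inr (l, 6))) - M 1 0 ∈ t0 K G r := hM ▸ k 6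
  have k7 : X (Sum.inl (Sum.inr (l, 7))) - (M 1 1 - 1) ∈ t0 K G r := hM ▸ k 7
  intro a b
  fin_cases a <;> fin_cases b
  · change 1 + X (Sum.inl (Sum.inr (l, 4))) - M 0 0 ∈ _
    convert k4 using 1; ring
  · change C (K.n l) + X (Sum.inl (Sum.inr (l, 5))) - M 0 1 ∈ _
    convert k5 using 1; ring
  · exact k6
  · change 1 + X (Sum.inl (Sum.inr (l, 7))) - M 1 1 ∈ _
    convert k7 using 1; ring

theorem blk_tr (uv : ∀ γ, K.u γ * K.v γ = 1) (l : L.C) :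
    ((DD K ι S.T r).T l).trace - ψ0 S L τ ι r (trS (G.rcr r) id (Sum.inl (G.iτ l))) ∈
      t0 K G r := by
  obtain ⟨A, A', h1, h2⟩ := blk (r := r) K G uv l
  have e : (A * ZS K G r (Sum.inl (G.iτ l)) * A').trace =
      ψ0 S L τ ι r (trS (G.rcr r) id (Sum.inl (G.iτ l))) := by
    rw [Matrix.trace_mul_cycle, mul_eq_one_comm.1 h1, one_mul, Matrix.trace_fin_two, trS, map_add,
      p0a, p0d]
    rfl
  rw [← e, Matrix.trace_fin_two, Matrix.trace_fin_two, add_sub_add_comm]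
  exact add_mem (h2 0 0) (h2 1 1)

theorem x_mem (i k : ι ⊕ Fin r) :
    xS (G.rcr r) (e0 r) i k - ZS K G r i 0 1 * ZS K G r k 1 0 ∈ t0 K G r :=
  Ideal.subset_span (Or.inl (Or.inl ⟨(i, k), rfl⟩))

theorem blk_one (uv : ∀ γ, K.u γ * K.v γ = 1) (l : L.C) (I : Ideal (S0 O τ L ι S.T r))
    (hI : t0 K G r ≤ I) (i k : ι ⊕ Fin r)
    (ha : aS (G.rcr r) (e0 r) (Sum.inl (G.iτ l)) - 1 ∈ I)
    (hd : dS (G.rcr r) (e0 r) (Sum.inl (G.iτ l)) - 1 ∈ I)
    (hb : xS (G.rcr r) (e0 r) (Sum.inl (G.iτ l)) k ∈ I)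
    (hc : xS (G.rcr r) (e0 r) i (Sum.inl (G.iτ l)) ∈ I) (a b : Fin 2) :
    xS (G.rcr r) (e0 r) i k * ((DD K ι S.T r).T l - 1) a b ∈ I := by
  obtain ⟨A, A', h1, h2⟩ := blk (r := r) K G uv l
  have k0 := hI (x_mem K G i k)
  have k1 := hI (x_mem K G (Sum.inl (G.iτ l)) k)
  have k2 := hI (x_mem K G i (Sum.inl (G.iτ l)))
  have h3 : ∀ c d, xS (G.rcr r) (e0 r) i k * (ZS K G r (Sum.inl (G.iτ l)) - 1) c d ∈ I := by
    intro c d
    fin_cases c <;> fin_cases d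
    · exact I.mul_mem_left _ ha
    · change _ * (ZS K G r (Sum.inl (G.iτ l)) 0 1 - 0) ∈ I
      convert add_mem (I.mul_mem_right (ZS K G r (Sum.inl (G.iτ l)) 0 1) k0)
        (I.mul_mem_left (ZS K G r i 0 1) (sub_mem hb k1)) using 1
      ring
    · change _ * (ZS K G r (Sum.inl (G.iτ l)) 1 0 - 0) ∈ I
      convert add_mem (I.mul_mem_right (ZS K G r (Sum.inl (G.iτ l)) 1 0) k0)
        (I.mul_mem_left (ZS K G r k 1 0) (sub_mem hc k2)) using 1
      ring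
    · exact I.mul_mem_left _ hd
  have e : ((DD K ι S.T r).T l - 1) a b = ((DD K ι S.T r).T l a b -
      (A * ZS K G r (Sum.inl (G.iτ l)) * A') a b) +
      (A * (ZS K G r (Sum.inl (G.iτ l)) - 1) * A') a b := by
    rw [mul_sub, sub_mul, mul_one, h1, Matrix.sub_apply, Matrix.sub_apply]
    ring
  rw [e, mul_add]
  refine add_mem (I.mul_mem_left _ (hI (h2 a b))) ?_
  rw [Matrix.mul_apply, Finset.mul_sum]
  refine I.sum_mem fun d _ => ?_
  rw [Matrix.mul_apply, ← mul_assoc, Finset.mul_sum]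
  refine I.mul_mem_right _ (I.sum_mem fun c _ => ?_)
  rw [mul_left_comm]
  exact I.mul_mem_left _ (h3 c d)

end Vale.Agent.P022G.Rg
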