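import Vale.Agent.P022G.Rw.Rgal0A
import Vale.Agent.P022G.Rw.RgalA
import Vale.Agent.P022G.Rw.Jr
import Vale.Agent.P022G.Rw.Rfl

/-!
# P022G: row RGAL0
-/

set_option linter.all false

noncomputable section

namespace Vale.Agent.P022G

open IsLocalRing MvPowerSeries Filter
open Vale.Agent.P022 Vale.Agent.P022G.R Vale.Agent.P022G.Loc
open Vale.Agent.P027M.S (Inert mx)
open Vale.Agent.P022D.Sel (M2)
open Vale.Agent.P022D.Core (PS io y1 Coef)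
open Vale.Agent.P022E.Loc (Pl)
open Vale.Agent.P022E.GW (Ov Gn)

namespace G0

variable {O F : Type} [CommRing O] [Field F] {S : Dat O F} {L : Pl O}

theorem triv {B : Type} [CommRing B] (Z : PO S B) (hZ : Z.Cl L ∅) {q : ℕ} (hq : q ∉ S.T)
    {P : Ideal _} (hP : Ov q P) {s : GQ} (hs : Inert P s) :
    Z.a s = 1 ∧ Z.b s = 1 ∧ (∀ g, Z.x s g = 0) ∧ ∀ g, Z.x g s = 0 :=
  haveI := Z.N_normal
  P022G.Kl.ker_ent Z.gm Z.N Z.N_inv s
    (hZ.unr q hP.1 hq (Finset.notMem_empty q) P hP.2.1 hP.2.2 s hs)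

theorem cl_up {B : Type} [CommRing B] {Z : PO S B} (hZ : Z.Cl L ∅) (Q : Finset ℕ) : Z.Cl L Q :=
  ⟨hZ.d2, hZ.dc, hZ.dl, hZ.ty, fun l a b _ => hZ.unr l a b (Finset.notMem_empty l)⟩

section
variable {κ ι : Type} {gk : κ → GQ} {G : Gs S L gk ι} {r : ℕ} {jr : PP O ι r →+* PS O (Sy ι)}

/-- a point of level zero is a point of every level -/
theorem pull (h : Hm C (G.jv r) jr) {q : Fin r → ℕ} {τ' : Fin r → GQ}
    (hq : ∀ i, q i ∉ S.T ∧ ∃ P, Ov (q i) P ∧ Gn (q i) P (τ' i)) {B : Type} [CommRing B]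
    {Z : PO S B} {ψ : PS O (Sy ι) →+* B} (hZ : Crv.Pt G Z ψ) :
    Hm Z.ι (Z.val (G.rcr r) (Sum.elim G.γ τ')) (ψ.comp (jr.comp (io O _ r))) := by
  have ht : ∀ i, Z.a (τ' i) = 1 ∧ Z.b (τ' i) = 1 ∧ (∀ g, Z.x (τ' i) g = 0) ∧
      ∀ g, Z.x g (τ' i) = 0 := fun i => by
    obtain ⟨h1, P, h2, h3⟩ := hq i
    exact triv Z hZ.1 h1 h2 h3.1
  refine ⟨fun o => ?_, fun s => ?_⟩
  · rw [RingHom.comp_apply, RingHom.comp_apply, Rg.ioC, h.c, hZ.2.c]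
  rw [RingHom.comp_apply, RingHom.comp_apply, Rg.ioX, h.x]
  rcases s with (i | i) | (i | i) | ⟨i | i, k | k⟩
  · exact (map_sub ψ _ _).trans (congrArg₂ (· - ·) (Crv.hm_a Z hZ.2 i) (hZ.2.c _))
  · exact (map_sub ψ _ _).trans (congrArg₂ (· - ·) ((map_one ψ).trans (ht i).1.symm) (hZ.2.c _))
  · exact (map_sub ψ _ _).trans (congrArg₂ (· - ·) (Crv.hm_d Z hZ.2 i) (hZ.2.c _))
  · exact (map_sub ψ _ _).trans
      (congrArg₂ (· - ·) ((map_one ψ).trans (ht i).2.1.symm) (hZ.2.c _))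
  · exact (map_sub ψ _ _).trans (congrArg₂ (· - ·) (Crv.hm_x Z hZ.2 i k) (hZ.2.c _))
  · exact (map_sub ψ _ _).trans
      (congrArg₂ (· - ·) ((map_zero ψ).trans ((ht k).2.2.2 _).symm) (hZ.2.c _))
  · exact (map_sub ψ _ _).trans
      (congrArg₂ (· - ·) ((map_zero ψ).trans ((ht i).2.2.1 _).symm) (hZ.2.c _))
  · exact (map_sub ψ _ _).trans
      (congrArg₂ (· - ·) ((map_zero ψ).trans ((ht i).2.2.1 _).symm) (hZ.2.c _))

theorem jx (h : Hm C (G.jv r) jr) {B : Type} [CommRing B] {Z : PO S B} {ψ : PS O (Sy ι) →+* B}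
    (hZ : Crv.Pt G Z ψ) (i k : ι ⊕ Fin r) : ψ (jr (xS (G.rcr r) Sum.inl i k)) =
      Z.x (Sum.elim G.γ (fun _ => 1) i) (Sum.elim G.γ (fun _ => 1) k) := by
  rcases i with i | i
  · rcases k with k | k
    · rw [Jr.jr_x h]
      exact Crv.hm_x Z hZ.2 i k
    · rw [Jr.jr_x1 h, map_zero]
      exact (Z.gm.x1 _).2.symm
  · rw [Jr.jr_x2 h, map_zero]
    exact (Z.gm.x1 _).1.symm

theorem a_le (h : Hm C (G.jv r) jr) : rk1 (G.rcr r) Sum.inl ⊔ Ideal.span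
    (Set.range (fun i => xS (G.rcr r) Sum.inl (Sum.inl G.i0) i) ∪
      Set.range fun i => xS (G.rcr r) Sum.inl i (Sum.inl G.i0)) ≤ G.aP.comap jr := by
  refine sup_le (Ideal.span_le.2 ?_) (Ideal.span_le.2 ?_)
  · rintro _ ⟨i, k, i', k', rfl⟩
    refine (Crv.mem_aP G).2 fun B _ Z ψ hZ => ?_
    simp only [map_sub, map_mul, jx h hZ]
    exact sub_eq_zero.2 (Z.gm.sw _ _ _ _)
  · rintro _ (⟨i, rfl⟩ | ⟨i, rfl⟩) <;> refine (Crv.mem_aP G).2 fun B _ Z ψ hZ => ?_ <;>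
      rw [jx h hZ, Sum.elim_inl, G.h0]
    · exact (Z.x0 _).1
    · exact (Z.x0 _).2

end

theorem cl_mem {P : Type} [CommRing P] [IsLocalRing P] [IsNoetherianRing P] (I : Ideal P)
    (U : Filter ℕ) [U.NeBot] {z : ℕ → P} {a : P} (h : P022D.PA.Cv U z a) (hz : ∀ n, z n ∈ I) :
    a ∈ I := P022D.PA.mem_of_sup _ _ fun j => by
  obtain ⟨n, hn⟩ := (h j).exists
  have := sub_mem (Ideal.mem_sup_left (T := maximalIdeal P ^ j) (hz n)) (Ideal.mem_sup_right hn)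
  rwa [sub_sub_cancel] at this

theorem cm_sup {P A : Type} [CommRing P] [IsLocalRing P] [CommRing A] [IsLocalRing A]
    {f : P →+* A} (hf : Function.Surjective f) (I : Ideal A) (N : ℕ) :
    (I ⊔ maximalIdeal A ^ N).comap f ≤ I.comap f ⊔ maximalIdeal P ^ N := fun x hx => by
  rw [Ideal.mem_comap, ← IsLocalRing.map_maximalIdeal_of_surjective f hf, ← Ideal.map_pow] at hx
  obtain ⟨a, ha, b, hb, e⟩ := Submodule.mem_sup.1 hx
  obtain ⟨c, hc, rfl⟩ := (Ideal.mem_map_iff_of_surjective f hf).1 hb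
  refine Submodule.mem_sup.2 ⟨x - c, ?_, c, hc, sub_add_cancel _ _⟩
  rw [Ideal.mem_comap, map_sub, ← e, add_sub_cancel_right]
  exact ha

end G0

open G0

theorem rgal0C (hD : KDEL) (hR : RCOV) : RGAL0 := by
  intro O F _ _ _ _ _ _ _ ϖ S L X as β τ ι' _ _ _ K ι _ G hϖ hC hK r s V _ _ _ _ _ _ Y ht hG hY
  subst hG
  letI : Algebra (S0 O τ L ι S.T r) (S1 O τ L ι S.T r) := (io O _ r).toAlgebra
  have hs := (hR O F ϖ S L X as β τ ι' K ι Y.G' hϖ hC hK r s V Y ht rfl hY).2.2.2.2.1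
  have hd := hD O F ϖ S L X as β τ ι' K ι Y.G' hϖ hC hK r
  obtain ⟨i, k, hx⟩ := hY.ex_x
  rw [psiS_x] at hx
  haveI := Coef.cpl (O := O)
  have hp : (RingHom.ker Y.θ).IsPrime := RingHom.ker_isPrime Y.θ
  set W : Ideal (S1 O τ L ι S.T r) := (Y.G'.aP.comap Y.jr).map (ψ1 S L τ ι r) ⊔
    (t0 K Y.G' r).map (io O _ r) with hW
  set δ : S0 O τ L ι S.T r :=
    xS (Y.G'.rcr r) (e0 (S := S) (L := L) (τ := τ) r) (Sum.inl i) (Sum.inl k) with hδ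
  have key : ∀ n, ∀ f ∈ Kn K Y.G' r (Y.q n) (Y.τ' n), io O _ r (δ * f) ∈ W := by
    intro n f hf
    refine P022D.PA.mem_of_sup _ _ fun N => ?_
    have h0 : (Y.G'.aP ⊔ maximalIdeal _ ^ N).comap Y.jr ≤
        (W ⊔ maximalIdeal _ ^ N).comap (ψ1 S L τ ι r) := by
      refine (cm_sup hs _ N).trans (Ideal.map_le_iff_le_comap.1 ?_)
      rw [Ideal.map_sup]
      exact sup_le_sup le_sup_left (_root_.P022G.Lk.map_pow_le _ Rg.p1_max N)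
    rcases G0.one Y.G' N with h | ⟨B, _, Z, ψ, hZ, h⟩
    · rw [h, Ideal.comap_top, top_le_iff, Ideal.comap_eq_top_iff] at h0
      rw [h0]
      trivial
    · have h1 := hd (Y.q n) (Y.τ' n) (hY.gn n) B Z _ (cl_up hZ.1 _) (pull hY.jr (hY.gn n) hZ)
        (Sum.inl i) (Sum.inl k) f hf
      rw [Rg.p0x] at h1
      refine (sup_le (Ideal.map_le_iff_le_comap.2 fun u hu => ?_) ?_ :
        _ ≤ (W ⊔ maximalIdeal _ ^ N).comap (io O _ r)) h1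
      · rw [Ideal.mem_comap, Ideal.mem_comap, ← Rg.p1io]
        exact h0 (h hu)
      · exact Ideal.map_le_iff_le_comap.1 (le_sup_right.trans le_sup_left)
  have hE : ∀ f ∈ Rel.IK (DD K ι S.T r) Y.k, io O _ r (δ * f) ∈ W := by
    intro f hf
    refine (sup_le (fun u hu => ?_) (Ideal.span_le.2 ?_) :
      _ ≤ Pt.cl (W.comap (io O _ r)) δ) hf
    · refine key 0 u ?_
      rintro B _ j v ψ ⟨Xo, h1, rfl, rfl⟩ h2
      exact hK.eqs _ B Xo h1.1 ψ h2.c (fun z => h2.x (Sum.inl z)) hu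
    · rintro _ ⟨a, rfl⟩
      exact cl_mem (Pt.cl (W.comap (io O _ r)) δ) _ (hY.cvk a) fun n => key n _ (hY.kn n a)
  have hr : (Y.rd ϖ).𝔯 ≤ W := by
    refine Ideal.span_le.2 ?_
    rintro _ ⟨a, rfl⟩
    have h1 : y1 O _ a ∈ W := by
      rw [← Rg.p1y]
      refine Ideal.mem_sup_left (Ideal.mem_map_of_mem _ ?_)
      rw [Ideal.mem_comap, y1, hY.jr.x]
      exact zero_mem _
    have h2 : 1 - Y.ta a + Y.da a ∈ Y.G'.aP.comap (Y.jr.comp (io O _ r)) := by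
      refine cl_mem _ (Y.U : Filter ℕ) (z := fun n => 1 - Y.tn n a + Y.dn n a)
        (fun j => ((hY.cvt a j).and (hY.cvd a j)).mono fun n hn => ?_) fun n => ?_
      · convert sub_mem hn.2 hn.1 using 1
        ring
      · refine (Crv.mem_aP _).2 fun B _ Z ψ hZ => ?_
        obtain ⟨e1, e2⟩ := hY.tn n a B Z _ (cl_up hZ.1 _) (pull hY.jr (hY.gn n) hZ)
        obtain ⟨P, h3, h4⟩ := hY.ine n a
        obtain ⟨a1, a2, a3, -⟩ := triv Z hZ.1 (hY.gn n a).1 h3 h4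
        change (ψ.comp (Y.jr.comp (io O _ r))) _ = 0
        rw [map_add, map_sub, map_one, e1, e2, ← Z.gm.sum, ← Z.gm.det, a1, a2, a3]
        ring
    have h3 : io O _ r (1 - ψ0 S L τ ι r (Y.ta a) + ψ0 S L τ ι r (Y.da a)) ∈ W := by
      rw [← map_one (ψ0 S L τ ι r), ← map_sub, ← map_add, ← Rg.p1io]
      exact Ideal.mem_sup_left (Ideal.mem_map_of_mem _ h2)
    exact add_mem (sub_mem (W.pow_mem_of_mem h1 2 two_pos) (W.mul_mem_left _ h1)) h3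
  have lc : ∀ (E' : Ideal (S0 O τ L ι S.T r)) (W' : Ideal (S1 O τ L ι S.T r)), W ≤ W' →
      (∀ f ∈ E', io O _ r (δ * f) ∈ W') →
      Pt.Lc (RingHom.ker Y.θ) (E'.map (io O _ r) ⊔ (Y.rd ϖ).𝔯) W' := fun E' W' h1 h2 =>
    Pt.Lc.sup hp (Pt.Lc.of_span hp (io O _ r '' E') le_rfl (by
      rintro _ ⟨f, hf, rfl⟩
      exact ⟨_, hx, by rw [← map_mul]; exact h2 f hf⟩)) (Pt.Lc.of_le hp (hr.trans h1))
  refine ⟨⟨a_le hY.jr, lc _ _ le_rfl hE⟩, fun 𝔟 hb hτ => ⟨(a_le hY.jr).trans hb, ?_⟩⟩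
  have h1 : W ≤ 𝔟.map (ψ1 S L τ ι r) ⊔ (t0 K Y.G' r).map (io O _ r) :=
    sup_le_sup_right (Ideal.map_mono hb) _
  refine lc _ _ h1 fun f hf => (sup_le (fun u hu => h1 (hE u hu)) (Ideal.span_le.2 ?_) :
    _ ≤ Pt.cl ((𝔟.map (ψ1 S L τ ι r) ⊔ (t0 K Y.G' r).map (io O _ r)).comap (io O _ r)) δ) hf
  rintro _ ⟨l, hl, a, b, rfl⟩
  have h2 : ∀ u ∈ (Y.rd ϖ).τP l, ψ1 S L τ ι r u ∈
      𝔟.map (ψ1 S L τ ι r) ⊔ (t0 K Y.G' r).map (io O _ r) := fun u hu =>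
    Ideal.mem_sup_left (Ideal.mem_map_of_mem _ (hτ l hl hu))
  refine Rg.blk_one K Y.G' hK.uv l
    ((𝔟.map (ψ1 S L τ ι r) ⊔ (t0 K Y.G' r).map (io O _ r)).comap (io O _ r))
    (Ideal.map_le_iff_le_comap.1 le_sup_right) _ _ ?_ ?_ ?_ ?_ a b
  · rw [Ideal.mem_comap, map_sub, map_one, ← psiS_a, ← map_one (psiS O S L τ ι r), ← map_sub]
    exact h2 _ (Or.inl (Or.inl rfl))
  · rw [Ideal.mem_comap, map_sub, map_one, ← psiS_d, ← map_one (psiS O S L τ ι r), ← map_sub]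
    exact h2 _ (Or.inl (Or.inr rfl))
  · rw [Ideal.mem_comap, ← psiS_x]
    exact h2 _ (Or.inr (Or.inl ⟨_, rfl⟩))
  · rw [Ideal.mem_comap, ← psiS_x]
    exact h2 _ (Or.inr (Or.inr ⟨_, rfl⟩))

end Vale.Agent.P022G
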