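import Vale.Agent.P022G.Rw.RlocAH82

/-!
# P022G: row RLOC
-/

set_option linter.all false

noncomputable section

namespace Vale.Agent.P022G.RlocH82

open NumberField IsLocalRing MvPowerSeries Filter
open Vale.Agent.P022 Vale.Agent.P022G.R Vale.Agent.P022G.Loc
open Vale.Agent.P022D.Sel (M2)
open Vale.Agent.P022D.Core (PS io y1)
open Vale.Agent.P022E.Loc (Pl)

variable {O F : Type} [CommRing O] [Field F] {S : Dat O F} {L : Pl O} {β : Type}
  {τ ι' : β → Type} {K : Kx O β τ ι' L.C} {ι : Type} {r : ℕ}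

theorem al_unit (l : ℕ) : IsUnit (αS τ L ι S.T r l).det := by
  unfold αS
  split_ifs with h
  · rw [MvPowerSeries.isUnit_iff_constantCoeff, Matrix.det_fin_two]
    simp
  · simp

/-- modulo the tautological relations the blocks are conjugates of the universal matrices -/
theorem conj (G : Gs S L K.g ι) (huv : ∀ γ, K.u γ * K.v γ = 1) {B : Type} [CommRing B]
    (m : S0 O τ L ι S.T r →+* B) (hm : t0 K G r ≤ RingHom.ker m) (l : L.C) :
    ∃ P Q : M2 B, P * Q = 1 ∧ Q * P = 1 ∧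
      ((DD K ι S.T r).Φ l).map m = P * (ZS K G r (Sum.inl (G.iφ l))).map m * Q ∧
      ((DD K ι S.T r).T l).map m = P * (ZS K G r (Sum.inl (G.iτ l))).map m * Q := by
  have hk : ∀ i, m (X (Sum.inl i)) = m (κS K G r i) := fun i => by
    have : m (X (Sum.inl i) - κS K G r i) = 0 :=
      hm (Ideal.subset_span (Or.inl (Or.inr ⟨i, rfl⟩)))
    rwa [map_sub, sub_eq_zero] at this
  set α := αS τ L ι S.T r l with hα
  set u : M2 (S0 O τ L ι S.T r) := (K.u l).map C with hu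
  set v : M2 (S0 O τ L ι S.T r) := (K.v l).map C with hv
  have h1 : u * v = 1 := by
    rw [hu, hv, ← Matrix.map_mul, huv]; simp
  have h2 : (u * α⁻¹) * (α * v) = 1 := by
    rw [mul_assoc, ← mul_assoc α⁻¹, Matrix.nonsing_inv_mul _ (al_unit l), one_mul, h1]
  have h3 : (u * α⁻¹).map m * (α * v).map m = 1 := by
    rw [← Matrix.map_mul, h2]; simp
  have e : ∀ i, (u * α⁻¹).map m * (ZS K G r (Sum.inl i)).map m * (α * v).map m =
      (u * lS K G r l i * v).map m := fun i => by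
    rw [← Matrix.map_mul, ← Matrix.map_mul, lS, ← hα]
    simp only [mul_assoc]
  have hx : ∀ j : Fin 8, m (X ((DD K ι S.T r).x l j)) = m (e8 (C (K.s l)) (C (K.b l)) (C (K.n l))
      (u * lS K G r l (G.iφ l) * v) (u * lS K G r l (G.iτ l) * v) j) := fun j =>
    hk (Sum.inr (l, j))
  refine ⟨_, _, h3, mul_eq_one_comm.1 h3, ?_, ?_⟩
  · rw [e]
    have a0 := hx 0
    have a1 := hx 1
    have a2 := hx 2
    have a3 := hx 3
    generalize u * lS K G r l (G.iφ l) * v = W at *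
    simp only [e8, Matrix.cons_val, map_sub] at a0 a1 a2 a3
    change (P022D.Rl.mP ((DD K ι S.T r).x l) (K.s l) (K.b l)).map m = _
    ext a b
    fin_cases a <;> fin_cases b <;> simp [P022D.Rl.mP, a0, a1, a2, a3]
  · rw [e]
    have a0 := hx 4
    have a1 := hx 5
    have a2 := hx 6
    have a3 := hx 7
    generalize u * lS K G r l (G.iτ l) * v = W at *
    simp only [e8, Matrix.cons_val, map_sub] at a0 a1 a2 a3
    change (P022D.Rl.mT ((DD K ι S.T r).x l) (K.n l)).map m = _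
    ext a b
    fin_cases a <;> fin_cases b <;> simp [P022D.Rl.mT, a0, a1, a2, a3]

theorem tr_conj {B : Type} [CommRing B] {P Q : M2 B} (h : Q * P = 1) (A : M2 B) :
    (P * A * Q).trace = A.trace := by
  rw [Matrix.trace_mul_comm, ← mul_assoc, h, one_mul]

theorem one_conj {B : Type} [CommRing B] {P Q : M2 B} (h : P * Q = 1) (h' : Q * P = 1)
    (A : M2 B) : P * A * Q = 1 ↔ A = 1 := by
  constructor
  · intro e
    have : A = Q * (P * A * Q) * P := by
      calc A = (Q * P) * A * (Q * P) := by rw [h', one_mul, mul_one]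
        _ = _ := by simp only [mul_assoc]
    rw [this, e, mul_one, h']
  · rintro rfl
    rw [mul_one, h]

theorem tr_map {A B : Type} [CommRing A] [CommRing B] (m : A →+* B) (W : M2 A) :
    m W.trace = (W.map m).trace := by
  simp [Matrix.trace_fin_two]

theorem sub_one {A B : Type} [CommRing A] [CommRing B] (m : A →+* B) (W : M2 A) :
    (∀ a b, m ((W - 1) a b) = 0) ↔ W.map m = 1 := by
  constructor
  · intro h
    ext a b
    have := h a b
    rw [Matrix.sub_apply, map_sub, sub_eq_zero] at this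
    rw [Matrix.map_apply, this, Matrix.one_apply, Matrix.one_apply]
    split_ifs <;> simp
  · intro h a b
    have := congrFun (congrFun h a) b
    rw [Matrix.map_apply] at this
    rw [Matrix.sub_apply, map_sub, this, Matrix.one_apply, Matrix.one_apply]
    split_ifs <;> simp

section
variable (G : Gs S L K.g ι) {B : Type} [CommRing B] (m : S0 O τ L ι S.T r →+* B)
  (hm : t0 K G r ≤ RingHom.ker m) (n : PP O ι r →+* B)
  (ha : ∀ i, n (aS (G.rcr r) Sum.inl i) = m (aS (G.rcr r) (e0 r) i))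
  (hd : ∀ i, n (dS (G.rcr r) Sum.inl i) = m (dS (G.rcr r) (e0 r) i))
  (hx : ∀ i k, n (xS (G.rcr r) Sum.inl i k) = m (xS (G.rcr r) (e0 r) i k))
include hm hx

theorem x_eq (i k : ι ⊕ Fin r) : n (xS (G.rcr r) Sum.inl i k) =
    (ZS K G r i).map m 0 1 * (ZS K G r k).map m 1 0 := by
  have : m (xS (G.rcr r) (e0 r) i k - ZS K G r i 0 1 * ZS K G r k 1 0) = 0 :=
    hm (Ideal.subset_span (Or.inl (Or.inl ⟨(i, k), rfl⟩)))
  rw [map_sub, sub_eq_zero, map_mul] at this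
  rw [hx, this]
  rfl

include ha hd

theorem tr_eq (i : ι ⊕ Fin r) : n (trS (G.rcr r) Sum.inl i) = ((ZS K G r i).map m).trace := by
  rw [trS, map_add, ha, hd, Matrix.trace_fin_two]
  rfl

theorem tr2_eq (i k : ι ⊕ Fin r) : n (tr2 (G.rcr r) Sum.inl i k) =
    ((ZS K G r i).map m * (ZS K G r k).map m).trace := by
  have e1 := x_eq G m hm n hx i k
  have e2 := x_eq G m hm n hx k i
  have a : ∀ i, n (aS (G.rcr r) Sum.inl i) = (ZS K G r i).map m 0 0 := fun i => ha i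
  have d : ∀ i, n (dS (G.rcr r) Sum.inl i) = (ZS K G r i).map m 1 1 := fun i => hd i
  rw [tr2]
  simp only [map_add, map_mul, e1, e2, a, d, Matrix.trace_fin_two, Matrix.mul_apply,
    Fin.sum_univ_two]
  ring

theorem tau_eq [IsDomain B] (hi : ∃ i k, n (xS (G.rcr r) Sum.inl i k) ≠ 0) (i : ι ⊕ Fin r) :
    (∀ u ∈ tauP (G.rcr r) Sum.inl i, n u = 0) ↔ (ZS K G r i).map m = 1 := by
  have a : n (aS (G.rcr r) Sum.inl i) = (ZS K G r i).map m 0 0 := ha i
  have d : n (dS (G.rcr r) Sum.inl i) = (ZS K G r i).map m 1 1 := hd i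
  constructor
  · intro h
    obtain ⟨i', k', h'⟩ := hi
    rw [x_eq G m hm n hx] at h'
    have b1 := h _ (Or.inl (Or.inl rfl))
    have b2 := h _ (Or.inl (Or.inr rfl))
    have b3 := h _ (Or.inr (Or.inl ⟨k', rfl⟩))
    have b4 := h _ (Or.inr (Or.inr ⟨i', rfl⟩))
    rw [map_sub, map_one, a, sub_eq_zero] at b1
    rw [map_sub, map_one, d, sub_eq_zero] at b2
    rw [x_eq G m hm n hx] at b3 b4
    have c3 := (mul_eq_zero.1 b3).resolve_right (right_ne_zero_of_mul h')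
    have c4 := (mul_eq_zero.1 b4).resolve_left (left_ne_zero_of_mul h')
    ext a b
    fin_cases a <;> fin_cases b
    · simpa using b1
    · simpa using c3
    · simpa using c4
    · simpa using b2
  · intro h u hu
    rcases hu with (rfl | rfl) | ⟨k, rfl⟩ | ⟨k, rfl⟩
    · rw [map_sub, map_one, a, h]; simp
    · rw [map_sub, map_one, d, h]; simp
    · rw [x_eq G m hm n hx, h]; simp
    · rw [x_eq G m hm n hx, h]; simp

end

theorem rloc : RLOC := by
  intro O F _ _ _ _ _ _ _ ϖ S L X as β τ ι' _ _ _ K ι _ G hϖ hC hK r s V _ _ _ _ _ _ Y ht hG hY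
  letI : Algebra (S0 O τ L ι S.T r) (S1 O τ L ι S.T r) := (io O _ r).toAlgebra
  intro 𝔮 hq
  haveI := hq.pr
  let φ := Ideal.Quotient.mk 𝔮
  have z : ∀ u, u ∈ 𝔮 ↔ φ u = 0 := fun u => Ideal.Quotient.eq_zero_iff_mem.symm
  let m : S0 O τ L ι S.T r →+* _ := φ.comp (io O _ r)
  let n : PP O ι r →+* _ := φ.comp (ψ1 S L τ ι r)
  have hm : t0 K Y.G' r ≤ RingHom.ker m := fun u hu =>
    (z _).1 (hq.t (Ideal.mem_map_of_mem _ hu))
  have ha : ∀ i, n (aS (Y.G'.rcr r) Sum.inl i) = m (aS (Y.G'.rcr r) (e0 r) i) := fun i =>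
    congrArg φ (psiS_a r _ i)
  have hd : ∀ i, n (dS (Y.G'.rcr r) Sum.inl i) = m (dS (Y.G'.rcr r) (e0 r) i) := fun i =>
    congrArg φ (psiS_d r _ i)
  have hx : ∀ i k, n (xS (Y.G'.rcr r) Sum.inl i k) = m (xS (Y.G'.rcr r) (e0 r) i k) :=
    fun i k => congrArg φ (psiS_x r _ i k)
  have hi : ∃ i k, n (xS (Y.G'.rcr r) Sum.inl i k) ≠ 0 := by
    obtain ⟨i, k, e⟩ := hY.ex_x
    exact ⟨_, _, fun c => e (hq.le ((z _).2 c))⟩
  have key : ∀ l : L.C,
      ((∀ u ∈ tauP (Y.G'.rcr r) Sum.inl (Sum.inl (Y.G'.iτ l)), n u = 0) ↔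
        ∀ a b, m (((DD K ι S.T r).T l - 1) a b) = 0) ∧
      n (trS (Y.G'.rcr r) Sum.inl (Sum.inl (Y.G'.iτ l))) = m ((DD K ι S.T r).T l).trace ∧
      n (trS (Y.G'.rcr r) Sum.inl (Sum.inl (Y.G'.iφ l))) = m ((DD K ι S.T r).Φ l).trace ∧
      n (tr2 (Y.G'.rcr r) Sum.inl (Sum.inl (Y.G'.iτ l)) (Sum.inl (Y.G'.iφ l))) =
        m ((DD K ι S.T r).T l * (DD K ι S.T r).Φ l).trace := by
    intro l
    obtain ⟨P, Q, h1, h2, h3, h4⟩ := conj Y.G' hK.uv m hm l
    refine ⟨?_, ?_, ?_, ?_⟩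
    · rw [tau_eq Y.G' m hm n ha hd hx hi, sub_one, h4, one_conj h1 h2]
    · rw [tr_eq Y.G' m hm n ha hd hx, tr_map, h4, tr_conj h2]
    · rw [tr_eq Y.G' m hm n ha hd hx, tr_map, h3, tr_conj h2]
    · rw [tr2_eq Y.G' m hm n ha hd hx, tr_map, Matrix.map_mul, h3, h4, ← tr_conj h2]
      congr 1
      simp only [mul_assoc]
      rw [← mul_assoc Q P, h2, one_mul]
  refine ⟨fun he i => one hY 𝔮 he i, fun l h u hu => ?_, fun l h => ?_, fun J => ?_⟩
  · obtain ⟨p, rfl⟩ := hu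
    exact (z _).2 ((key l).1.1 (fun u hu => (z _).1 (h u hu)) p.1 p.2)
  · exact (z _).2 ((key l).2.2.1.symm.trans ((z _).1 h))
  · constructor
    · intro h
      have h' : ∀ u, ((∃ l ∈ J, u = trS (Y.G'.rcr r) Sum.inl (Sum.inl (Y.G'.iτ l)) ∨
          u = trS (Y.G'.rcr r) Sum.inl (Sum.inl (Y.G'.iφ l)) ∨
          u = tr2 (Y.G'.rcr r) Sum.inl (Sum.inl (Y.G'.iτ l)) (Sum.inl (Y.G'.iφ l))) ∨
          ∃ l, l ∉ J ∧ u ∈ tauP (Y.G'.rcr r) Sum.inl (Sum.inl (Y.G'.iτ l))) → n u = 0 :=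
        fun u hu => (z _).1 (h (Ideal.subset_span hu))
      refine Ideal.span_le.2 ?_
      rintro u (⟨l, hl, rfl | rfl | rfl⟩ | ⟨l, hl, a, b, rfl⟩)
      · exact (z _).2 ((key l).2.1.symm.trans (h' _ (Or.inl ⟨l, hl, Or.inl rfl⟩)))
      · exact (z _).2 ((key l).2.2.1.symm.trans (h' _ (Or.inl ⟨l, hl, Or.inr (Or.inl rfl)⟩)))
      · exact (z _).2 ((key l).2.2.2.symm.trans (h' _ (Or.inl ⟨l, hl, Or.inr (Or.inr rfl)⟩)))
      · exact (z _).2 ((key l).1.1 (fun u hu => h' u (Or.inr ⟨l, hl, hu⟩)) a b)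
    · intro h
      have h' : ∀ u, ((∃ l ∈ J, u = ((DD K ι S.T r).T l).trace ∨
          u = ((DD K ι S.T r).Φ l).trace ∨
          u = ((DD K ι S.T r).T l * (DD K ι S.T r).Φ l).trace) ∨
          ∃ l, l ∉ J ∧ ∃ a b, u = ((DD K ι S.T r).T l - 1) a b) → m u = 0 :=
        fun u hu => (z _).1 (h (Ideal.subset_span hu))
      refine Ideal.span_le.2 ?_
      rintro u (⟨l, hl, rfl | rfl | rfl⟩ | ⟨l, hl, hu⟩)
      · exact (z _).2 ((key l).2.1.trans (h' _ (Or.inl ⟨l, hl, Or.inl rfl⟩)))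
      · exact (z _).2 ((key l).2.2.1.trans (h' _ (Or.inl ⟨l, hl, Or.inr (Or.inl rfl)⟩)))
      · exact (z _).2 ((key l).2.2.2.trans (h' _ (Or.inl ⟨l, hl, Or.inr (Or.inr rfl)⟩)))
      · exact (z _).2 ((key l).1.2 (fun a b => h' _ (Or.inr ⟨l, hl, a, b, rfl⟩)) u hu)

end Vale.Agent.P022G.RlocH82
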