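import Vale.Agent.P022G.Rw.Rfl
import Vale.Agent.P022G.Up0

/-!
# P022G: row RUP
-/

set_option linter.all false

noncomputable section

namespace Vale.Agent.P022G

theorem rupC (hR : RCOV) : RUP := by
  intro O F _ _ _ _ _ _ _ ϖ S L X as β τ ι' _ _ _ K ι _ G hϖ hC hK r s V _ _ _ _ _ _ Y ht hG hY
    η hη g1 g2
  obtain ⟨i, k, e⟩ := hY.ex_x
  have hT : 0 < S.T.card := Finset.card_pos.2 ⟨S.l0, S.hl0⟩
  exact up0 K Y.G' r (Y.rd ϖ).ψ (fun _ => rfl) le_sup_left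
    (fun k => ⟨Ideal.mem_sup_right (Ideal.subset_span (Or.inl ⟨k, rfl⟩)),
      Ideal.mem_sup_right (Ideal.subset_span (Or.inr ⟨k, rfl⟩))⟩)
    (RingHom.ker_isPrime Y.θ)
    (hR O F ϖ S L X as β τ ι' K ι G hϖ hC hK r s V Y ht hG hY).2.1 _ _ e
    (a := 4 * S.T.card - 1) (by omega) η hη g1 g2

end Vale.Agent.P022G
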