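import Vale.Agent.P022G.Rows
import Vale.Agent.P022G.Mod.Fm
import Vale.Agent.P022G.Chain2
import Vale.Agent.P022G.Kd.A
import Vale.Agent.P022D.As.Cov
import Vale.Agent.P022D.CA.Cpl

/-! # P022G, row SEED: a component of dimension two in the support of the forms -/

set_option linter.all false

noncomputable section

namespace Vale.Agent.P022G

open NumberField IsLocalRing MvPowerSeries
open Vale.Agent.P022 Vale.Agent.P022G.R Vale.Agent.P022G.Loc
open Vale.Agent.P027M.S (Inert mx)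
open Vale.Agent.P022D.Sel (M2)
open Vale.Agent.P022D.Core (PS Coef)
open Vale.Agent.P022D.R (evl Van)
open Vale.Agent.P022E.Loc (Pl)
open Vale.Agent.P022E.As (Tg cc tt dd yy mT ev0 Big Gm Dq)
open Vale.Agent.P022G.Mod (Fm Ac Gd)
open Vale.Agent.P022G.Chain (Pd Cv)
open Ideal (torsionOf mem_torsionOf_iff)

namespace Sd

section hm
variable {O ι B : Type} [CommRing O] [CommRing B] {rc : ι → M2 O} {j : O →+* B} {a d : ι → B}
  {x : ι → ι → B} {ψ : PS O (Sy ι) →+* B} (h : Hm j (gv rc j a d x) ψ)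
include h

theorem hm_a (i : ι) : ψ (aS rc id i) = a i := by
  rw [aS, map_add, h.c, h.x]; exact add_sub_cancel _ _

theorem hm_d (i : ι) : ψ (dS rc id i) = d i := by
  rw [dS, map_add, h.c, h.x]; exact add_sub_cancel _ _

theorem hm_x (i k : ι) : ψ (xS rc id i k) = x i k := by
  rw [xS, map_add, h.c, h.x]; exact add_sub_cancel _ _

end hm

variable {O F : Type} [CommRing O] [IsDomain O] [IsDiscreteValuationRing O] [Field F]
  {S : Dat O F} {L : Pl O} {κ ι : Type} {gk : κ → GQ} [Fintype ι] (G : Gs S L gk ι)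

/-- the evaluation modulo `a` -/
def Φ (a : Ideal (Tg O)) : PS O (Sy ι) →+* Tg O ⧸ a :=
  evl ((Ideal.Quotient.mk a).comp MvPolynomial.C) fun s =>
    Ideal.Quotient.mk a (vT S L G.rc G.γ s)

/-- the good ideals -/
def GI (S : Dat O F) (L : Pl O) : Set (Ideal (Tg O)) := {a | a = ⊤ ∨ Gp S L ∅ 0 a}

def Pv (S : Dat O F) (L : Pl O) : Prop :=
  ∀ (B : Type) [CommRing B] (Z : PO S B) (u : Tg O →+* B), Z.Std u →
    (∀ g, u (aT S L g) = Z.a g ∧ u (dT S L g) = Z.b g) ∧ ∀ g h, u (xT S L g h) = Z.x g h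

theorem pi_val (hL : OkG L S) {B : Type} [CommRing B] (Z : PO S B) (s : Sy ι) :
    Z.π (Z.val G.rc G.γ s) = 0 := by
  have e : ∀ g a b, S.red (L.r g a b) = mx S.rb g a b := fun g a b => by rw [← hL.lift]; rfl
  rcases s with i | i | p
  · change Z.π (Z.a _ - Z.ι (L.r _ 0 0)) = 0
    rw [map_sub, Z.ra, Z.alg, e, sub_self]
  · change Z.π (Z.b _ - Z.ι (L.r _ 1 1)) = 0
    rw [map_sub, Z.rb, Z.alg, e, sub_self]
  · change Z.π (Z.x _ _ - Z.ι (L.r _ 0 1 * L.r _ 1 0)) = 0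
    rw [map_sub, Z.rx, Z.alg, map_mul, e, e, sub_self]

theorem van (hL : OkG L S) {B : Type} [CommRing B] (Z : PO S B) :
    ∃ n, Van Z.ι (Z.val G.rc G.γ) n :=
  Z.nil.imp fun n hn => P022D.R.van_of_pow _ _ _ hn fun s => pi_val G hL Z s

theorem Φ_eq (hP : Pv S L) {a : Ideal (Tg O)} (Z : PO S (Tg O ⧸ a))
    (h : Z.Std (Ideal.Quotient.mk a)) : (Ideal.Quotient.mk a).comp MvPolynomial.C = Z.ι ∧
      (fun s => Ideal.Quotient.mk a (vT S L G.rc G.γ s)) = Z.val G.rc G.γ := by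
  obtain ⟨h1, h2⟩ := hP _ Z _ h
  refine ⟨RingHom.ext h.c, funext fun s => ?_⟩
  rcases s with i | i | p
  · change Ideal.Quotient.mk a (aT S L _ - cc _) = Z.a _ - Z.ι _
    rw [map_sub, (h1 _).1, h.c]
  · change Ideal.Quotient.mk a (dT S L _ - cc _) = Z.b _ - Z.ι _
    rw [map_sub, (h1 _).2, h.c]
  · change Ideal.Quotient.mk a (xT S L _ _ - cc _) = Z.x _ _ - Z.ι _
    rw [map_sub, h2, h.c]

theorem Φ_hm (hL : OkG L S) (hP : Pv S L) {a : Ideal (Tg O)} (Z : PO S (Tg O ⧸ a))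
    (h : Z.Std (Ideal.Quotient.mk a)) : Hm Z.ι (Z.val G.rc G.γ) (Φ G a) := by
  obtain ⟨n, hn⟩ := van G hL Z
  rw [Φ, (Φ_eq G hP Z h).1, (Φ_eq G hP Z h).2]
  exact ⟨P022D.R.evl_C hn, P022D.R.evl_X hn⟩

theorem Φ_pi (hL : OkG L S) (hP : Pv S L) {a : Ideal (Tg O)} (Z : PO S (Tg O ⧸ a))
    (h : Z.Std (Ideal.Quotient.mk a)) (f : PS O (Sy ι)) :
    Z.π (Φ G a f) = 0 ↔ f ∈ maximalIdeal (PS O (Sy ι)) := by
  obtain ⟨n, hn⟩ := van G hL Z
  rw [Φ, (Φ_eq G hP Z h).1, (Φ_eq G hP Z h).2, P022D.R.map_evl hn, funext (pi_val G hL Z),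
    P022D.R.evl_zero, RingHom.comp_apply, Z.alg, hL.ker, P022D.CA.Cpl.mem_max_iff]

theorem pi_mk (hL : OkG L S) {B : Type} [CommRing B] (Z : PO S B) {u : Tg O →+* B} (h : Z.Std u)
    (hy : ∀ i, Z.π (u (yy i)) = 0) (t : Tg O) : Z.π (u t) = 0 ↔ t ∈ mT L.r := by
  have e : Z.π.comp u = S.red.comp (ev0 L.r) := by
    refine MvPolynomial.ringHom_ext (fun o => ?_) fun s => ?_
    · change Z.π (u (cc o)) = S.red (ev0 L.r (MvPolynomial.C o))
      rw [h.c, Z.alg, ev0, MvPolynomial.eval₂Hom_C, RingHom.id_apply]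
    · rw [RingHom.comp_apply S.red, ev0, MvPolynomial.eval₂Hom_X']
      rcases s with g | g | i
      · change Z.π (u (tt g)) = S.red (L.r g).trace
        rw [h.t, Z.π_t, ← hL.lift, Matrix.trace_fin_two, Matrix.trace_fin_two, map_add]
        rfl
      · change Z.π (u (dd g)) = S.red (L.r g).det
        rw [h.d, Z.π_d, ← hL.lift, RingHom.map_det]
        rfl
      · change Z.π (u (yy i)) = S.red 0
        rw [hy, map_zero]
  rw [show Z.π (u t) = _ from RingHom.congr_fun e t, RingHom.comp_apply, hL.ker]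
  rfl

/-- the system of the good quotients -/
theorem fm (hL : OkG L S) (hP : Pv S L)
    (inf : ∀ a b, Gp S L ∅ 0 a → Gp S L ∅ 0 b → Gp S L ∅ 0 (a ⊓ b))
    (gen : ∀ (B : Type) [CommRing B] (Z : PO S B), Z.Cl L ∅ → ∀ R : Subring B,
      (∀ o, Z.ι o ∈ R) → (∀ s, Z.val G.rc G.γ s ∈ R) → ∀ g, Z.t g ∈ R ∧ (Z.d g : B) ∈ R)
    (ne : ∃ a, Gp S L ∅ 0 a) : Fm (GI S L) (Φ G) (mT L.r) where
  inf := by
    rintro a (rfl | ha) b hb
    · rwa [top_inf_eq]
    · rcases hb with rfl | hb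
      · rw [inf_top_eq]; exact Or.inr ha
      · exact Or.inr (inf a b ha hb)
  fac := by
    rintro a (rfl | ⟨Z, h, -⟩) b hb e f t k
    · obtain rfl := top_le_iff.1 e
      exact k
    · obtain ⟨n, hn⟩ := van G hL Z
      rw [← (Φ_eq G hP Z h).2, ← (Φ_eq G hP Z h).1] at hn
      have h1 := P022D.R.map_evl hn (Ideal.Quotient.factor e) f
      rw [show evl _ _ f = Φ G a f from rfl, k] at h1
      exact h1.symm
  sur := by
    rintro a (rfl | ⟨Z, h, hc, -, hy⟩) z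
    · exact ⟨0, Subsingleton.elim _ _⟩
    · have m := Φ_hm G hL hP Z h
      have k := gen _ Z hc (Φ G a).range (fun o => ⟨_, m.c o⟩) fun s => ⟨_, m.x s⟩
      obtain ⟨t, rfl⟩ := Ideal.Quotient.mk_surjective z
      change _ ∈ (Φ G a).range
      induction t using MvPolynomial.induction_on with
      | C o => exact ⟨_, (m.c o).trans (h.c o).symm⟩
      | add p q hp hq => rw [map_add]; exact add_mem hp hq
      | mul_X p s hp =>
        rw [map_mul]
        refine mul_mem hp ?_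
        rcases s with g | g | i
        · exact (h.t g).symm ▸ (k g).1
        · exact (h.d g).symm ▸ (k g).2
        · exact (Ideal.Quotient.eq_zero_iff_mem.2 (hy i (Nat.zero_le i))).symm ▸ zero_mem _
  ker := by
    rintro a (rfl | ⟨Z, h, -⟩)
    · exact ⟨0, fun u _ => Subsingleton.elim _ _⟩
    · obtain ⟨n, hn⟩ := Z.nil
      refine ⟨n, fun u hu => ?_⟩
      have h1 : (maximalIdeal (PS O (Sy ι))).map (Φ G a) ≤ RingHom.ker Z.π :=
        Ideal.map_le_iff_le_comap.2 fun f hf => (Φ_pi G hL hP Z h f).2 hf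
      have h2 := Ideal.pow_right_mono h1 n
      rw [← Ideal.map_pow, hn] at h2
      exact h2 (Ideal.mem_map_of_mem _ hu)
  res := by
    obtain ⟨a, Z, h, hc, hy, hz⟩ := ne
    refine ⟨a, Or.inr ⟨Z, h, hc, hy, hz⟩, fun f t e => ?_⟩
    rw [← Φ_pi G hL hP Z h, e, pi_mk hL Z h hy]

theorem big_ne {m : Ideal (Tg O)} {Y : Type} [AddCommGroup Y] [Module (Tg O) Y] (h : Big m Y) :
    ∃ w : Y, w ≠ 0 := by
  by_contra hn
  push Not at hn
  haveI : Subsingleton Y := ⟨fun a b => (hn a).trans (hn b).symm⟩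
  letI : Module O Y := Module.compHom Y (MvPolynomial.C : O →+* Tg O)
  obtain ⟨p, hp, h1, -⟩ := h O (fun u s => ⟨0, fun w _ => Subsingleton.elim _ _⟩)
    (fun u _ w => ⟨0, Subsingleton.elim _ _⟩)
    fun p => ⟨0, fun _ => zero_mem _, fun w => Subsingleton.elim _ _⟩
  exact hp.ne_top ((Ideal.eq_top_iff_one _).2
    (h1 (Module.mem_annihilator.2 fun w => Subsingleton.elim _ _)))

end Sd

open Sd in
/-- **row SEED** -/
theorem seedC (hV : POV) (hW : GPW) (hO : GPO) (hG : GPG) (hR : CRV) (hB : COBJ) (hT : TYP) :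
    SEED := by
  intro O F _ _ _ _ _ _ _ ϖ S L X as β τ ι' _ _ _ K ι _ G hϖ hC hK
  intro Sf I Y0 W0 _ _ _ _ ses ig ib iJ eT htr H J _
  have hL := hC.cx.ok
  have hP : Pv S L := hV O F ϖ S L X as β τ ι' K ι G hϖ hC hK
  have gd : ∀ w : Y0 (iJ J), torsionOf (Tg O) _ w ≠ ⊤ → Gp S L ∅ 0 (torsionOf (Tg O) _ w) :=
    fun w hw => hW O F ϖ S L X as β τ ι' K ι G hϖ hC hK ∅ 0 _ hw (eT ▸ H.gm0 _ w)
  have g : Gd (GI S L) (Y0 (iJ J)) := fun w => (em _).imp_right (gd w)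
  have h : Fm (GI S L) (Φ G) (mT L.r) := by
    refine fm G hL hP ((hO O F ϖ S L X as β τ ι' K ι G hϖ hC hK).2.1 ∅ 0)
      (fun B _ Z hc R h1 h2 g => ?_) ?_
    · have k := hG O F ϖ S L X as β τ ι' K ι G hϖ hC hK 0 Fin.elim0 Fin.elim0
        (fun i => i.elim0) B Z (by rwa [Finset.univ_eq_empty, Finset.image_empty]) R h1 (by
          rintro ((i | i) | (i | i) | ⟨i | i, k | k⟩)
          exacts [h2 (.inl i), i.elim0, h2 (.inr (.inl i)), i.elim0, h2 (.inr (.inr (i, k))),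
            k.elim0, i.elim0, i.elim0]) g g
      exact ⟨k.1, k.2.1⟩
    · obtain ⟨w, hw⟩ := big_ne (H.big J)
      exact ⟨_, gd w fun e => hw (by
        rw [← one_smul (Tg O) w, ← mem_torsionOf_iff, e]; trivial)⟩
  haveI := P022D.As.base O (Sy ι)
  obtain ⟨_, c⟩ := h.mod g
  obtain ⟨E, hE, hA, hd⟩ := H.big J (PS O (Sy ι))
    (fun u s => (h.fin c s u).imp fun t ht => ht.2)
    (fun u hu w => (h.dis c w).imp fun k hk => hk _ (Ideal.pow_mem_pow hu k)) fun p => by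
      obtain ⟨u, hu⟩ := h.mu p
      obtain ⟨a, ha, r⟩ := h.res
      exact ⟨u, (r u p (hu a ha)).2, c.all hu⟩
  have key : ∀ f : PS O (Sy ι), (∀ (w : Y0 (iJ J)) (Z : PO S (Tg O ⧸ torsionOf (Tg O) _ w)),
      Z.Std (Ideal.Quotient.mk _) → Z.Cl L ∅ → Hm Z.ι (Z.val G.rc G.γ) (Φ G _) →
      Φ G (torsionOf (Tg O) _ w) f = 0) → f ∈ E := fun f hf =>
    hA ((h.mem_ann c g f).2 fun w => by
      by_cases e : torsionOf (Tg O) _ w = ⊤
      · haveI := Ideal.Quotient.subsingleton_iff.2 e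
        exact Subsingleton.elim _ _
      · obtain ⟨Z, k, hc, -⟩ := gd w e
        exact hf w Z k hc (Φ_hm G hL hP Z k))
  have z0 : ∀ {w : Y0 (iJ J)} {t : Tg O}, t • w = 0 →
      Ideal.Quotient.mk (torsionOf (Tg O) _ w) t = 0 := fun e =>
    Ideal.Quotient.eq_zero_iff_mem.2 ((mem_torsionOf_iff _ _).2 e)
  obtain ⟨b, c', n₀, A, lv⟩ := H.lev 0
  obtain ⟨τq, φ, Yb, Wc, Pc, _, _, _, _, _, _, V, -⟩ := lv 0 Fin.elim0 (fun i => i.elim0)
    fun i => i.elim0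
  obtain ⟨e, -, ei, -⟩ := V.fib (iJ J)
  have tr : ∀ t : Tg O, (∀ v : Yb (iJ J), t • v = 0) → ∀ w : Y0 (iJ J), t • w = 0 :=
    fun t ht w => by
      have h1 := ei (t • fun _ => w) (by rw [map_smul, ht])
      rw [Dq, Finset.univ_eq_empty, Finset.prod_empty, one_pow, one_smul] at h1
      exact congrFun h1 ∅
  have aP : G.aP ≤ E := fun f hf => key f fun w Z _ hc m => hf _ _ _ _ ⟨Z, hc, rfl, rfl⟩ m
  have pi : C ϖ ∈ E := key _ fun w Z k _ m => by rw [m.c, ← k.c]; exact z0 (H.pi0 _ w)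
  have fr : ∀ l ∈ J, G.fr l ∈ E := fun l hl => hE.mem_of_pow_mem c' (key _ fun w Z k _ m => by
    rw [map_pow, Gs.fr, trS, map_add, hm_a m, hm_d m, Z.gm.sum, G.hφ, ← k.t, ← map_pow]
    exact z0 (tr _ (V.new J l hl) w))
  have un : ∀ l, l ∉ J → tauP G.rc id (G.iτ l) ⊆ E := fun l hl f hf => key f fun w Z k _ m => by
    have hN : G.γ (G.iτ l) ∈ Z.N := fun g => by
      rw [G.hτ, ← k.t, ← k.t, ← sub_eq_zero, ← map_sub]
      exact z0 (tr _ (fun v => by rw [sub_smul, V.unr J l hl, sub_self]) w)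
    have a1 : Z.a (G.γ (G.iτ l)) = 1 := by
      rw [← Z.gm.a1, ← (Z.N_inv _ hN 1).1, one_mul]
    rcases hf with (rfl | rfl) | ⟨i, rfl⟩ | ⟨i, rfl⟩
    · rw [map_sub, hm_a m, a1, map_one, sub_self]
    · rw [map_sub, hm_d m, map_one, ← Z.gm.b1, ← (Z.N_inv _ hN 1).2, one_mul, sub_self]
    · have h1 := (Z.N_inv _ (Z.N_normal.conj_mem' _ hN (G.γ i)) (G.γ i)).1
      rw [← mul_assoc, ← mul_assoc, mul_inv_cancel, one_mul, Z.gm.am, a1, one_mul] at h1
      rw [hm_x m]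
      exact add_eq_left.1 h1
    · have h1 := (Z.N_inv _ hN (G.γ i)).1
      rw [Z.gm.am, a1, mul_one] at h1
      rw [hm_x m]
      exact add_eq_left.1 h1
  refine ⟨E, ⟨hE, Chain.le_of_cv hE (le_trans (by norm_num) hd) fun p hp hle => ?_, hd⟩,
    fun f hf => key f fun w Z k _ m => hf _ _ _ _ ⟨w, Z, _, k, Ideal.mk_ker, rfl, rfl⟩ m⟩
  obtain ⟨V', _, _, _, _, _, _, t, j, ρ, θ, ht, hc, rfl⟩ :=
    hR O F ϖ S L X as β τ ι' K ι G hϖ hC hK p hp (aP.trans hle) (hle pi)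
  refine sup_le (sup_le (hB O F ϖ S L X as β τ ι' K ι G hϖ hC hK V' t j ρ θ ht hc).1
    ((Ideal.span_singleton_le_iff_mem _).2 (hle pi))) (Ideal.span_le.2 ?_)
  rintro u (⟨l, hl, k⟩ | ⟨l, hl, k⟩)
  · have h1 := hT O F ϖ S L X as β τ ι' K ι G hϖ hC hK V' t j ρ θ ht hc l (hle (fr l hl))
    rcases k with rfl | rfl | rfl
    exacts [h1.1, hle (fr l hl), h1.2]
  · exact hle (un l hl k)

end Vale.Agent.P022G
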