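import Vale.Agent.P022G.Rows2
import Vale.Agent.P022G.Rw.Seed

/-! # P022G, row SEED2 -/

set_option linter.all false

namespace Vale.Agent.P022G

/-- **row SEED2** -/
theorem seed2C (hV : POV) (hW : GPW) (hO : GPO) (hG : GPG) (hR : CRV) (hB : COBJ) (hT : TYP) :
    SEED2 := by
  intro O F _ _ _ _ _ _ _ ϖ S L X as β τ ι' _ _ _ K ι _ G hϖ hC hK _
  intro Sf I Y0 W0 _ _ _ _ ses ig ib iJ eT htr H J hJ
  exact seedC hV hW hO hG hR hB hT O F ϖ S L X as β τ ι' K ι G hϖ hC hK Sf I Y0 W0 ses ig ib iJ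
    eT htr H J fun h => hJ _ hC.cx.mem

end Vale.Agent.P022G
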