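import Vale.Agent.P022G.Rows2
import Vale.Agent.P022G.Tw.Crv
import Vale.Agent.P022G.Tw.UnivH44

/-!
# P022G, row TANV2
-/

set_option linter.all false

noncomputable section

namespace Vale.Agent.P022G.H16

open NumberField IsLocalRing MvPowerSeries
open Vale.Agent.P022 Vale.Agent.P022G.R Vale.Agent.P022G.Loc
open Vale.Agent.P027M.S (Inert mx)
open Vale.Agent.P022D.Sel (M2)
open Vale.Agent.P022D.Core (PS Coef)
open Vale.Agent.P022E.Loc (Pl)
open Vale.Agent.P022E.GW (Ov Gn Op)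
open _root_.P022G.Sel (tI rd mr TanR TanS Lv Co)
open Vale.Agent.P022D.R (map_one')

section count

variable {R : Type} [CommRing R]

theorem mr_mul (ρ : GQ →* GL (Fin 2) R) (g h : GQ) : mr ρ (g * h) = mr ρ g * mr ρ h := by
  rw [mr, map_mul, Units.val_mul]

theorem mr_inv (ρ : GQ →* GL (Fin 2) R) (g : GQ) : mr ρ g⁻¹ * mr ρ g = 1 := by
  rw [← mr_mul, inv_mul_cancel, mr, map_one, Units.val_one]

theorem mr_inv' (ρ : GQ →* GL (Fin 2) R) (g : GQ) : mr ρ g * mr ρ g⁻¹ = 1 := by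
  rw [← mr_mul, mul_inv_cancel, mr, map_one, Units.val_one]

theorem mr_one (ρ : GQ →* GL (Fin 2) R) {g : GQ} (h : ρ g = 1) : mr ρ g = 1 ∧ mr ρ g⁻¹ = 1 := by
  constructor
  · rw [mr, h, Units.val_one]
  · rw [mr, map_inv, h, inv_one, Units.val_one]

theorem tan_add {ρ : GQ →* GL (Fin 2) R} {T Q : Finset ℕ} {D : ℕ → Set GQ} (hL : Lv ρ T D)
    {c : GQ → M2 R} {a : ℕ → M2 R} (h : TanR ρ T Q D c a) (m : M2 R) :
    TanR ρ T Q D (fun g => c g + (m - mr ρ g * m * mr ρ g⁻¹))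
      fun l => if l ∈ T then a l + m else 0 := by
  refine ⟨fun g k => ?_, ?_, fun l h1 h2 P hP g hg => ?_, fun l hl g hg => ?_,
    fun l hl => if_neg hl⟩
  · show c (g * k) + _ = c g + _ + mr ρ g * (c k + _) * mr ρ g⁻¹
    rw [h.coc, mul_inv_rev, mr_mul, mr_mul]
    noncomm_ring
  · obtain ⟨U, hU, hc⟩ := h.opn
    refine ⟨U ⊓ ρ.ker, hU.inter hL.opn, fun s hs => ?_⟩
    show c s + _ = 0
    rw [hc s hs.1, (mr_one ρ hs.2).1, (mr_one ρ hs.2).2]
    simp
  · show c g + _ = 0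
    have e := hL.unr l h1 P hP g hg
    rw [h.unr l h1 h2 P hP g hg, (mr_one ρ e).1, (mr_one ρ e).2]
    simp
  · show c g + _ = _
    rw [if_pos hl, h.loc l hl g hg]
    noncomm_ring

theorem cnt {ρ : GQ →* GL (Fin 2) R} {T Q : Finset ℕ} {D : ℕ → Set GQ} (hL : Lv ρ T D)
    {g0 : GQ} {l0 : ℕ} (hl0 : l0 ∈ T) (d01 : mr ρ g0 0 1 = 0) (d10 : mr ρ g0 1 0 = 0)
    (hu : IsUnit (mr ρ g0 0 0 - mr ρ g0 1 1)) {W : Type} (c : W → GQ → M2 R) (a : W → ℕ → M2 R)
    (ht : ∀ v, TanR ρ T Q D (c v) (a v))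
    (hc : ∀ v, (c v g0 * mr ρ g0) 0 1 = 0 ∧ (c v g0 * mr ρ g0) 1 0 = 0)
    (ha : ∀ v, a v l0 0 0 = 0 ∧ a v l0 1 1 = 0)
    (inj : ∀ v v', c v = c v' → a v = a v' → v = v') (hf : (TanS ρ T Q D).Finite) :
    Nat.card W * Nat.card R ^ 4 ≤ Nat.card (TanS ρ T Q D) := by
  have e4 : Nat.card (M2 R) = Nat.card R ^ 4 := by
    show Nat.card (Fin 2 → Fin 2 → R) = _
    rw [Nat.card_fun, Nat.card_fun, ← pow_mul]
    simp
  rw [← e4, ← Nat.card_prod]
  haveI : Finite (TanS ρ T Q D) := hf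
  refine Nat.card_le_card_of_injective (fun x : W × M2 R => (⟨(fun g => c x.1 g +
    (x.2 - mr ρ g * x.2 * mr ρ g⁻¹), fun l => if l ∈ T then a x.1 l + x.2 else 0),
      tan_add hL (ht x.1) x.2⟩ : TanS ρ T Q D)) ?_
  rintro ⟨v, m⟩ ⟨v', m'⟩ h
  have h1 := congrArg (fun z : TanS ρ T Q D => z.1.1) h
  have h2 := congrArg (fun z : TanS ρ T Q D => z.1.2) h
  have k1 : c v g0 * mr ρ g0 + (m * mr ρ g0 - mr ρ g0 * m) =
      c v' g0 * mr ρ g0 + (m' * mr ρ g0 - mr ρ g0 * m') := by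
    have := congrArg (· * mr ρ g0) (congrFun h1 g0)
    simpa only [add_mul, sub_mul, mul_assoc, mr_inv, mul_one] using this
  have k2 : a v l0 + m = a v' l0 + m' := by
    have := congrFun h2 l0
    simpa only [if_pos hl0] using this
  have hm : m = m' := by
    ext i k
    have a0 := congrFun (congrFun k2 0) 0
    have a1 := congrFun (congrFun k2 1) 1
    have b0 := congrFun (congrFun k1 0) 1
    have b1 := congrFun (congrFun k1 1) 0
    rw [Matrix.add_apply, Matrix.add_apply, (ha v).1, (ha v').1, zero_add, zero_add] at a0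
    rw [Matrix.add_apply, Matrix.add_apply, (ha v).2, (ha v').2, zero_add, zero_add] at a1
    rw [Matrix.add_apply, Matrix.add_apply, (hc v).1, (hc v').1, zero_add, zero_add] at b0
    rw [Matrix.add_apply, Matrix.add_apply, (hc v).2, (hc v').2, zero_add, zero_add] at b1
    simp only [Matrix.sub_apply, Matrix.mul_apply, Fin.sum_univ_two, d01, d10] at b0 b1
    fin_cases i <;> fin_cases k
    · exact a0
    · refine sub_eq_zero.1 (hu.mul_left_eq_zero.1 ?_)
      show (m 0 1 - m' 0 1) * _ = 0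
      linear_combination -b0
    · refine sub_eq_zero.1 (hu.mul_left_eq_zero.1 ?_)
      show (m 1 0 - m' 1 0) * _ = 0
      linear_combination b1
    · exact a1
  subst hm
  refine Prod.ext (inj v v' (funext fun g => add_right_cancel (congrFun h1 g))
    (funext fun l => ?_)) rfl
  by_cases hl : l ∈ T
  · have := congrFun h2 l
    simp only [if_pos hl] at this
    exact add_right_cancel this
  · rw [(ht v).zero l hl, (ht v').zero l hl]

abbrev f1 (M : M2 (DualNumber R)) : M2 R := M.map TrivSqZeroExt.fst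

abbrev f2 (M : M2 (DualNumber R)) : M2 R := M.map TrivSqZeroExt.snd

theorem f2_mul (M N : M2 (DualNumber R)) : f2 (M * N) = f1 M * f2 N + f2 M * f1 N := by
  ext i k
  simp only [Matrix.map_apply, Matrix.mul_apply, Matrix.add_apply, Fin.sum_univ_two,
    TrivSqZeroExt.snd_add, DualNumber.snd_mul]
  ring

theorem f2_one : f2 (1 : M2 (DualNumber R)) = 0 := by
  ext i k
  simp only [Matrix.map_apply, Matrix.one_apply]
  split_ifs <;> simp

theorem f12 {M N : M2 (DualNumber R)} (h1 : f1 M = f1 N) (h2 : f2 M = f2 N) : M = N := by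
  ext i k
  · exact congrFun (congrFun h1 i) k
  · exact congrFun (congrFun h2 i) k

theorem tan_of (ρ : GQ →* GL (Fin 2) R) (T Q : Finset ℕ) (D : ℕ → Set GQ)
    (σ : GQ →* M2 (DualNumber R)) (α β : ℕ → M2 (DualNumber R)) (h1 : ∀ g, f1 (σ g) = mr ρ g)
    (ho : IsOpen {g | σ g = 1})
    (hu : ∀ l : ℕ, l ∉ T → l ∉ Q → ∀ P : Ideal (𝓞 Qb), Ov l P → ∀ g, Inert P g → σ g = 1)
    (hα : ∀ l, f1 (α l) = 1) (inv : ∀ l, α l * β l = 1) (off : ∀ l ∉ T, α l = 1)
    (loc : ∀ l ∈ T, ∀ g ∈ D l, β l * σ g * α l = (mr ρ g).map TrivSqZeroExt.inl) :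
    TanR ρ T Q D (fun g => f2 (σ g) * mr ρ g⁻¹) fun l => f2 (α l) := by
  refine ⟨fun g k => ?_, ?_, fun l h1 h2 P hP g hg => ?_, fun l hl g hg => ?_, fun l hl => ?_⟩
  · show f2 (σ (g * k)) * _ = f2 (σ g) * _ + mr ρ g * (f2 (σ k) * _) * _
    rw [map_mul, f2_mul, h1, h1, mul_inv_rev, mr_mul, add_mul, add_comm, mul_assoc (f2 (σ g)),
      ← mul_assoc (mr ρ k), mr_inv', one_mul]
    simp only [mul_assoc]
  · refine ⟨σ.toHomUnits.ker, ?_, fun s hs => ?_⟩
    · have e : (σ.toHomUnits.ker : Set GQ) = {g | σ g = 1} := Set.ext fun g => Units.ext_iff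
      exact e ▸ ho
    · have e : σ s = 1 := congrArg Units.val hs
      show f2 (σ s) * _ = 0
      rw [e, f2_one, zero_mul]
  · show f2 (σ g) * _ = 0
    rw [hu l h1 h2 P hP g hg, f2_one, zero_mul]
  · have e : σ g * α l = α l * (mr ρ g).map TrivSqZeroExt.inl := by
      rw [← loc l hl g hg, ← mul_assoc, ← mul_assoc, inv, one_mul]
    have e2 := congrArg f2 e
    have e3 : f2 ((mr ρ g).map TrivSqZeroExt.inl : M2 (DualNumber R)) = 0 := by
      ext i k
      rfl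
    have e4 : f1 ((mr ρ g).map TrivSqZeroExt.inl : M2 (DualNumber R)) = mr ρ g := by
      ext i k
      rfl
    rw [f2_mul, f2_mul, h1, hα, e3, e4, mul_one, mul_zero, zero_add] at e2
    show f2 (σ g) * _ = f2 (α l) - mr ρ g * f2 (α l) * _
    rw [eq_sub_of_add_eq' e2, sub_mul, mul_assoc (f2 (α l)), mr_inv', mul_one]
  · show f2 (α l) = 0
    rw [off l hl, f2_one]

/-- the point over the dual numbers which belongs to a vector -/
def psi {O σ σ' : Type} [CommRing O] [Fintype σ'] (e : σ' → σ) (θ : PS O σ →+* R) (v : σ' → R) :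
    PS O σ →+* DualNumber R where
  toFun f := TrivSqZeroExt.inl (θ f) + TrivSqZeroExt.inr (∑ z, θ (pderiv O (e z) f) * v z)
  map_one' := by simp
  map_zero' := by simp
  map_add' f g := by
    ext
    · simp
    · simp [add_mul, Finset.sum_add_distrib]
  map_mul' f g := by
    ext
    · simp
    · simp only [TrivSqZeroExt.snd_add, TrivSqZeroExt.snd_inl, TrivSqZeroExt.snd_inr, zero_add,
        DualNumber.snd_mul, TrivSqZeroExt.fst_add, TrivSqZeroExt.fst_inl, TrivSqZeroExt.fst_inr,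
        add_zero, Derivation.leibniz, smul_eq_mul, map_add, map_mul, Finset.mul_sum,
        Finset.sum_mul, ← Finset.sum_add_distrib]
      exact Finset.sum_congr rfl fun z _ => by ring

theorem psi_fst {O σ σ' : Type} [CommRing O] [Fintype σ'] (e : σ' → σ) (θ : PS O σ →+* R)
    (v : σ' → R) (f : PS O σ) : (psi e θ v f).fst = θ f := by
  show (TrivSqZeroExt.inl (θ f) + TrivSqZeroExt.inr _ : DualNumber R).fst = _
  simp

theorem psi_snd {O σ σ' : Type} [CommRing O] [Fintype σ'] (e : σ' → σ) (θ : PS O σ →+* R)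
    (v : σ' → R) (f : PS O σ) : (psi e θ v f).snd = ∑ z, θ (pderiv O (e z) f) * v z := by
  show (TrivSqZeroExt.inl (θ f) + TrivSqZeroExt.inr _ : DualNumber R).snd = _
  simp

/-- the dual numbers whose constant part lies in `A` -/
def Bd {A : Type} [CommRing A] (u : A →+* R) : Subring (A × DualNumber R) :=
  RingHom.eqLocus (u.comp (RingHom.fst _ _))
    ((TrivSqZeroExt.fstHom R R R).toRingHom.comp (RingHom.snd _ _))

theorem Bd_unit {A : Type} [CommRing A] (u : A →+* R) (b : Bd u) (h : IsUnit b.1.1) :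
    IsUnit b := by
  obtain ⟨a, ha⟩ := h.exists_right_inv
  have e : u b.1.1 = b.1.2.fst := b.2
  have e1 : b.1.2.fst * u a = 1 := by rw [← e, ← map_mul, ha, map_one]
  refine IsUnit.of_mul_eq_one (⟨(a, TrivSqZeroExt.inl (u a) +
    TrivSqZeroExt.inr (-(u a * u a * b.1.2.snd))), ?_⟩ : Bd u) (Subtype.ext (Prod.ext ha ?_))
  · show u a = (TrivSqZeroExt.inl (u a) + TrivSqZeroExt.inr _ : DualNumber R).fst
    simp
  · show b.1.2 * (TrivSqZeroExt.inl (u a) + TrivSqZeroExt.inr _) = 1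
    ext
    · simpa using e1
    · simp only [DualNumber.snd_mul, TrivSqZeroExt.snd_add, TrivSqZeroExt.snd_inl,
        TrivSqZeroExt.snd_inr, zero_add, TrivSqZeroExt.fst_add, TrivSqZeroExt.fst_inl,
        TrivSqZeroExt.fst_inr, add_zero, TrivSqZeroExt.snd_one]
      linear_combination (-(u a * b.1.2.snd)) * e1

end count

variable {O F : Type} [CommRing O] [Field F] {S : Dat O F}

theorem ext_gen [CharP F 2] {A : Type} [CommRing A] {Q : Finset ℕ} {κ : Type} {γ : κ → GQ}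
    (hg : Gen S Q γ) (Y Y' : Obj S A) (hY : Unr Y Q) (hY' : Unr Y' Q)
    (h : ∀ i, Y.ρ (γ i) = Y'.ρ (γ i)) (g : GQ) : Y.ρ g = Y'.ρ g := by
  haveI := Y.fin
  have h1 : (Y.ρ.toHomUnits.prod Y'.ρ.toHomUnits) g ∈
      MonoidHom.eqLocus (MonoidHom.fst (M2 A)ˣ (M2 A)ˣ) (MonoidHom.snd _ _) := by
    refine (Subgroup.closure_le _).2 ?_ (hg _ (Y.ρ.toHomUnits.prod Y'.ρ.toHomUnits) ?_ ?_ ?_ g)
    · rintro _ ⟨i, rfl⟩
      exact Units.ext (h i)
    · have e : {g : GQ | (Y.ρ.toHomUnits.prod Y'.ρ.toHomUnits) g = 1} =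
          {g | Y.ρ g = 1} ∩ {g | Y'.ρ g = 1} := Set.ext fun g =>
        Prod.ext_iff.trans (and_congr Units.ext_iff Units.ext_iff)
      exact e ▸ Y.opn.inter Y'.opn
    · intro g e
      obtain ⟨n, hn⟩ := Tw.H44.two_obj Y e
      obtain ⟨n', hn'⟩ := Tw.H44.two_obj Y' e
      exact ⟨n + n', Prod.ext (Units.ext ((Units.val_pow_eq_pow_val _ _).trans (hn _ (by omega))))
        (Units.ext ((Units.val_pow_eq_pow_val _ _).trans (hn' _ (by omega))))⟩
    · intro l a b c P d e s f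
      exact Prod.ext (Units.ext (hY l a b c P d e s f)) (Units.ext (hY' l a b c P d e s f))
  exact congrArg Units.val h1

theorem tanv2C (hR : REPO) : TANV2 := by
  classical
  intro O F _ _ _ _ _ _ _ ϖ S L X as β τ ι' _ _ _ K ι _ G hϖ hC hK hE V _ _ _ _ _ _ t j ρ θ ht hc
    r q τ' hq θ0 h0 N hf
  have hL := hC.cx.ok
  have hj : ∀ c, S.red c = 0 → j c = 0 := fun c h => Tw.j_zero j ((hL.ker c).1 h)
  rcases N with _ | N
  · haveI : Subsingleton (V ⧸ tI t 0) := Ideal.Quotient.subsingleton_iff.2 (by simp [tI])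
    refine cnt (hc.lv 0) (g0 := S.g0) S.hl0 (Subsingleton.elim _ _) (Subsingleton.elim _ _)
      (isUnit_of_subsingleton _) (fun _ => 0) (fun _ => 0) (fun _ => ?_)
      (fun _ => ⟨Subsingleton.elim _ _, Subsingleton.elim _ _⟩)
      (fun _ => ⟨rfl, rfl⟩) (fun _ _ _ _ => Subsingleton.elim _ _) hf
    exact ⟨fun _ _ => Subsingleton.elim _ _, ⟨⊤, isOpen_univ, fun _ _ => rfl⟩,
      fun _ _ _ _ _ _ _ => rfl, fun _ _ _ _ => Subsingleton.elim _ _, fun _ _ => rfl⟩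
  haveI := Tw.fin_tI ht (N + 1)
  obtain ⟨A, _, u, ι0, π, H⟩ := Tw.ex_sb t j N S.red hL.ker ht.not_isUnit (Tw.fin_tI ht _)
  obtain ⟨Y, rfl, rfl, hα, hβ, hρ, hY⟩ := Tw.crv_obj hL hj hc H
  have hY' : Ty (ClG L S) (Finset.univ.image q) A Y := ⟨hY.1, hY.2.mono (Finset.empty_subset _)⟩
  have e : u.comp Y.ι = (Ideal.Quotient.mk _).comp j := RingHom.ext H.cst
  have hτ : ∀ i, ρ (τ' i) = 1 := fun i => by
    obtain ⟨h1, P, h2, h3⟩ := hq i
    exact Tw.crv_unr ht.not_isUnit hc h1 h2 h3.1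
  have hτ' : ∀ i, mx S.rb (τ' i) = 1 := fun i => by
    obtain ⟨h1, P, h2, h3⟩ := hq i
    rw [← Y.res, hY.2 _ h2.1 h1 (Finset.notMem_empty _) P h2.2.1 h2.2.2 _ h3.1, map_one']
  obtain ⟨ψ, h1, h2⟩ := H.cor hj (v0 K G r Y.ι Y.ρ Y.α Y.β τ')
    (Tw.v0_res K G r hL.lift Y (hK.loc.res A Y hY.1) τ' hτ') θ0 h0.c fun s => by
      rw [h0.x, Tw.v0_congr K G r j (fun g => (ρ g : M2 V)) _ _ (τ'' := τ')
        (fun i => by rw [hτ, map_one]), Tw.v0_map, Tw.v0_map, e]
      simp only [hρ, hα, hβ, map_one']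
  let θ1 : S0 O τ L ι S.T r →+* V ⧸ tI t (N + 1) := (Ideal.Quotient.mk _).comp θ0
  have h3 : ∀ f, u (ψ f) = θ1 f := h2
  haveI := Y.fin
  haveI : Finite (DualNumber (V ⧸ tI t (N + 1))) :=
    inferInstanceAs (Finite ((V ⧸ tI t (N + 1)) × (V ⧸ tI t (N + 1))))
  let p : Bd u →+* A := (RingHom.fst _ _).comp (Bd u).subtype
  let w : Bd u →+* DualNumber (V ⧸ tI t (N + 1)) := (RingHom.snd _ _).comp (Bd u).subtype
  have pw : ∀ b, u (p b) = (w b).fst := fun b => b.2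
  let s : A →+* Bd u := ((RingHom.id A).prod ((algebraMap _ _).comp u)).codRestrict (Bd u)
    fun a => rfl
  have ws : ∀ a, w (s a) = TrivSqZeroExt.inl (u a) := fun a => rfl
  have bl : ∀ b : Bd u, (Y.π.comp p) b ≠ 0 → IsUnit b := fun b hb => Bd_unit u b (Y.loc _ hb)
  let Ψ : (Rs (ι ⊕ Fin r) S.T → V ⧸ tI t (N + 1)) → (S0 O τ L ι S.T r →+* Bd u) := fun v =>
    (ψ.prod (psi Sum.inr θ1 v)).codRestrict (Bd u) fun f =>
      (h3 f).trans (psi_fst Sum.inr θ1 v f).symm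
  have pΨ : ∀ v f, p (Ψ v f) = ψ f := fun v f => rfl
  have wΨ : ∀ v f, w (Ψ v f) = psi Sum.inr θ1 v f := fun v f => rfl
  have sΨ : ∀ v f, (∀ z, pderiv O (Sum.inr z) f = 0) → Ψ v f = s (ψ f) := fun v f h => by
    refine Subtype.ext (Prod.ext rfl ?_)
    show psi Sum.inr θ1 v f = TrivSqZeroExt.inl (u (ψ f))
    ext
    · rw [psi_fst, h3]
      rfl
    · rw [psi_snd]
      simp only [h, map_zero, zero_mul, Finset.sum_const_zero]
      rfl
  let Y0 : Obj S (Bd u) := Tw.H44.omap Y s (Y.π.comp p) inferInstance bl fun a => rfl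
  have k0 : Hom Y Y0 s := Tw.H44.hom_map _ _ _ _ _ _
  have key : ∀ v : {v : Rs (ι ⊕ Fin r) S.T → V ⧸ tI t (N + 1) //
      ∀ f : Kn K G r q τ', ∑ z, Ideal.Quotient.mk (tI t (N + 1))
        (θ0 (pderiv O (Sum.inr z) f.1)) * v z = 0},
      ∃ Z : Obj S (Bd u), Z.π = Y.π.comp p ∧ Ty (ClG L S) (Finset.univ.image q) _ Z ∧
        Hm Z.ι (v0 K G r Z.ι Z.ρ Z.α Z.β τ') (Ψ v.1) := fun v => by
    refine hR O F ϖ S L X as β τ ι' K ι G hϖ hC hK r q τ' hq (Bd u) (Y.π.comp p) (Ψ v.1) bl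
      (fun f => Tw.H44.res_eq hL.ker (Y.π.comp ψ)
        (fun c => (congrArg Y.π (h1.c c)).trans (Y.alg c)) f) fun f hf => ?_
    have e0 : ψ f = 0 := hf A _ _ ψ ⟨Y, hY', rfl, rfl⟩ h1
    refine Subtype.ext (Prod.ext e0 ?_)
    show psi Sum.inr θ1 v.1 f = 0
    ext
    · rw [psi_fst, ← h3, e0, map_zero]
      rfl
    · rw [psi_snd]
      exact v.2 ⟨f, hf⟩
  choose Z z1 z2 z3 using key
  have zι : ∀ v, (Z v).ι = Y0.ι := fun v => RingHom.ext fun o => by
    rw [← (z3 v).c, sΨ _ _ fun z => pderiv_C, h1.c]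
    rfl
  have zρ : ∀ v g, ((Z v).ρ g).map p = Y.ρ g := fun v g => by
    let Z' : Obj S A := Tw.H44.omap (Z v) p Y.π Y.fin Y.loc fun a => by rw [z1]; rfl
    refine ext_gen (G.gen r q τ' hq) Z' Y (fun l a b c P d e s f => ?_) hY'.2 (fun i => ?_) g
    · show ((Z v).ρ s).map p = 1
      rw [(z2 v).2 l a b c P d e s f, map_one']
    · show ((Z v).ρ _).map p = _
      rw [← Tw.H44.hm_ZS K G r (z3 v), ← Tw.H44.hm_ZS K G r h1]
      rfl
  have zα : ∀ v l, ((Z v).α l).map p = 1 := fun v l => by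
    by_cases hl : l ∈ S.T
    · rw [← Tw.H44.hm_αS K G r (z3 v) hl, ← hα l, ← Tw.H44.hm_αS K G r h1 hl]
      rfl
    · rw [(Z v).off l hl, map_one']
  have f1w : ∀ M : M2 (Bd u), f1 (M.map w) = (M.map p).map u := fun M =>
    Matrix.ext fun a b => (pw _).symm
  have hρ' : ∀ g, (Y.ρ g).map u = mr (rd (tI t (N + 1)) ρ) g := hρ
  have f1ρ : ∀ v g, f1 (((Z v).ρ g).map w) = mr (rd (tI t (N + 1)) ρ) g := fun v g => by
    rw [f1w, zρ, hρ']
  have f1α : ∀ v l, f1 (((Z v).α l).map w) = 1 := fun v l => by rw [f1w, zα, map_one']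
  have inv : ∀ v l, ((Z v).α l).map w * ((Z v).β l).map w = 1 := fun v l => by
    rw [← Matrix.map_mul, (Z v).inv, map_one']
  have d0 : ∀ a b, mr (rd (tI t (N + 1)) ρ) S.g0 a b = u (Y.ρ S.g0 a b) := fun a b =>
    (congrFun (congrFun (hρ' S.g0) a) b).symm
  refine cnt (hc.lv (N + 1)) (g0 := S.g0) S.hl0 (by rw [d0, Y.dg.1, map_zero])
    (by rw [d0, Y.dg.2, map_zero]) ?_
    (fun v g => f2 (((Z v).ρ g).map w) * mr (rd (tI t (N + 1)) ρ) g⁻¹)
    (fun v l => f2 (((Z v).α l).map w)) (fun v => ?_) (fun v => ?_) (fun v => ?_)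
    (fun v v' hc ha => ?_) hf
  · rw [d0, d0, ← map_sub]
    refine (Y.loc _ ?_).map u
    rw [map_sub, sub_ne_zero]
    have a0 := congrFun (congrFun (Y.res S.g0) 0) 0
    have a1 := congrFun (congrFun (Y.res S.g0) 1) 1
    exact fun e => S.dne (a0.symm.trans (e.trans a1))
  · refine tan_of _ _ _ _ (w.mapMatrix.toMonoidHom.comp (Z v).ρ) (fun l => ((Z v).α l).map w)
      (fun l => ((Z v).β l).map w) (f1ρ v) ?_ (fun l a b P d g f => ?_) (f1α v) (inv v)
      (fun l hl => ?_) fun l hl g hg => ?_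
    · refine P022D.R.opn_of_le _ _ (Z v).opn fun g hg => ?_
      show ((Z v).ρ g).map w = 1
      rw [hg, map_one']
    · show ((Z v).ρ g).map w = 1
      rw [(z2 v).2 l d.1 a b P d.2.1 d.2.2 g f, map_one']
    · show ((Z v).α l).map w = 1
      rw [(Z v).off l hl, map_one']
    · have e1 := hE.det _ (Z v) Y0 (zι v) (z1 v) (z2 v).1 (hK.clo.push _ _ Y Y0 s k0 hY.1)
        (funext fun i => by
          rw [← hK.loc.nat _ _ Y Y0 s k0 hY.1 i]
          refine ((z3 v).x (Sum.inl i)).symm.trans ?_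
          rw [sΨ _ _ fun z => pderiv_X_of_ne Sum.inl_ne_inr, h1.x]
          rfl) l hl g hg
      have e2 : lr Y0 l g = (Y.ρ g).map s := by
        rw [lr_apply, ← k0.α, ← Tw.H44.homβ k0, hα, hβ, map_one', one_mul, mul_one, k0.ρ]
      show ((Z v).β l).map w * ((Z v).ρ g).map w * ((Z v).α l).map w = _
      rw [← Matrix.map_mul, ← Matrix.map_mul, ← lr_apply, e1, e2, ← hρ']
      rfl
  · show (f2 _ * _ * _ : M2 _) 0 1 = 0 ∧ (f2 _ * _ * _ : M2 _) 1 0 = 0
    rw [mul_assoc, mr_inv, mul_one]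
    constructor
    · show (w ((Z v).ρ S.g0 0 1)).snd = 0
      rw [(Z v).dg.1, map_zero]
      rfl
    · show (w ((Z v).ρ S.g0 1 0)).snd = 0
      rw [(Z v).dg.2, map_zero]
      rfl
  · constructor
    · show (w ((Z v).α S.l0 0 0)).snd = 0
      rw [(Z v).fr.1, map_one]
      rfl
    · show (w ((Z v).α S.l0 1 1)).snd = 0
      rw [(Z v).fr.2, map_one]
      rfl
  · have e1 : (fun g => ((Z v).ρ g).map w) = fun g => ((Z v').ρ g).map w := funext fun g => by
      refine f12 (by rw [f1ρ, f1ρ]) ?_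
      have := congrArg (· * mr (rd (tI t (N + 1)) ρ) g) (congrFun hc g)
      simpa only [mul_assoc, mr_inv, mul_one] using this
    have e2 : (fun l => ((Z v).α l).map w) = fun l => ((Z v').α l).map w := funext fun l =>
      f12 (by rw [f1α, f1α]) (congrFun ha l)
    have e3 : (fun l => ((Z v).β l).map w) = fun l => ((Z v').β l).map w := funext fun l => by
      have k := inv v' l
      rw [← congrFun e2 l] at k
      rw [← mul_one (((Z v).β l).map w), ← k, ← mul_assoc, mul_eq_one_comm.1 (inv v l), one_mul]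
    have e4 : ∀ v z, (w (Ψ v (MvPowerSeries.X (Sum.inr z)))).snd = v z := fun v z => by
      rw [wΨ, psi_snd, Finset.sum_eq_single z, pderiv_X_self, map_one, one_mul]
      · intro b _ hb
        rw [pderiv_X_of_ne fun h => hb (Sum.inr_injective h).symm, map_zero, zero_mul]
      · exact fun h => (h (Finset.mem_univ _)).elim
    refine Subtype.ext (funext fun z => ?_)
    rw [← e4 v.1, ← e4 v'.1, (z3 v).x, (z3 v').x, Tw.v0_map, Tw.v0_map, e1, e2, e3, zι, zι]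

end Vale.Agent.P022G.H16
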