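import Vale.Agent.P022G.Rw.OutgH94

/-! # P022G, row TRA: the annihilators of controlled modules -/

set_option linter.all false

open IsLocalRing Filter MvPowerSeries NumberField

noncomputable section

namespace Vale.Agent.P022G.H94

open Vale.Agent.P022 Vale.Agent.P022G.R Vale.Agent.P022G.Loc Vale.Agent.P022G.Mod
open Vale.Agent.P022E.As (Tg cc tt dd yy Gw mT ev0 pk)
open Ideal (torsionOf mem_torsionOf_iff)

theorem traC (h1 : POV) (h2 : GPW) (h3 : GPO) : TRA := by
  classical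
  intro O F _ _ _ _ _ _ _ ϖ S L X as β τ ι' _ _ _ K ι _ G hϖ hC hK Y Y' _ _ _ _ hY hY' hT f hf
  have H : Fc ϖ S L := fc_of h1 h2 h3 O F ϖ S L X as β τ ι' K ι G hϖ hC hK
  have gd : Gd (GP S L ∅ 0) Y := H.gd hY
  have gd' : Gd (GP S L ∅ 0) Y' :=
    H.gd fun w => gw_sub hC.cx (fun l _ => Finset.notMem_empty l) (hY' w)
  have fm := H.fm0 G
  let a : Finset Y' → Ideal (Tg O) := fun s => s.inf fun v => torsionOf (Tg O) Y' v
  have ha : ∀ s, a s ∈ GP S L ∅ 0 := fun s => by
    induction s using Finset.induction_on with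
    | empty => exact Or.inl rfl
    | insert v s _ ih =>
      have : a (insert v s) = torsionOf (Tg O) Y' v ⊓ a s := Finset.inf_insert
      rw [this]
      exact H.inf' _ (gd' v) _ ih
  refine (H.mem_An G gd f).2 fun w => ?_
  obtain ⟨s, hs⟩ := hT w
  have le : a s ≤ torsionOf (Tg O) Y w := fun p hp => (mem_torsionOf_iff _ _).2
    (hs p fun v hv => (mem_torsionOf_iff _ _).1 ((Finset.inf_le hv : a s ≤ _) hp))
  obtain ⟨t, ht⟩ := Ideal.Quotient.mk_surjective (Ph (vA G) (a s) f)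
  rw [fm.fac _ (ha s) _ (gd w) le f t ht.symm, Ideal.Quotient.eq_zero_iff_mem]
  refine (mem_torsionOf_iff _ _).2 (hs t fun v hv => (mem_torsionOf_iff _ _).1 ?_)
  rw [← Ideal.Quotient.eq_zero_iff_mem,
    ← fm.fac _ (ha s) _ (gd' v) (Finset.inf_le hv) f t ht.symm]
  exact (H.mem_An G gd' f).1 hf v

end Vale.Agent.P022G.H94
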