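import Vale.Agent.P022G.Rows
import Vale.Agent.P022D.Loc.BC

/-!
# P022G, row TYP: the tame relation on a curve
-/

set_option linter.all false

noncomputable section

namespace Vale.Agent.P022G

open NumberField IsLocalRing MvPowerSeries
open Vale.Agent.P022 Vale.Agent.P022G.R Vale.Agent.P022G.Loc
open Vale.Agent.P027M.S (mx)
open Vale.Agent.P022D.Sel (M2)
open Vale.Agent.P022D.Core (PS Coef)
open _root_.P022G.Sel (tI rd)

namespace Typ

variable {V : Type} [CommRing V]

theorem tr_sq (h2 : (2 : V) = 0) (M : M2 V) : (M * M).trace = M.trace ^ 2 := by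
  simp only [Matrix.trace_fin_two, Matrix.mul_apply, Fin.sum_univ_two]
  linear_combination (M 0 1 * M 1 0 - M 0 0 * M 1 1) * h2

theorem tr_pow (h2 : (2 : V) = 0) (M : M2 V) (a : ℕ) : (M ^ 2 ^ a).trace = M.trace ^ 2 ^ a := by
  induction a with
  | zero => simp
  | succ a ih => rw [pow_succ, pow_mul, pow_mul, pow_two, tr_sq h2, ih]

theorem ch (M : M2 V) : M * M = M.trace • M - M.det • (1 : M2 V) := by
  ext i j
  fin_cases i <;> fin_cases j <;>
    simp [Matrix.trace_fin_two, Matrix.det_fin_two, Matrix.mul_apply, Fin.sum_univ_two] <;> ring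

theorem lin (M : M2 V) (n : ℕ) : ∃ a b : V, M ^ n = a • M + b • (1 : M2 V) := by
  induction n with
  | zero => exact ⟨0, 1, by simp⟩
  | succ n ih =>
    obtain ⟨a, b, e⟩ := ih
    refine ⟨a * M.trace + b, -(a * M.det), ?_⟩
    rw [pow_succ, e, add_mul, smul_mul_assoc, smul_mul_assoc, ch, one_mul]
    module

/-- a matrix which is conjugate to an odd power -/
theorem tr0 [IsDomain V] {k : Type} [Field k] [CharP k 2] (h2 : (2 : V) = 0) (π : V →+* k)
    (loc : ∀ a, π a ≠ 0 → IsUnit a) {T Φ : M2 V} {l : ℕ} (hl : 2 ≤ l) (hT : T.det = 1)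
    (hΦ : Φ.det = 1) (ht : π T.trace = 0) (e : Φ * T = T ^ l * Φ) : T.trace = 0 := by
  by_contra c
  have hu : IsUnit Φ := (Matrix.isUnit_iff_isUnit_det _).2 (hΦ ▸ isUnit_one)
  have hv : IsUnit T := (Matrix.isUnit_iff_isUnit_det _).2 (hT ▸ isUnit_one)
  have e1 : (T ^ l).trace = T.trace := by
    obtain ⟨u, rfl⟩ := hu
    rw [show T ^ l = (u : M2 V) * T * (↑u⁻¹ : M2 V) by rw [e, Units.mul_inv_cancel_right],
      Matrix.trace_units_conj]
  obtain ⟨a, b, e2⟩ := lin T l
  have e3 : (T ^ l).det = 1 := by rw [Matrix.det_pow, hT, one_pow]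
  rw [e2, Matrix.trace_add, Matrix.trace_smul, Matrix.trace_smul, Matrix.trace_one] at e1
  have a1 : a = 1 := mul_right_cancel₀ c (by
    simp only [smul_eq_mul, Fintype.card_fin, Nat.cast_ofNat] at e1
    linear_combination e1 - b * h2)
  rw [a1, one_smul] at e2
  have e4 : b * (b + T.trace) = 0 := by
    rw [e2] at e3
    simp [Matrix.det_fin_two] at e3
    rw [Matrix.det_fin_two] at hT
    rw [Matrix.trace_fin_two]
    linear_combination e3 - hT
  obtain ⟨n, n0, hn⟩ : ∃ n : ℕ, n ≠ 0 ∧ T ^ n = 1 := by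
    rcases mul_eq_zero.1 e4 with b0 | b0
    · refine ⟨l - 1, by omega, hv.mul_right_cancel ?_⟩
      rw [← pow_succ, show l - 1 + 1 = l by omega, e2, b0, zero_smul, add_zero, one_mul]
    · refine ⟨l + 1, by omega, ?_⟩
      rw [pow_succ, e2, add_mul, ch, hT, smul_mul_assoc, one_mul, eq_neg_of_add_eq_zero_left b0]
      have : (-1 : V) = 1 := by linear_combination -h2
      calc _ = (-1 : V) • (1 : M2 V) := by module
        _ = 1 := by rw [this, one_smul]
  obtain ⟨s, m, hm, rfl⟩ := Nat.exists_eq_two_pow_mul_odd n0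
  have e5 : T ^ 2 ^ s = 1 := by
    refine P022D.Loc.BCA.odd_one π loc hm (by rw [← pow_mul, hn]) (P022D.Loc.BCA.sq_one ?_ ?_)
    · rw [← AddMonoidHom.map_trace π, tr_pow h2, map_pow, ht, zero_pow (by positivity)]
    · rw [← RingHom.mapMatrix_apply, ← RingHom.map_det, Matrix.det_pow, hT, one_pow, map_one]
  have := tr_pow h2 T s
  rw [e5, Matrix.trace_one, Fintype.card_fin, Nat.cast_ofNat, h2] at this
  exact c (pow_eq_zero_iff (by positivity) |>.1 this.symm)

theorem tr1 [IsDomain V] (h2 : (2 : V) = 0) {T Φ : M2 V} {l : ℕ} (hl : Odd l) (hT : T.det = 1)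
    (t0 : T.trace = 0) (p0 : Φ.trace = 0) (e : Φ * T = T ^ l * Φ) : (T * Φ).trace = 0 := by
  have e1 : T * T = 1 := by
    have : (-1 : V) = 1 := by linear_combination -h2
    rw [ch, t0, hT, zero_smul, zero_sub, ← neg_smul, this, one_smul]
  obtain ⟨k, rfl⟩ := hl
  rw [pow_succ, pow_mul, pow_two, e1, one_pow, one_mul] at e
  have := tr_sq h2 (T * Φ)
  rw [mul_assoc, ← mul_assoc Φ, e, ← mul_assoc, ← mul_assoc, e1, one_mul, tr_sq h2, p0] at this
  exact pow_eq_zero_iff two_ne_zero |>.1 (this.symm.trans (zero_pow two_ne_zero))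

/-- the maximal ideal dies in characteristic two -/
theorem j0 {O : Type} [CommRing O] [IsDomain O] [IsDiscreteValuationRing O] [Coef O] [IsDomain V]
    (h2 : (2 : V) = 0) (j : O →+* V) {c : O} (hc : c ∈ maximalIdeal O) : j c = 0 := by
  have : (RingHom.ker j).IsMaximal := (RingHom.ker_isPrime j).isMaximal fun e =>
    Coef.ne (O := O) (by
      rw [← Ideal.mem_bot, ← e, RingHom.mem_ker, map_ofNat, h2])
  rwa [← eq_maximalIdeal this] at hc

end Typ

open Typ

/-- **row TYP** -/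
theorem typC : TYP := by
  intro O F _ _ _ _ _ _ _ ϖ S L X as β τ ι' _ _ _ K ι _ G hϖ hC hK V _ _ _ _ _ t j ρ θ ht h l hl
  have ok := hC.cx.ok
  have h2 : (2 : V) = 0 := CharTwo.two_eq_zero
  have mx0 : maximalIdeal V = Ideal.span {t} := ht.maximalIdeal_eq
  haveI : CharP (ResidueField V) 2 := CharP.of_ringHom_of_ne_zero (residue V) 2 two_ne_zero
  have lW : (l : ℕ) ∈ L.W ∪ L.C := Finset.mem_union_right _ l.2
  have loc : ∀ a, residue V a ≠ 0 → IsUnit a := fun a => (residue_ne_zero_iff_isUnit a).1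
  have r0 : ∀ g ∈ P022D.W.dec (L.P l), residue V (ρ g : M2 V).trace = 0 := fun g hg => by
    have a1 : j (L.r g).trace = 0 := j0 h2 j ((ok.ker _).1 (by
      rw [AddMonoidHom.map_trace S.red, ok.lift, ok.uni l l.2 g hg]))
    rw [residue_eq_zero_iff, mx0, Ideal.mem_span_singleton]
    rw [Matrix.trace_fin_two, map_add] at a1
    convert dvd_add (h.res g 0 0) (h.res g 1 1) using 1
    rw [Matrix.trace_fin_two]
    linear_combination a1
  have rel : (ρ (L.φ l) : M2 V) * ρ (L.τ l) = (ρ (L.τ l) : M2 V) ^ (l : ℕ) * ρ (L.φ l) := by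
    ext a b
    rw [← sub_eq_zero, ← Ideal.mem_bot, ← Ideal.iInf_pow_eq_bot_of_isDomain (maximalIdeal V)
      (maximalIdeal.isMaximal V).ne_top, Ideal.mem_iInf]
    intro N
    refine Ideal.pow_le_pow_right N.le_succ ?_
    rw [mx0, Ideal.span_singleton_pow, ← Ideal.Quotient.eq]
    let π : V ⧸ tI t (N + 1) →+* ResidueField V := Ideal.Quotient.lift _ (residue V) fun x hx => by
      rw [residue_eq_zero_iff, mx0, Ideal.mem_span_singleton]
      exact (dvd_pow_self t N.succ_ne_zero).trans (Ideal.mem_span_singleton.1 hx)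
    let f : GQ →* M2 (V ⧸ tI t (N + 1)) := (Units.coeHom _).comp (rd (tI t (N + 1)) ρ)
    have ef : ∀ g, f g = (Ideal.Quotient.mk (tI t (N + 1))).mapMatrix (ρ g : M2 V) := fun _ => rfl
    obtain ⟨N', hN⟩ := (ok.tm l lW).tame _ f (by
      convert (h.lv (N + 1)).opn using 3 with g
      exact Units.val_eq_one)
    have := P022D.Loc.BCA.rel π (fun x hx => by
      obtain ⟨y, rfl⟩ := Ideal.Quotient.mk_surjective x
      exact (loc y hx).map _) hN fun g hg => by
        have e : (f g).map π = (residue V).mapMatrix (ρ g : M2 V) := rfl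
        rw [e]
        exact P022D.Loc.BCA.sq_one
          ((AddMonoidHom.map_trace (residue V) _).symm.trans (r0 g hg))
          (by rw [← RingHom.map_det, h.det, map_one])
    rw [ef, ef, ← map_mul, ← map_pow, ← map_mul] at this
    exact congrFun (congrFun this a) b
  have ea : ∀ i, θ (aS G.rc id i) = (ρ (G.γ i) : M2 V) 0 0 := fun i => by
    simp [aS, h.hm.c, h.hm.x, sv, gv]
  have ed : ∀ i, θ (dS G.rc id i) = (ρ (G.γ i) : M2 V) 1 1 := fun i => by
    simp [dS, h.hm.c, h.hm.x, sv, gv]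
  have ex : ∀ i k, θ (xS G.rc id i k) = (ρ (G.γ i) : M2 V) 0 1 * (ρ (G.γ k) : M2 V) 1 0 :=
    fun i k => by
      rw [xS, map_add, h.hm.c, h.hm.x]
      simp [sv, gv]
  have p := ok.pr l lW
  have t0 := tr0 h2 (residue V) loc p.1.two_le (h.det _) (h.det _)
    (r0 _ (P022D.W.inP_le_dec (ok.tm l lW).tau)) rel
  rw [Gs.fr, trS, map_add, ea, ed, G.hφ, ← Matrix.trace_fin_two] at hl
  have t1 := tr1 h2 (p.1.odd_of_ne_two p.2) (h.det _) t0 hl rel
  refine ⟨by rwa [trS, map_add, ea, ed, G.hτ, ← Matrix.trace_fin_two], ?_⟩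
  simp only [tr2, map_add, map_mul, ea, ed, ex, G.hτ, G.hφ]
  simp only [Matrix.trace_fin_two, Matrix.mul_apply, Fin.sum_univ_two] at t1
  linear_combination t1

end Vale.Agent.P022G
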