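import Vale.Agent.P022G.Rw.Patch0
import Vale.Agent.P022G.Rows2

/-!
# P022G: the rows `PATCH2`, `LOWER2`, `FINAL2` from the packages at a curve
-/

set_option linter.all false

noncomputable section

namespace Vale.Agent.P022G

open IsLocalRing MvPowerSeries
open Vale.Agent.P022 Vale.Agent.P022G.R Vale.Agent.P022G.Loc Vale.Agent.P022G.Pt
open Vale.Agent.P027M.S (mx)
open Vale.Agent.P022D.Core (PS io y1 Coef)
open Vale.Agent.P022E.Loc (Pl)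
open Vale.Agent.P022E.As (Tg)
open Vale.Agent.P022G.Chain (Pd)
open Vale.Agent.P022G.Ps (HD3)

/-- the patched modules at a curve, without the auxiliary primes -/
def Pc.Mf {O F : Type} [CommRing O] [Field F] {S : Dat O F} {L : Pl O} {β : Type}
    {τ ι' : β → Type} {K : Kx O β τ ι' L.C} {ι : Type} {r s : ℕ} {V : Type} [CommRing V]
    (Y : Pc (S := S) (ι := ι) K r s V) (ϖ : O) (X : Finset ℕ) {I : Type} (Y0 : I → Type)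
    (W0 : Type) [∀ i, AddCommGroup (Y0 i)] [∀ i, Module (Tg O) (Y0 i)] [AddCommGroup W0]
    [Module (Tg O) W0] (iJ : Finset (subL L X).C → I) [P022D.PA.Base (PP O ι r)] : Prop :=
  letI : Algebra (S0 O τ L ι S.T r) (S1 O τ L ι S.T r) := (io O _ r).toAlgebra
  ∃ (I' : Type) (ses : I' → I' → I' → Prop) (ig : I') (iK : Finset L.C → I')
    (u : ℕ → Fin r ⊕ Fin r → PP O ι r) (a : Fin r ⊕ Fin r → PP O ι r) (D : ℕ → PP O ι r)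
    (d : PP O ι r) (M : I' → ℕ → Type) (Gm : I' → Type) (Cc : ℕ → Type)
    (_ : ∀ i n, AddCommGroup (M i n)) (_ : ∀ i n, Module (PP O ι r) (M i n))
    (_ : ∀ i, AddCommGroup (Gm i)) (_ : ∀ i, Module (PP O ι r) (Gm i))
    (_ : ∀ n, AddCommGroup (Cc n)) (_ : ∀ n, Module (PP O ι r) (Cc n)),
    MD (Y.rd ϖ) Y.U u a D d M Gm ses iK ∧
    FD (Y.rd ϖ) Y.U u D M Gm ig ((Y.rd ϖ).E ⊔ EU K ι S.T r X) Cc ∧
    (∀ J : Finset L.C, (∀ l ∈ J, (l : ℕ) ∉ X) → Module.annihilator (PP O ι r) (Gm (iK J)) ≤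
      (Y.G'.An (Y0 (iJ (resJ X J)))).comap Y.jr) ∧
    (∀ N : I' → ℕ∞, (∀ i j k, ses i j k → N j = N i + N k) →
      ∀ J : Finset L.C, (∀ l ∈ J, (l : ℕ) ∉ X) → (mX K X J : ℕ∞) * N (iK J) ≤ N ig) ∧
    (∃ (δ : ℕ → PP O ι r) (e : PP O ι r), P022D.PA.Cv (Y.U : Filter ℕ) δ e ∧
      (∀ 𝔮 : Ideal (PP O ι r), 𝔮.IsPrime → e ∈ 𝔮 → ∃ i, a i ∈ 𝔮) ∧
      ∀ n, ∃ χ : Cc n, ∀ v : Cc n, δ n • v ∈ Submodule.span (PP O ι r) {χ}) ∧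
    (∀ J i (𝔮 : Ideal (S1 O τ L ι S.T r)), (Y.rd ϖ).Pn 𝔮 →
      Pt.An Y.U (M (iK J)) ≤ 𝔮.comap (Y.rd ϖ).ψ →
      2 * (Y.rd ϖ).y i - io O _ r ((Y.rd ϖ).α i) ∈ 𝔮 → ∃ z, (Y.rd ϖ).ψ (a z) ∈ 𝔮) ∧
    ∀ Z : Ideal (PP O ι r), Z.IsPrime → Z ≤ (Y.rd ϖ).p0 → (Y.rd ϖ).𝔢 ≤ Z → Pt.An Y.U Cc ≤ Z →
      (Y.G'.An W0).comap Y.jr ≤ Z

/-- **the package at a curve** -/
def PKG2 : Prop := All fun O F _ _ _ _ _ _ _ ϖ S L X as β τ ι' _ _ _ K ι _ G => Ex K S X →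
  ∀ (Sf : P022D.R.Dat O F) (I : Type) (Y0 : I → Type) (W0 : Type) [∀ i, AddCommGroup (Y0 i)]
    [∀ i, Module (Tg O) (Y0 i)] [AddCommGroup W0] [Module (Tg O) W0] (ses : I → I → I → Prop)
    (ig ib : I) (iJ : Finset L.C → I), Sf.T = S.T →
    (∀ g, (mx Sf.rb g).trace = (mx S.rb g).trace) → HD3 ϖ Sf L Y0 W0 ses ig ib iJ →
    ∀ p : Ideal (PS O (Sy ι)), Chain.Cv p → G.aP ≤ p → C ϖ ∈ p →
      (∀ h : as ∈ L.C, G.fr ⟨as, h⟩ ∈ p) →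
      ∃ (r s : ℕ) (V : Type) (_ : CommRing V) (_ : IsDomain V) (_ : IsDiscreteValuationRing V)
        (_ : CharP V 2) (_ : IsAdicComplete (maximalIdeal V) V) (_ : Finite (ResidueField V))
        (Y : Pc (S := S) (ι := ι) K r s V), Irreducible Y.t ∧ Y.G' = G ∧ Y.Ok ∧
        RingHom.ker Y.θA = p ∧ ∀ [P022D.PA.Base (PP O ι r)], Y.Md ϖ X Y0 ses ib iJ

/-- **the package for the last step** -/
def PKF2 : Prop := All fun O F _ _ _ _ _ _ _ ϖ S L X as β τ ι' _ _ _ K ι _ G => Ex K S X →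
  ∀ (Sf : P022D.R.Dat O F) (I : Type) (Y0 : I → Type) (W0 : Type) [∀ i, AddCommGroup (Y0 i)]
    [∀ i, Module (Tg O) (Y0 i)] [AddCommGroup W0] [Module (Tg O) W0] (ses : I → I → I → Prop)
    (ig ib : I) (iJ : Finset (subL L X).C → I), Sf.T = S.T \ X →
    (∀ g, (mx Sf.rb g).trace = (mx S.rb g).trace) → HD3 ϖ Sf (subL L X) Y0 W0 ses ig ib iJ →
    ∀ p : Ideal (PS O (Sy ι)), Chain.Cv p → G.aP ≤ p → C ϖ ∈ p →
      (∀ h : as ∈ L.C, G.fr ⟨as, h⟩ ∈ p) →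
      ∃ (r s : ℕ) (V : Type) (_ : CommRing V) (_ : IsDomain V) (_ : IsDiscreteValuationRing V)
        (_ : CharP V 2) (_ : IsAdicComplete (maximalIdeal V) V) (_ : Finite (ResidueField V))
        (Y : Pc (S := S) (ι := ι) K r s V), Irreducible Y.t ∧ Y.G' = G ∧ Y.Ok ∧
        RingHom.ker Y.θA = p ∧ ∀ [P022D.PA.Base (PP O ι r)], Y.Mf ϖ X Y0 W0 iJ

theorem patch2C (hP : PKG2) (hA : KDA) (hV : RCOV) (hR : ROK) : PATCH2 := by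
  intro O F _ _ _ _ _ _ _ ϖ S L X as β τ ι' _ _ _ K ι _ G hϖ hC hK hX Sf I Y0 W0 _ _ _ _ ses ig ib
    iJ e1 e2 hD J p E E' hp hf hE hE' h1 h2 h3
  have hk := (hA O F ϖ S L X as β τ ι' K ι G hϖ hC hK).1
  have hI := hE.2.1.trans h1
  obtain ⟨r, s, V, _, _, _, _, _, _, Y, a1, rfl, a3, rfl, a5⟩ := hP O F ϖ S L X as β τ ι' K ι G hϖ
    hC hK hX Sf I Y0 W0 ses ig ib iJ e1 e2 hD p hp
    (hk.trans (le_sup_left.trans (le_sup_left.trans hI)))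
    (hI (Ideal.mem_sup_left (Ideal.mem_sup_right (Ideal.mem_span_singleton_self _)))) hf
  haveI := P022D.As.base O (Sy (ι ⊕ Fin r) ⊕ Fin r)
  letI : Algebra (S0 O τ L ι S.T r) (S1 O τ L ι S.T r) := (io O _ r).toAlgebra
  obtain ⟨u, a, D, d, M, Gm, _, _, _, _, W, hA, -⟩ := a5
  have H := hR O F ϖ S L X as β τ ι' K ι _ hϖ hC hK r s V Y a1 rfl a3
  obtain ⟨-, -, -, c1, c2, -⟩ := hV O F ϖ S L X as β τ ι' K ι _ hϖ hC hK r s V Y a1 rfl a3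
  exact Jr.dn H W a3.jr c1 c2 hk (hA _).ge hE'.1 hE'.2.1 h2
    (Jr.up H W c1 c2 (hA _).le hE.1 hE.2.2 h1 h3)

theorem lower2C (hP : PKG2) (hA : KDA) (hV : RCOV) (hR : ROK) (hL : RCA) : LOWER2 := by
  intro O F _ _ _ _ _ _ _ ϖ S L X as β τ ι' _ _ _ K ι _ G hϖ hC hK hX Sf I Y0 W0 _ _ _ _ ses ig ib
    iJ e1 e2 hD J l hl hJ p E E' hp hf hE hE' h1 h2 h3
  have hk := (hA O F ϖ S L X as β τ ι' K ι G hϖ hC hK).1
  have hI := hE'.2.1.trans h2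
  obtain ⟨r, s, V, _, _, _, _, _, _, Y, a1, rfl, a3, rfl, a5⟩ := hP O F ϖ S L X as β τ ι' K ι G hϖ
    hC hK hX Sf I Y0 W0 ses ig ib iJ e1 e2 hD p hp
    (hk.trans (le_sup_left.trans (le_sup_left.trans hI)))
    (hI (Ideal.mem_sup_left (Ideal.mem_sup_right (Ideal.mem_span_singleton_self _)))) hf
  haveI := P022D.As.base O (Sy (ι ⊕ Fin r) ⊕ Fin r)
  haveI := P022D.As.base O (V0 τ L ι S.T r)
  letI : Algebra (S0 O τ L ι S.T r) (S1 O τ L ι S.T r) := (io O _ r).toAlgebra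
  obtain ⟨u, a, D, d, M, Gm, _, _, _, _, W, hA, hF⟩ := a5
  obtain ⟨Cc, _, _, hF⟩ := hF l hl
  have H := hR O F ϖ S L X as β τ ι' K ι _ hϖ hC hK r s V Y a1 rfl a3
  obtain ⟨-, -, -, c1, c2, c3⟩ := hV O F ϖ S L X as β τ ι' K ι _ hϖ hC hK r s V Y a1 rfl a3
  have h4 : (Y.rd ϖ).IJ J ≤ (Y.rd ϖ).p1 := (H.ij _ (T.pm_p H) (by
      rw [H.pi]
      change Y.θ (io O _ r (C ϖ)) = 0
      rw [← c3]
      exact congrArg _ (MvPowerSeries.rename_C _ _)) J).1 (by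
    change _ ≤ (Y.rd ϖ).p0
    rw [c1]
    exact (Jr.ip_iff a3.jr J _).2 (le_sup_right.trans hI))
  exact Jr.dn H W a3.jr c1 c2 hk (hA _).ge hE'.1 hE'.2.1 h2 (T.low H W hF ⟨hD.low,
    (hL O F ϖ S L X as β τ ι' K ι _ hϖ hC hK r s V Y a1 rfl a3).2 J l hl hJ h4⟩
    (Jr.up H W c1 c2 (hA _).le hE.1 hE.2.2 h1 h3))

theorem final2C (hP : PKF2) (hA : KDA) (hV : RCOV) (hR : ROK) (hG : RGAL0) (hL : RFIN) :
    FINAL2 := by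
  intro O F _ _ _ _ _ _ _ ϖ S L X as β τ ι' _ _ _ K ι _ G hϖ hC hK hX Sf I Y0 W0 _ _ _ _ ses ig ib
    iJ e1 e2 hD Z p hZ z1 z2 z3 z4 hp z5 hf
  have hk := (hA O F ϖ S L X as β τ ι' K ι G hϖ hC hK).1
  obtain ⟨r, s, V, _, _, _, _, _, _, Y, a1, rfl, a3, rfl, a5⟩ := hP O F ϖ S L X as β τ ι' K ι G hϖ
    hC hK hX Sf I Y0 W0 ses ig ib iJ e1 e2 hD p hp (hk.trans (z1.trans z4)) z5 hf
  haveI := P022D.As.base O (Sy (ι ⊕ Fin r) ⊕ Fin r)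
  haveI := P022D.As.base O (V0 τ L ι S.T r)
  haveI := P022D.As.base O (V0 τ L ι S.T r ⊕ Fin r)
  letI : Algebra (S0 O τ L ι S.T r) (S1 O τ L ι S.T r) := (io O _ r).toAlgebra
  obtain ⟨I', ses', ig', iK, u, a, D, d, M, Gm, Cc, _, _, _, _, _, _, W, hF, b1, b2, b3, b4, b5⟩ :=
    a5
  have H := hR O F ϖ S L X as β τ ι' K ι _ hϖ hC hK r s V Y a1 rfl a3
  obtain ⟨-, -, -, c1, c2, c3⟩ := hV O F ϖ S L X as β τ ι' K ι _ hϖ hC hK r s V Y a1 rfl a3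
  obtain ⟨l1, l2⟩ := hL O F ϖ S L X as β τ ι' K ι _ hϖ hC hK r s V Y a1 rfl a3
  have key : ∀ J : Finset L.C, (∀ l, (Y.rd ϖ).τl l ⊆
      (((Y.rd ϖ).E ⊔ EU K ι S.T r X : Ideal _) : Set _) → l ∉ J) → ∀ l ∈ J, (l : ℕ) ∉ X :=
    fun J h l hl hx => h l (by
      rintro _ ⟨z, rfl⟩
      exact Ideal.mem_sup_right (Ideal.subset_span ⟨l, hx, z.1, z.2, rfl⟩)) hl
  have y1 : Z.comap Y.jr ≤ (Y.rd ϖ).p0 := c1 ▸ Ideal.comap_mono z4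
  have y2 : (Y.rd ϖ).𝔢 ≤ Z.comap Y.jr := Ideal.comap_mono (hk.trans z1)
  obtain ⟨J, j1, j2, j3⟩ := T.fin H W hF (m := mX K X)
    ⟨fun N hN J hJ => b2 N hN J (key J hJ), b3, b4, l1, l2⟩ (Ideal.comap_isPrime _ _) y1 y2
    (by
      change Y.jr (C ϖ) ∉ Z
      rw [a3.jr.c]
      exact z3)
    ((hG O F ϖ S L X as β τ ι' K ι _ hϖ hC hK r s V Y a1 rfl a3).2 _ y2
      fun l hl => Jr.tau_le a3.jr _ (z2 l hl))
  refine ⟨J, sup_le (sup_le (z1.trans z4) ((Ideal.span_singleton_le_iff_mem _).2 z5))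
    ((Jr.ip_iff a3.jr J _).1 (c1 ▸ j1)), key J j2, fun E hE h1 h2 => Jr.le_of_comap c2 ?_⟩
  exact b5 _ (Ideal.comap_isPrime _ _) y1 y2
    (j3 (Jr.up H W c1 c2 (b1 J (key J j2)) hE.1 hE.2.2 h1 h2))

end Vale.Agent.P022G
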