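import Vale.Agent.P022G.Rw.Patch0
import Vale.Agent.P022G.Rows2

/-!
# P022G: the rows `PATCH2` and `LOWER2` from the package at a curve
-/

set_option linter.all false

noncomputable section

namespace Vale.Agent.P022G

open IsLocalRing MvPowerSeries
open Vale.Agent.P022 Vale.Agent.P022G.R Vale.Agent.P022G.Loc Vale.Agent.P022G.Pt
open Vale.Agent.P027M.S (mx)
open Vale.Agent.P022D.Core (PS io y1 Coef)
open Vale.Agent.P022E.Loc (Pl)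
open Vale.Agent.P022E.As (Tg)
open Vale.Agent.P022G.Chain (Pd)
open Vale.Agent.P022G.Ps (HD3)

/-- **the package at a curve** -/
def PKG2 : Prop := All fun O F _ _ _ _ _ _ _ ϖ S L X as β τ ι' _ _ _ K ι _ G => Ex K S X →
  ∀ (Sf : P022D.R.Dat O F) (I : Type) (Y0 : I → Type) (W0 : Type) [∀ i, AddCommGroup (Y0 i)]
    [∀ i, Module (Tg O) (Y0 i)] [AddCommGroup W0] [Module (Tg O) W0] (ses : I → I → I → Prop)
    (ig ib : I) (iJ : Finset L.C → I), Sf.T = S.T →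
    (∀ g, (mx Sf.rb g).trace = (mx S.rb g).trace) → HD3 ϖ Sf L Y0 W0 ses ig ib iJ →
    ∀ p : Ideal (PS O (Sy ι)), Chain.Cv p → G.aP ≤ p → C ϖ ∈ p →
      (∀ h : as ∈ L.C, G.fr ⟨as, h⟩ ∈ p) →
      ∃ (r s : ℕ) (V : Type) (_ : CommRing V) (_ : IsDomain V) (_ : IsDiscreteValuationRing V)
        (_ : CharP V 2) (_ : IsAdicComplete (maximalIdeal V) V) (_ : Finite (ResidueField V))
        (Y : Pc (S := S) (ι := ι) K r s V), Irreducible Y.t ∧ Y.G' = G ∧ Y.Ok ∧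
        RingHom.ker Y.θA = p ∧ ∀ [P022D.PA.Base (PP O ι r)], Y.Md ϖ X Y0 ses ib iJ

theorem patch2_of (hP : PKG2) (hA : KDA) (hV : RCOV) (hR : ROK) : PATCH2 := by
  intro O F _ _ _ _ _ _ _ ϖ S L X as β τ ι' _ _ _ K ι _ G hϖ hC hK hE0 Sf I Y0 W0 _ _ _ _ ses ig ib
    iJ e1 e2 hD J p E E' hp hf hE hE' h1 h2 h3
  have hk := (hA O F ϖ S L X as β τ ι' K ι G hϖ hC hK).1
  have hI := hE.2.1.trans h1
  obtain ⟨r, s, V, _, _, _, _, _, _, Y, a1, rfl, a3, rfl, a5⟩ := hP O F ϖ S L X as β τ ι' K ι G hϖ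
    hC hK hE0 Sf I Y0 W0 ses ig ib iJ e1 e2 hD p hp
    (hk.trans (le_sup_left.trans (le_sup_left.trans hI)))
    (hI (Ideal.mem_sup_left (Ideal.mem_sup_right (Ideal.mem_span_singleton_self _)))) hf
  haveI := P022D.As.base O (Sy (ι ⊕ Fin r) ⊕ Fin r)
  letI : Algebra (S0 O τ L ι S.T r) (S1 O τ L ι S.T r) := (io O _ r).toAlgebra
  obtain ⟨u, a, D, d, M, Gm, _, _, _, _, W, hA, -⟩ := a5
  have H := hR O F ϖ S L X as β τ ι' K ι _ hϖ hC hK r s V Y a1 rfl a3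
  obtain ⟨-, -, -, c1, c2, -⟩ := hV O F ϖ S L X as β τ ι' K ι _ hϖ hC hK r s V Y a1 rfl a3
  exact Jr.dn H W a3.jr c1 c2 hk (hA _).ge hE'.1 hE'.2.1 h2
    (Jr.up H W c1 c2 (hA _).le hE.1 hE.2.2 h1 h3)

theorem lower2_of (hP : PKG2) (hA : KDA) (hV : RCOV) (hR : ROK) (hL : RCA) : LOWER2 := by
  intro O F _ _ _ _ _ _ _ ϖ S L X as β τ ι' _ _ _ K ι _ G hϖ hC hK hE0 Sf I Y0 W0 _ _ _ _ ses ig ib
    iJ e1 e2 hD J l hl hJ p E E' hp hf hE hE' h1 h2 h3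
  have hk := (hA O F ϖ S L X as β τ ι' K ι G hϖ hC hK).1
  have hI := hE'.2.1.trans h2
  obtain ⟨r, s, V, _, _, _, _, _, _, Y, a1, rfl, a3, rfl, a5⟩ := hP O F ϖ S L X as β τ ι' K ι G hϖ
    hC hK hE0 Sf I Y0 W0 ses ig ib iJ e1 e2 hD p hp
    (hk.trans (le_sup_left.trans (le_sup_left.trans hI)))
    (hI (Ideal.mem_sup_left (Ideal.mem_sup_right (Ideal.mem_span_singleton_self _)))) hf
  haveI := P022D.As.base O (Sy (ι ⊕ Fin r) ⊕ Fin r)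
  haveI := P022D.As.base O (V0 τ L ι S.T r)
  letI : Algebra (S0 O τ L ι S.T r) (S1 O τ L ι S.T r) := (io O _ r).toAlgebra
  obtain ⟨u, a, D, d, M, Gm, _, _, _, _, W, hA, hF⟩ := a5
  obtain ⟨Cc, _, _, hF⟩ := hF l hl
  have H := hR O F ϖ S L X as β τ ι' K ι _ hϖ hC hK r s V Y a1 rfl a3
  obtain ⟨-, -, -, c1, c2, c3⟩ := hV O F ϖ S L X as β τ ι' K ι _ hϖ hC hK r s V Y a1 rfl a3
  have h4 : (Y.rd ϖ).IJ J ≤ (Y.rd ϖ).p1 := (H.ij _ (T.pm_p H) (by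
      rw [H.pi]
      change Y.θ (io O _ r (C ϖ)) = 0
      rw [← c3]
      exact congrArg _ (MvPowerSeries.rename_C _ _)) J).1 (by
    change _ ≤ (Y.rd ϖ).p0
    rw [c1]
    exact (Jr.ip_iff a3.jr J _).2 (le_sup_right.trans hI))
  exact Jr.dn H W a3.jr c1 c2 hk (hA _).ge hE'.1 hE'.2.1 h2 (T.low H W hF ⟨hD.low,
    (hL O F ϖ S L X as β τ ι' K ι _ hϖ hC hK r s V Y a1 rfl a3).2 J l hl hJ h4⟩
    (Jr.up H W c1 c2 (hA _).le hE.1 hE.2.2 h1 h3))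

end Vale.Agent.P022G
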