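import Vale.Agent.P022G.Rows

/-!
# P022G: the odd part of the regular element
-/

set_option linter.all false

noncomputable section

namespace Vale.Agent.P022G

open NumberField IsLocalRing Filter
open Vale.Agent.P022 Vale.Agent.P022G.R Vale.Agent.P022G.Loc
open Vale.Agent.P027M.S (Inert mx)
open Vale.Agent.P022D.Sel (M2)
open Vale.Agent.P022E.Loc (Pl)

namespace Auxx

/-- `g'` is a limit of the powers `g ^ 2 ^ n!` -/
def Op (g g' : GQ) : Prop := ∀ s : Set GQ, IsOpen s → 1 ∈ s → ∀ N : ℕ, ∃ n, N ≤ n ∧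
  (g ^ 2 ^ n.factorial)⁻¹ * g' ∈ s

theorem ex_op (g : GQ) : ∃ g', Op g g' := by
  haveI : CompactSpace GQ := by
    have h1 : Algebra.IsAlgebraic ℚ Qb := AlgebraicClosure.isAlgebraic ℚ
    have h2 : IsAlgClosure ℚ Qb := ⟨inferInstance, inferInstance⟩
    have h3 : IsGalois ℚ Qb := IsAlgClosure.isGalois ℚ Qb
    infer_instance
  obtain ⟨g', -, h⟩ := isCompact_univ.exists_mapClusterPt (f := (atTop : Filter ℕ))
    (u := fun n : ℕ => g ^ 2 ^ n.factorial) (by simp)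
  refine ⟨g', fun s hs h1 N => ?_⟩
  have hc : Continuous fun x : GQ => x⁻¹ * g' := continuous_inv.mul continuous_const
  have k := mapClusterPt_iff_frequently.1 h _ ((hs.preimage hc).mem_nhds (by simpa using h1))
  obtain ⟨n, h2, h3⟩ := frequently_atTop.1 k N
  exact ⟨n, h2, h3⟩

variable {g g' : GQ}

theorem Op.hom (h : Op g g') {M : Type} [Monoid M] (f : GQ →* M) (ho : IsOpen {x : GQ | f x = 1})
    (N : ℕ) : ∃ n, N ≤ n ∧ f g' = f g ^ 2 ^ n.factorial := by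
  obtain ⟨n, h1, h2⟩ := h _ ho (map_one f) N
  refine ⟨n, h1, ?_⟩
  have h3 : f ((g ^ 2 ^ n.factorial)⁻¹ * g') = 1 := h2
  rw [← map_pow, ← mul_one (f (g ^ _)), ← h3, ← map_mul, mul_inv_cancel_left]

theorem Op.mem (h : Op g g') (U : Subgroup GQ) (ho : IsOpen (U : Set GQ)) (hg : g ∈ U) :
    g' ∈ U := by
  obtain ⟨n, -, h2⟩ := h _ ho U.one_mem 0
  exact (U.mul_mem_cancel_left (U.inv_mem (U.pow_mem hg _))).1 h2

theorem Op.odd (h : Op g g') (Γ : Type) [Group Γ] [Finite Γ] (f : GQ →* Γ)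
    (ho : IsOpen {x : GQ | f x = 1}) : ∃ m : ℕ, Odd m ∧ f g' ^ m = 1 := by
  obtain ⟨a, m, hm, e⟩ := Nat.exists_eq_two_pow_mul_odd (orderOf_pos (f g)).ne'
  obtain ⟨n, h1, h2⟩ := h.hom f ho a
  refine ⟨m, hm, ?_⟩
  rw [h2, ← pow_mul, ← orderOf_dvd_iff_pow_eq_one, e]
  exact Nat.mul_dvd_mul_right (pow_dvd_pow 2 (h1.trans n.self_le_factorial)) m

theorem Op.eq (h : Op g g') {M : Type} [Monoid M] (f : GQ →* M) (ho : IsOpen {x : GQ | f x = 1})
    {m : ℕ} (hm : Odd m) (e : f g ^ m = 1) : f g' = f g := by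
  obtain ⟨n, h1, h2⟩ := h.hom f ho m.totient
  have h3 : 2 ^ m.totient ≡ 1 [MOD m] := Nat.ModEq.pow_totient (Nat.coprime_two_left.2 hm)
  obtain ⟨c, hc⟩ := Nat.dvd_factorial (Nat.totient_pos.2 hm.pos) h1
  have h4 : 2 ^ n.factorial ≡ 1 [MOD m] := by
    rw [hc, pow_mul]
    simpa using h3.pow c
  rw [h2, pow_eq_pow_mod _ e, h4, ← pow_eq_pow_mod _ e, pow_one]

theorem diag_pow {R : Type} [CommRing R] {A : M2 R} (h : A 0 1 = 0 ∧ A 1 0 = 0) (n : ℕ) :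
    A ^ n = !![A 0 0 ^ n, 0; 0, A 1 1 ^ n] := by
  induction n with
  | zero => rw [pow_zero, pow_zero, pow_zero, Matrix.one_fin_two]
  | succ n ih =>
    rw [pow_succ, ih]
    ext a b
    fin_cases a <;> fin_cases b <;> simp [Matrix.mul_apply, Fin.sum_univ_two, h.1, h.2, pow_succ]

theorem Op.diag (h : Op g g') {O : Type} [CommRing O] [IsLocalRing O] [IsNoetherianRing O]
    (r : GQ →* M2 O)
    (hc : ∀ k : ℕ, IsOpen {x : GQ | (r x).map (Ideal.Quotient.mk (maximalIdeal O ^ k)) = 1})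
    (hd : r g 0 1 = 0 ∧ r g 1 0 = 0) : r g' 0 1 = 0 ∧ r g' 1 0 = 0 := by
  have key : ∀ k : ℕ, r g' 0 1 ∈ maximalIdeal O ^ k ∧ r g' 1 0 ∈ maximalIdeal O ^ k := fun k => by
    let f : GQ →* M2 (O ⧸ maximalIdeal O ^ k) :=
      (Ideal.Quotient.mk (maximalIdeal O ^ k)).mapMatrix.toMonoidHom.comp r
    have ef : ∀ x a b, f x a b = Ideal.Quotient.mk (maximalIdeal O ^ k) (r x a b) :=
      fun _ _ _ => rfl
    obtain ⟨n, -, h2⟩ := h.hom f (hc k) 0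
    rw [diag_pow (A := f g) ⟨by rw [ef, hd.1, map_zero], by rw [ef, hd.2, map_zero]⟩] at h2
    constructor
    · rw [← Ideal.Quotient.eq_zero_iff_mem, ← ef, h2]; rfl
    · rw [← Ideal.Quotient.eq_zero_iff_mem, ← ef, h2]; rfl
  have kr := Ideal.iInf_pow_eq_bot_of_isLocalRing (maximalIdeal O) (maximalIdeal.isMaximal O).ne_top
  constructor
  · rw [← Ideal.mem_bot, ← kr, Ideal.mem_iInf]; exact fun k => (key k).1
  · rw [← Ideal.mem_bot, ← kr, Ideal.mem_iInf]; exact fun k => (key k).2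

theorem Op.fix (h : Op g g') {z : Qb} (hz : g z = z) : g' z = z := by
  refine h.mem (MulAction.stabilizer GQ z) ?_ hz
  exact stabilizer_isOpen_of_isIntegral (K := ℚ) z

theorem odd_ord {F : Type} [Field F] [Finite F] [CharP F 2] (A : GL (Fin 2) F)
    (h : (A : M2 F) 0 1 = 0 ∧ (A : M2 F) 1 0 = 0) : ∃ m : ℕ, Odd m ∧ A ^ m = 1 := by
  haveI := Fintype.ofFinite F
  obtain ⟨n, -, hn⟩ := FiniteField.card F 2
  have hd : (A : M2 F).det ≠ 0 := A.det_ne_zero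
  rw [Matrix.det_fin_two, h.1, zero_mul, sub_zero] at hd
  refine ⟨Fintype.card F - 1, ?_, Units.ext ?_⟩
  · rw [hn]
    exact Nat.Even.sub_odd Nat.one_le_two_pow (Even.pow_of_ne_zero even_two n.ne_zero) odd_one
  · rw [Units.val_pow_eq_pow_val, diag_pow h,
      FiniteField.pow_card_sub_one_eq_one _ (left_ne_zero_of_mul hd),
      FiniteField.pow_card_sub_one_eq_one _ (right_ne_zero_of_mul hd), Units.val_one,
      Matrix.one_fin_two]

end Auxx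

/-- **the regular element may be taken pro-odd** -/
theorem cy_of_cx {O F : Type} [CommRing O] [IsLocalRing O] [IsNoetherianRing O] [Field F]
    [Finite F] [CharP F 2] {S : Dat O F} {L : Pl O} {X : Finset ℕ} {as : ℕ} (h : Cx S L X as)
    (ur : ∀ l ∈ L.C, mx S.rb (L.τ l) = 1) (fx : Obs.FX S.rb.ker S.T) (fx1 : Obs.FX ⊤ S.T) :
    ∃ S' : Dat O F, Cy S' L X as ∧ S'.red = S.red ∧ S'.rb = S.rb ∧ S'.T = S.T ∧
      S'.l0 = S.l0 := by
  obtain ⟨g', hg⟩ := Auxx.ex_op S.g0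
  obtain ⟨m, hm, e⟩ := Auxx.odd_ord (S.rb S.g0) ⟨S.d01, S.d10⟩
  have e1 : S.rb g' = S.rb S.g0 := hg.eq S.rb h.ok.dh.opn hm e
  have e2 : mx S.rb g' = mx S.rb S.g0 := congrArg Units.val e1
  have c8 : ∀ z : Qb, z ^ 8 = 1 → g' z = z := fun z hz => hg.fix (h.g0.2.1 z hz)
  have k := h.ok
  refine ⟨⟨S.red, S.rb, S.T, g', S.l0, S.surj, e2 ▸ S.d01, e2 ▸ S.d10, e2 ▸ S.dne, S.hl0⟩,
    ⟨⟨⟨k.ker, k.dh, k.det, k.hT, k.dj, k.pr, k.hP, k.h2, k.cj, k.tm, k.reg, k.uni, k.lift, k.cont,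
      k.odd, k.ty⟩, ⟨k.dh.cy8 g' c8, c8, hg.diag L.r k.cont h.g0.2.2⟩, h.irr, h.unr, h.sub, h.big,
      h.one, h.mem, h.mv1, h.mv2⟩, hg.odd, ur, fx, fx1⟩, rfl, rfl, rfl, rfl⟩

end Vale.Agent.P022G
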