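import Vale.Agent.P022G.Rows
import Vale.Agent.P022G.Pt.Dual

/-!
# P022G, the last step: descent and the projection to level zero
-/

set_option linter.all false

noncomputable section

namespace Vale.Agent.P022G.Fin

open IsLocalRing Filter MvPowerSeries
open Vale.Agent.P022 Vale.Agent.P022G.R Vale.Agent.P022G.Loc
open Vale.Agent.P022D.PA Vale.Agent.P022D.As Vale.Agent.P022D.As.EA
open Vale.Agent.P022D.Core (PS)
open Vale.Agent.P022E.Loc (Pl)
open Vale.Agent.P022G.Pt (An Du DM DF)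

section dsc
variable {P : Type} [CommRing P] [Base P]

/-- descent with an error which tends to zero -/
theorem dsc2 (U : Ultrafilter ℕ) (hU : (U : Filter ℕ) ≤ atTop) {ι : Type} [Fintype ι]
    (s : ℕ → ι → P) (M : ℕ → Type) [∀ n, AddCommGroup (M n)] [∀ n, Module P (M n)]
    (hG : P022D.PA.Gen P M) {𝔮 : Ideal P} (h𝔮 : 𝔮.IsPrime) (hA : An U M ≤ 𝔮) (hs : ∀ n i, s n i ∈ 𝔮)
    (z : ℕ → P) (a : P) (hz : Cv (U : Filter ℕ) z a)
    (hx : ∀ n (x : M n), z n • x ∈ J1 (s n) • (⊤ : Submodule P (M n)) ⊔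
      maximalIdeal P ^ n • (⊤ : Submodule P (M n))) : a ∈ 𝔮 := by
  choose σ hσ using fun i => lim P U fun n => s n i
  have h1 : J1 σ ≤ 𝔮 := Ideal.span_le.2 (by
    rintro _ ⟨i, rfl⟩
    exact (limi P U _ _ 𝔮 (hσ i)).1 (Eventually.of_forall fun n => hs n i))
  haveI := fgC P U M hG
  have h2 : (⟨𝔮, h𝔮⟩ : PrimeSpectrum P) ∈ Module.support P
      (P022D.PA.L P (U : Filter ℕ) M ⧸ 𝔮 • (⊤ : Submodule P (P022D.PA.L P (U : Filter ℕ) M))) := by
    rw [Module.support_quotient]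
    exact ⟨Module.mem_support_iff_of_finite.2 hA, fun _ h => h⟩
  refine Module.mem_support_iff_of_finite.1 h2 (Module.mem_annihilator.2 fun v => ?_)
  obtain ⟨v, rfl⟩ := Submodule.Quotient.mk_surjective _ v
  obtain ⟨x, rfl⟩ := Submodule.Quotient.mk_surjective _ v
  rw [← Submodule.Quotient.mk_smul, Submodule.Quotient.mk_eq_zero, ← smu P U M z a hz x]
  exact Submodule.smul_mono h1 le_rfl ((boxC P U hU M ι s σ hσ _).2 fun j =>
    hU ((eventually_ge_atTop j).mono fun n hn => (sup_le_sup_left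
      (Submodule.smul_mono (Ideal.pow_le_pow_right hn) le_rfl) _ :
        J1 (s n) • (⊤ : Submodule P (M n)) ⊔ maximalIdeal P ^ n • (⊤ : Submodule P (M n)) ≤
          J1 (s n) • (⊤ : Submodule P (M n)) ⊔ maximalIdeal P ^ j • (⊤ : Submodule P (M n)))
      (hx n (x n))))

variable {ι I : Type} [Fintype ι] {π : P} {u : ℕ → ι → P} {D : ℕ → P} {Yb : I → ℕ → Type}
  {Y0 : I → Type} [∀ i n, AddCommGroup (Yb i n)] [∀ i n, Module P (Yb i n)]
  [∀ i, AddCommGroup (Y0 i)] [∀ i, Module P (Y0 i)] {ses : I → I → I → Prop}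
  {Wc : ℕ → Type} [∀ n, AddCommGroup (Wc n)] [∀ n, Module P (Wc n)] {i : I}

/-- **descent to a prime of characteristic zero** -/
theorem down (H : DM π u D Yb Y0 ses) (F : DF π u Yb i Wc) (U : Ultrafilter ℕ)
    (hU : (U : Filter ℕ) ≤ atTop) {Z : Ideal P} (hZ : Z.IsPrime) (h : An U (Du Wc) ≤ Z)
    (hu : ∀ n s, u n s ∈ Z) {d : P} (hD : Cv (U : Filter ℕ) D d) (hd : d ∉ Z) (t : P)
    (ht : ∀ n (w : Wc n), π ^ n • w = 0 → (∀ s, u n s • w = 0) → (D n * t) • w = 0) : t ∈ Z := by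
  have := dsc2 U hU u (Du Wc) (F.gd H hU).gen hZ h hu (fun n => D n * t) (d * t)
    (cv_mul hD (cv_const t)) fun n φ => by
      have k := (dtor P (Option ι) (fun o => o.elim (π ^ n) (u n)) (Wc n) ((D n * t) • φ)).2
        fun w hw => by
          rw [CharacterModule.smul_apply, ht n w (hw none) fun s => hw (some s), map_zero]
      rw [← Submodule.sup_smul]
      refine Submodule.smul_mono (Ideal.span_le.2 ?_) le_rfl k
      rintro _ ⟨o, rfl⟩
      cases o with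
      | none => exact Ideal.mem_sup_right (Ideal.pow_mem_pow F.max n)
      | some s => exact Ideal.mem_sup_left (Ideal.subset_span ⟨s, rfl⟩)
  exact (hZ.mem_or_mem this).resolve_left hd

end dsc

section jr
variable {O F : Type} [CommRing O] [Field F] {S : Dat O F} {L : Pl O} {κ ι : Type} {gk : κ → GQ}
  {G : Gs S L gk ι} {r : ℕ} {jr : PP O ι r →+* PS O (Sy ι)} (h : Hm C (G.jv r) jr)
include h

theorem jr_a (i : ι) : jr (aS (G.rcr r) Sum.inl (Sum.inl i)) = aS G.rc id i := by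
  rw [aS, map_add, h.c, h.x]
  simp [Gs.jv, gv]

theorem jr_d (i : ι) : jr (dS (G.rcr r) Sum.inl (Sum.inl i)) = dS G.rc id i := by
  rw [dS, map_add, h.c, h.x]
  simp [Gs.jv, gv]

theorem jr_x (i k : ι) :
    jr (xS (G.rcr r) Sum.inl (Sum.inl i) (Sum.inl k)) = xS G.rc id i k := by
  rw [xS, map_add, h.c, h.x]
  simp [Gs.jv, gv]

theorem jr_x1 (i : ι ⊕ Fin r) (k : Fin r) : jr (xS (G.rcr r) Sum.inl i (Sum.inr k)) = 0 := by
  rw [xS, map_add, h.c, h.x]
  cases i <;> simp [Gs.jv, gv]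

theorem jr_x2 (i : Fin r) (k : ι ⊕ Fin r) : jr (xS (G.rcr r) Sum.inl (Sum.inr i) k) = 0 := by
  rw [xS, map_add, h.c, h.x]
  simp [Gs.jv, gv]

theorem jr_tr (i : ι) : jr (trS (G.rcr r) Sum.inl (Sum.inl i)) = trS G.rc id i := by
  rw [trS, trS, map_add, jr_a h, jr_d h]

theorem jr_tr2 (i k : ι) :
    jr (tr2 (G.rcr r) Sum.inl (Sum.inl i) (Sum.inl k)) = tr2 G.rc id i k := by
  simp only [tr2, map_add, map_mul, jr_a h, jr_d h, jr_x h]

theorem tau_up (i : ι) {Z : Ideal (PS O (Sy ι))} (hz : tauP G.rc id i ⊆ Z) :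
    tauP (G.rcr r) (Sum.inl : _ → Sy (ι ⊕ Fin r) ⊕ Fin r) (Sum.inl i) ⊆
      ((Z.comap jr : Ideal (PP O ι r)) : Set (PP O ι r)) := by
  rintro u ((rfl | rfl) | ⟨k, rfl⟩ | ⟨k, rfl⟩) <;> change jr _ ∈ Z
  · rw [map_sub, map_one, jr_a h]; exact hz (Or.inl (Or.inl rfl))
  · rw [map_sub, map_one, jr_d h]; exact hz (Or.inl (Or.inr rfl))
  · cases k with
    | inl k => rw [jr_x h]; exact hz (Or.inr (Or.inl ⟨k, rfl⟩))
    | inr k => rw [jr_x1 h]; exact zero_mem _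
  · cases k with
    | inl k => rw [jr_x h]; exact hz (Or.inr (Or.inr ⟨k, rfl⟩))
    | inr k => rw [jr_x2 h]; exact zero_mem _

theorem tau_dn (i : ι) {u : PS O (Sy ι)} (hu : u ∈ tauP G.rc id i) :
    ∃ v ∈ tauP (G.rcr r) (Sum.inl : _ → Sy (ι ⊕ Fin r) ⊕ Fin r) (Sum.inl i), jr v = u := by
  rcases hu with ((rfl | rfl) | ⟨k, rfl⟩ | ⟨k, rfl⟩)
  · exact ⟨_, Or.inl (Or.inl rfl), by rw [map_sub, map_one, jr_a h]⟩
  · exact ⟨_, Or.inl (Or.inr rfl), by rw [map_sub, map_one, jr_d h]⟩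
  · exact ⟨_, Or.inr (Or.inl ⟨Sum.inl k, rfl⟩), jr_x h _ _⟩
  · exact ⟨_, Or.inr (Or.inr ⟨Sum.inl k, rfl⟩), jr_x h _ _⟩

/-- the equations of a type, upstairs and downstairs -/
theorem ip_iff (J : Finset L.C) (p : Ideal (PS O (Sy ι))) :
    IPt (G.rcr r) Sum.inl (fun l => Sum.inl (G.iτ l)) (fun l => Sum.inl (G.iφ l)) J ≤ p.comap jr ↔
      IPt G.rc id G.iτ G.iφ J ≤ p := by
  constructor
  · intro k
    refine Ideal.span_le.2 ?_
    rintro u (⟨l, hl, rfl | rfl | rfl⟩ | ⟨l, hl, hu⟩)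
    · rw [← jr_tr h]; exact k (Ideal.subset_span (Or.inl ⟨l, hl, Or.inl rfl⟩))
    · rw [← jr_tr h]; exact k (Ideal.subset_span (Or.inl ⟨l, hl, Or.inr (Or.inl rfl)⟩))
    · rw [← jr_tr2 h]; exact k (Ideal.subset_span (Or.inl ⟨l, hl, Or.inr (Or.inr rfl)⟩))
    · obtain ⟨v, a, rfl⟩ := tau_dn h _ hu
      exact k (Ideal.subset_span (Or.inr ⟨l, hl, a⟩))
  · intro k
    refine Ideal.span_le.2 ?_
    rintro u (⟨l, hl, rfl | rfl | rfl⟩ | ⟨l, hl, hu⟩)
    · change jr _ ∈ p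
      rw [jr_tr h]; exact k (Ideal.subset_span (Or.inl ⟨l, hl, Or.inl rfl⟩))
    · change jr _ ∈ p
      rw [jr_tr h]; exact k (Ideal.subset_span (Or.inl ⟨l, hl, Or.inr (Or.inl rfl)⟩))
    · change jr _ ∈ p
      rw [jr_tr2 h]; exact k (Ideal.subset_span (Or.inl ⟨l, hl, Or.inr (Or.inr rfl)⟩))
    · exact tau_up h _ (fun v hv => k (Ideal.subset_span (Or.inr ⟨l, hl, hv⟩))) hu

end jr

theorem dim_comap {A B : Type} [CommRing A] [CommRing B] {f : A →+* B}
    (hf : Function.Surjective f) (E : Ideal B) :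
    ringKrullDim (A ⧸ E.comap f) = ringKrullDim (B ⧸ E) :=
  ringKrullDim_eq_of_ringEquiv (RingEquiv.ofBijective (Ideal.quotientMap E f le_rfl)
    ⟨Ideal.quotientMap_injective, Ideal.quotientMap_surjective hf⟩)

theorem ann_fun {P Y κ : Type} [CommRing P] [AddCommGroup Y] [Module P Y] [Nonempty κ] :
    Module.annihilator P (CharacterModule (κ → Y)) = Module.annihilator P Y := by
  rw [Pt.ann_dual]
  ext t
  rw [Module.mem_annihilator, Module.mem_annihilator]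
  exact ⟨fun h w => congrFun (h fun _ => w) (Classical.arbitrary κ),
    fun h w => funext fun k => h (w k)⟩

section mul
variable {O : Type} [CommRing O] {L : Pl O} {β : Type} {τ ι' : β → Type}

/-- the inclusion of the remaining places -/
def inc (L : Pl O) (X : Finset ℕ) (l : (subL L X).C) : L.C := ⟨l.1, (Finset.mem_sdiff.1 l.2).1⟩

theorem mem_res {X : Finset ℕ} {J : Finset L.C} {l : (subL L X).C} :
    l ∈ resJ X J ↔ inc L X l ∈ J := by
  simp [resJ, inc]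

theorem mX_eq (K : Kx O β τ ι' L.C) (X : Finset ℕ) (J : Finset L.C) :
    mX K X J = mul2 (fun l => K.a (inc L X l)) (fun l => K.a' (inc L X l)) (resJ X J) := by
  classical
  unfold mX mul2
  symm
  refine Finset.prod_bij (fun l _ => inc L X l) (fun l _ => ?_) (fun a _ b _ e => ?_)
    (fun l hl => ?_) fun l _ => ?_
  · exact Finset.mem_filter.2 ⟨Finset.mem_univ _, (Finset.mem_sdiff.1 l.2).2⟩
  · exact Subtype.ext (congrArg (fun x : L.C => (x : ℕ)) e)
  · exact ⟨⟨l.1, Finset.mem_sdiff.2 ⟨l.2, (Finset.mem_filter.1 hl).2⟩⟩, Finset.mem_univ _, rfl⟩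
  · by_cases c : l ∈ resJ X J
    · rw [if_pos c, if_pos (mem_res.1 c)]
    · rw [if_neg c, if_neg fun k => c (mem_res.2 k)]

end mul

end Vale.Agent.P022G.Fin
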