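import Vale.Agent.P022G.Rw.FinalO
import Vale.Agent.P022G.Rw.RgalA
import Vale.Agent.P022G.Mod.Sub
import Vale.Agent.P022G.Mod.Gp
import Vale.Agent.P022G.Mod.Lev

/-!
# P022G, the last step: descent, multiplicities and separation for the modules
-/

set_option linter.all false

open IsLocalRing Filter MvPowerSeries

noncomputable section

namespace Vale.Agent.P022G.Mod

open Vale.Agent.P022 Vale.Agent.P022G.R Vale.Agent.P022G.Loc
open Vale.Agent.P022E.As (Tg cc tt dd yy Lv2 mT Dia ee dl)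
open Vale.Agent.P022D.PA (Base Cv)
open Vale.Agent.P022D.As.EA (cv_const cv_add cv_sub cv_mul cv_map)
open Vale.Agent.P022D.Core (PS io y1 Coef)
open Vale.Agent.P022E.Loc (Pl)
open Vale.Agent.P022G.Pt (An Du an_of)
open Vale.Agent.P022G.Ps (HD3)

section desc
variable {O F P : Type} [CommRing O] [IsLocalRing O] [Field F] [CommRing P] [Base P]
  {ϖ : O} {S : P022E.R.Dat O F} {L : Pl O} {I : Type} {Y0 : I → Type} {W0 : Type}
  [∀ i, AddCommGroup (Y0 i)] [∀ i, Module (Tg O) (Y0 i)] [AddCommGroup W0] [Module (Tg O) W0]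
  {ses : I → I → I → Prop} {ig : I} {iJ : Finset L.C → I} {r : ℕ} {b : I → ℕ} {c : ℕ}
  {q : ℕ → Fin r → ℕ} {τ φ : ℕ → Fin r → GQ} {Yb : ℕ → I → Type} {Wc : ℕ → Type}
  [∀ n i, AddCommGroup (Yb n i)] [∀ n i, Module (Tg O) (Yb n i)] [∀ n, AddCommGroup (Wc n)]
  [∀ n, Module (Tg O) (Wc n)] {π : P} {𝔊 : ℕ → Set (Ideal (Tg O))}
  {Φ : ℕ → ∀ a : Ideal (Tg O), P →+* Tg O ⧸ a} {lam : ℕ → Tg O →+* P}

/-- **descent**: the annihilator of the module of level zero -/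
theorem Tw.desc0 {m : Ideal (Tg O)} (H : Tw m ϖ π 𝔊 Φ lam) [∀ n, Module P (Wc n)] [Module P W0]
    {n : ℕ} (V : Lv2 ϖ S L Y0 W0 ses ig iJ b c n (q n) (τ n) (φ n) (Yb n) (Wc n))
    (cW : Ac (𝔊 n) (Φ n) (Wc n)) (c0 : Ac (𝔊 n) (Φ n) W0) {t : P}
    (ht : t ∈ Module.annihilator P W0) (w : Wc n) (h1 : π ^ n • w = 0)
    (h2 : ∀ s, uu lam τ n s • w = 0) : (DD lam q φ c n * t) • w = 0 := by
  obtain ⟨s, -, a2⟩ := V.desc n le_rfl w ((H.pw cW n w).symm.trans h1) ((H.fix cW).1 h2)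
  obtain ⟨Γ, k, e⟩ := (ac_iff.1 c0).fin (H.fm n).dir (H.fm n).ne s
  obtain ⟨Γ', k', e'⟩ := (ac_iff.1 cW) w
  obtain ⟨Γ'', k'', i1, i2⟩ := (H.fm n).dir.dir Γ k Γ' k'
  obtain ⟨p, hp⟩ := (H.fm n).dir.sur _ k'' t
  have := a2 p fun v hv => (e v hv t p (i1 hp)).symm.trans (Module.mem_annihilator.1 ht v)
  rw [mul_smul, e' t p (i2 hp), DD, H.sm cW, ← mul_smul]
  exact this

/-- **separation**, abstract form -/
theorem Tw.sep0 {m : Ideal (Tg O)} (H : Tw m ϖ π 𝔊 Φ lam) {Y : ℕ → Type}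
    [∀ n, AddCommGroup (Y n)] [∀ n, Module (Tg O) (Y n)] [∀ n, Module P (Y n)]
    (cY : ∀ n, Ac (𝔊 n) (Φ n) (Y n)) (dia : ∀ n, Dia (O := O) n (τ n) (Y n))
    (U : Ultrafilter ℕ) (i : Fin r) {x a ta : P} {tn : ℕ → P} (hx : IsUnit (1 + x))
    (hy : ∀ n, lam n (yy i) = x)
    (ht : ∀ n, ∀ g ∈ 𝔊 n, Φ n g (tn n) = Ideal.Quotient.mk g (tt (τ n i)))
    (c1 : Cv (U : Filter ℕ) tn ta) (c2 : Cv (U : Filter ℕ) (fun n => uu lam τ n (Sum.inr i)) a)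
    {R : Type} [CommRing R] (ψ : P →+* R) {𝔮 : Ideal R} (hA : An U (Du Y) ≤ 𝔮.comap ψ)
    (h2 : 2 * ψ x - (ψ ta - 2) ∈ 𝔮) : ψ a ∈ 𝔮 := by
  have k : ta - (1 + x) * (2 + a) ∈ An U (Du Y) :=
    an_of U (cv_sub c1 (cv_mul (cv_const (1 + x)) (cv_add (cv_const 2) c2))) fun n w => by
      have e : (1 + x) * (2 + uu lam τ n (Sum.inr i)) =
          lam n ((1 + yy i) * (1 + ee n (τ n) i)) := by
        rw [map_mul, map_add, map_add, map_one, hy]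
        change (1 + x) * (2 + lam n (ee n (τ n) i - 1)) = _
        rw [map_sub, map_one]
        ring
      rw [e, sub_smul, (cY n).all (ht n), H.sm (cY n), ← sub_smul]
      exact rel_t (dia n) i w
  have k1 : ψ (ta - (1 + x) * (2 + a)) ∈ 𝔮 := hA k
  refine (𝔮.unit_mul_mem_iff_mem (hx.map ψ)).1 ?_
  have e : ψ (1 + x) * ψ a = -(ψ (ta - (1 + x) * (2 + a)) + (2 * ψ x - (ψ ta - 2))) := by
    simp only [map_sub, map_mul, map_add, map_one, map_ofNat]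
    ring
  rw [e]
  exact neg_mem (add_mem k1 h2)

end desc

section comb
variable {O F : Type} [CommRing O] [IsLocalRing O] [Field F] {ϖ : O} {S : Dat O F} {L : Pl O}
  {X : Finset ℕ} {β : Type} {τ ι' : β → Type} [Fintype β] [∀ b, Fintype (τ b)]
  [∀ b, Fintype (ι' b)] {K : Kx O β τ ι' L.C} {Sf : P022D.R.Dat O F} {I : Type} {Y0 : I → Type}
  {W0 : Type} [∀ i, AddCommGroup (Y0 i)] [∀ i, Module (Tg O) (Y0 i)] [AddCommGroup W0]
  [Module (Tg O) W0] {ses : I → I → I → Prop} {ig ib : I} {iJ : Finset (subL L X).C → I}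

/-- **the multiplicities** for the family with a zero module added -/
theorem combO (hK : K.Ok L S ϖ) (hD : HD3 ϖ Sf (subL L X) Y0 W0 ses ig ib iJ) (N : Option I → ℕ∞)
    (hN : ∀ i j k, sesO ses i j k → N j = N i + N k) (J : Finset L.C)
    (hJ : ∀ l ∈ J, (l : ℕ) ∉ X) : (mX K X J : ℕ∞) * N (iO X iJ J) ≤ N (some ig) := by
  rw [iO_pos hJ, Fin.mX_eq]
  exact hD.comb _ _ (fun l => (hK.ok Unit).odd (Fin.inc L X l))
    (fun l => (hK.ok Unit).odd' (Fin.inc L X l)) (fun i => N (some i))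
    (fun i j k h => hN _ _ _ ⟨i, j, k, h, rfl, rfl, rfl⟩) _

end comb

section sep
variable {O F : Type} [CommRing O] [IsDomain O] [IsDiscreteValuationRing O] [Coef O] [Field F]
  [CharP F 2] {ϖ : O} {S : Dat O F} {L : Pl O} {β : Type} {τ ι' : β → Type} [Fintype β]
  [∀ b, Fintype (τ b)] {K : Kx O β τ ι' L.C} {ι : Type} [Fintype ι] {r s : ℕ} {V : Type}
  [CommRing V] {Y : Pc (S := S) (ι := ι) K r s V}

/-- the universal traces of the inertia elements act as the symbols -/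
theorem Fc.tn (H : Fc ϖ S L) (hY : Y.Ok) (n : ℕ) (i : Fin r) (g : Ideal (Tg O))
    (hg : g ∈ GP S L (Finset.univ.image (Y.q n)) r) :
    Ph (Y.G'.vP (Y.τ' n)) g (io O _ r (Y.tn n i)) = Ideal.Quotient.mk g (tt (Y.τq n i)) ∧
    Ph (Y.G'.vP (Y.τ' n)) g (io O _ r (Y.dn n i)) = Ideal.Quotient.mk g (dd (Y.τq n i)) := by
  have k := H.hmq Y.G' (hY.gn n) hg
  rcases hg with rfl | ⟨Z, a1, a2, -, -⟩
  · exact ⟨Subsingleton.elim _ _, Subsingleton.elim _ _⟩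
  have := hY.tn n i _ Z ((Ph (Y.G'.vP (Y.τ' n)) g).comp (io O _ r)) a2
    ⟨fun o => (congrArg _ (MvPowerSeries.rename_C _ _)).trans ((k.c o).trans (a1.c o)),
      fun z => (congrArg _ (MvPowerSeries.rename_X _ _)).trans
        ((k.x (Sum.inl z)).trans (H.val a1 _ _ z))⟩
  exact ⟨this.1.trans (a1.t _).symm, this.2.trans (a1.d _).symm⟩

/-- **separation at a curve** -/
theorem Fc.sep [Base (PP O ι r)] (H : Fc ϖ S L) (hY : Y.Ok) {m : Ideal (Tg O)}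
    {lam : ℕ → Tg O →+* PP O ι r}
    (T : Tw m ϖ (C ϖ) (fun n => GP S L (Finset.univ.image (Y.q n)) r)
      (fun n => Ph (Y.G'.vP (Y.τ' n))) lam)
    (hy : ∀ n (i : Fin r), lam n (yy i) = X (Sum.inr i)) {M : ℕ → Type}
    [∀ n, AddCommGroup (M n)] [∀ n, Module (Tg O) (M n)] [∀ n, Module (PP O ι r) (M n)]
    (cM : ∀ n, Ac (GP S L (Finset.univ.image (Y.q n)) r) (Ph (Y.G'.vP (Y.τ' n))) (M n))
    (dia : ∀ n, Dia (O := O) n (Y.τq n) (M n)) {a : Fin r ⊕ Fin r → PP O ι r}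
    (ha : ∀ i, Cv (Y.U : Filter ℕ) (fun n => uu lam Y.τq n i) (a i)) (i : Fin r)
    (𝔮 : Ideal (S1 O τ L ι S.T r)) (hA : An Y.U (Du M) ≤ 𝔮.comap (Y.rd ϖ).ψ)
    (h2 : 2 * (Y.rd ϖ).y i - io O _ r ((Y.rd ϖ).α i) ∈ 𝔮) :
    ∃ j, (Y.rd ϖ).ψ (a j) ∈ 𝔮 := by
  refine ⟨Sum.inr i, T.sep0 (τ := Y.τq) cM dia Y.U i (x := X (Sum.inr i)) (ta := io O _ r (Y.ta i))
    (tn := fun n => io O _ r (Y.tn n i)) ?_ (fun n => hy n i)
    (fun n g hg => (H.tn hY n i g hg).1) (cv_map _ (Rg.io_max _ r) (hY.cvt i)) (ha _) _ hA ?_⟩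
  · rw [MvPowerSeries.isUnit_iff_constantCoeff, map_add, map_one, constantCoeff_X, add_zero]
    exact isUnit_one
  · have e1 : (Y.rd ϖ).ψ (X (Sum.inr i)) = (Y.rd ϖ).y i := Rg.p1y i
    have e2 : (Y.rd ϖ).ψ (io O _ r (Y.ta i)) - 2 = io O _ r ((Y.rd ϖ).α i) := by
      change ψ1 S L τ ι r _ - 2 = io O _ r (ψ0 S L τ ι r (Y.ta i) - 2)
      rw [Rg.p1io, map_sub, map_ofNat]
    rw [e1, e2]
    exact h2

end sep

end Vale.Agent.P022G.Mod
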