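import Vale.Agent.P022G.Rw.FinalO
import Vale.Agent.P022G.Rw.CrvPkgH88
import Vale.Agent.P022G.Mod.Pkg
import Vale.Agent.P022G.Mod.Sub

/-!
# P022G: the last step
-/

set_option linter.all false

noncomputable section

namespace Vale.Agent.P022G.Fin

open IsLocalRing Filter MvPowerSeries
open Vale.Agent.P022 Vale.Agent.P022G.R Vale.Agent.P022G.Loc Vale.Agent.P022G.Mod
open Vale.Agent.P022D.PA (Cv Base lim)
open Vale.Agent.P022D.Core (PS io y1 Coef)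
open Vale.Agent.P022E.Loc (Pl)
open Vale.Agent.P022E.As (Tg cc tt dd yy mT)
open Vale.Agent.P022F.End0 (evt)
open Vale.Agent.P022G.Pt (An Du DM DF MD)

theorem two_mod {P T : Type} [CommRing P] [IsLocalRing P] [CommRing T] {𝔊 : Set (Ideal T)}
    {Φ : ∀ a : Ideal T, P →+* T ⧸ a} {m : Ideal T} {Y Y' : Type} [AddCommGroup Y] [Module T Y]
    [AddCommGroup Y'] [Module T Y'] [Module P Y] [Module P Y'] (h : Fm 𝔊 Φ m) (c : Ac 𝔊 Φ Y)
    (c' : Ac 𝔊 Φ Y') (s : Finset Y) (w : Y') (f : P) :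
    ∃ t : T, (∀ v ∈ s, f • v = t • v) ∧ f • w = t • w := by
  obtain ⟨Γ, k, e⟩ := (ac_iff.1 c).fin h.dir h.ne s
  obtain ⟨a, ha, r⟩ := c' w
  obtain ⟨Γ', k', i1, i2⟩ := h.dir.dir Γ k _ ⟨a, ha, rfl⟩
  obtain ⟨t, ht⟩ := h.dir.sur _ k' f
  exact ⟨t, fun v hv => e v hv f t (i1 ht), r f t (i2 ht)⟩

theorem final2C (hP : POV) (hW : GPW) (hO : GPO) (hA : KDA) (hV : RCOV) (hR : ROK) (h0 : RGAL0)
    (hF : RFIN) (hG : RGAL) (hK : CPK) : FINAL2 := by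
  intro O F _ _ _ _ _ _ _ ϖ S L X as β τ ι' _ _ _ K ι _ G hϖ hC kK hE Sf I Y0 W0 _ _ _ _ ses ig ib
    iJ e1 e2 hD Z p z1 z2 z3 z4 z5 hp z6 z7
  classical
  have hT : Sf.T ⊆ S.T := e1 ▸ Finset.sdiff_subset
  have H := fc_of hP hW hO O F ϖ S L X as β τ ι' K ι G hϖ hC kK
  obtain ⟨r, s, V, _, _, _, _, _, _, Y, ht, rfl, hY, rfl, b, c, φ, Yb, Wc, Pb, _, _, _, _, _, _,
    V0, -, -, hφ⟩ := hK O F ϖ S L X as β τ ι' K ι G hϖ hC kK hE (subL L X) Sf I Y0 W0 ses ig ib iJ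
    hT e2 hD p hp ((hA O F ϖ S L X as β τ ι' K ι G hϖ hC kK).1.trans (z2.trans z5)) z6 z7
  haveI : Base (PP O ι r) := P022D.As.base O _
  letI : Algebra (S0 O τ L ι S.T r) (S1 O τ L ι S.T r) := (io O _ r).toAlgebra
  have hq : ∀ n i, Y.q n i ∉ X := fun n i k => (hY.gn n i).1 (by
    rw [hC.cx.ok.hT]
    exact Finset.mem_insert_of_mem (Finset.mem_insert_of_mem
      (Finset.mem_union_right _ (hC.cx.sub k))))
  have V1 := fun n => lv_sub hC.cx e1 hT (hq n) (V0 n)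
  obtain ⟨lam, A⟩ := ex_la H hY
  have gY := fun n o => H.gd ((V1 n).gm o)
  have gW := fun n => H.gd (V1 n).gmC
  choose iY cY using fun n o => A.mod n (gY n o)
  choose iW cW using fun n => A.mod n (gW n)
  choose i0 c0 a0 using fun o => A.mod0 (H.gd (gm0_sub hC.cx (e1 ▸ hD.gm0) o))
  obtain ⟨iZ, cZ, aZ⟩ := A.mod0 (H.gd (gm_sub hC.cx (fun _ _ => Finset.notMem_empty _)
    (e1 ▸ hD.gmW)))
  have dm := A.tw.dm V1 (sb0_sub hD.sb0) cY fun n o => c0 o n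
  have df := A.tw.df V1 cY cW
  choose a ha using fun i => lim (PP O ι r) Y.U fun n => uu lam Y.τq n i
  obtain ⟨d, hd⟩ := lim (PP O ι r) Y.U (Mod.DD lam Y.q φ c)
  have rg := hG O F ϖ S L X as β τ ι' K ι Y.G' hϖ hC kK r s V Y ht rfl hY
  have md := dm.md (X := Y.rd ϖ) (iJ := iO X iJ) hY.hU ha hd
    (fun k => (((A.dp hφ hd).map (Y.rd ϖ).ψ).map Y.θ).ne_zero k) A.ue
    (by
      have := Finset.card_pos.2 ⟨_, S.hl0⟩
      change 4 * S.T.card + 2 * r + 1 = 4 * S.T.card - 1 + _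
      rw [Fintype.card_sum, Fintype.card_fin]
      omega)
    (fun J => (rg _ _ (A.gal (fun n => cY n _) (fun n => (V1 n).dia _) (fun n => gY n _) ∅
      (fun _ h => h.elim) fun _ h => h.elim)).1)
    (fun J l hl t k n w => A.unr (cY n _) (gY n _) l ((V1 n).unr J l hl) t k w)
    ⟨c, fun J l hl n w => (A.new (cY n _) l c w).trans ((V1 n).new J l hl w)⟩
  have gal := (rg _ _ (A.gal cW (fun n => (V1 n).diaC) gW
    {t | ∃ l ∈ X, ∃ g, t = tt (g * L.τ l) - tt g} (by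
      rintro _ ⟨l, hl, g, rfl⟩
      have hm : l ∈ L.W ∪ L.C := Finset.mem_union_right _ (hC.cx.sub hl)
      rw [H.mem_mT, map_sub, evt, evt, map_mul, hC.cx.unr l (H.ok.pr l hm).1 (Or.inr hl) _
        (H.ok.hP l hm).1 (H.ok.hP l hm).2 _ (H.ok.tm l hm).tau, mul_one, sub_self, map_zero]) (by
      rintro _ ⟨l, hl, g, rfl⟩ n w
      refine (Ideal.mem_torsionOf_iff _ _).1 (gw_unr hC.cx (fun l hl k => ?_)
        (e1 ▸ (V0 n).gmC w) l hl g)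
      obtain ⟨i, -, rfl⟩ := Finset.mem_image.1 k
      exact hq n i hl))).2.2 fun a h l hl g => h _ ⟨l, hl, g, rfl⟩
  obtain ⟨J, j1, j2, j3⟩ := out hA hV hR h0 hF O F ϖ S L X as β τ ι' K ι Y.G' hϖ hC kK r s V Y ht
    rfl hY _ _ _ a _ d _ _ _ (iO X iJ) (some ig) Wc dm df md gal
    (fun N hN J hJ => by
      rw [iO_pos hJ, mX_eq]
      exact hD.comb _ _ (fun l => (kK.ok Empty).odd (inc L X l))
        (fun l => (kK.ok Empty).odd' (inc L X l)) (fun i => N (some i))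
        (fun i j k h => hN _ _ _ ⟨i, j, k, h, rfl, rfl, rfl⟩) _)
    ⟨Finset.univ.map Function.Embedding.inr, c, fun n => by
      rw [Finset.prod_map]
      exact A.tw.cyc (Yb := fun n => Op (Yb n)) (q := Y.q) (φ := φ) (V1 n) (cW n)⟩
    (fun J i 𝔮 k1 k2 k3 => ⟨_, A.sep (fun n => cY n _) (fun n => (V1 n).dia _) ha i 𝔮 k1.pr k2 k3⟩)
    Z z1 z2 z3 z4 z5 z6
  refine ⟨J, j1, j2, fun E k1 k2 k3 f hf => ?_⟩
  obtain ⟨t, rfl⟩ := (hV O F ϖ S L X as β τ ι' K ι Y.G' hϖ hC kK r s V Y ht rfl hY).2.2.2.2.1 f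
  refine j3 E k1 k2 (by
    rw [ann_pi, a0, iO_pos j2]
    exact Ideal.comap_mono k3) t fun n w h1 h2 => ?_
  obtain ⟨s', s1, s2⟩ := (V1 n).desc n le_rfl w ((A.tw.pw (cW n) n w).symm.trans h1)
    ((A.tw.fix (cW n)).1 h2)
  obtain ⟨x, x1, x2⟩ := two_mod (A.tw.fm n) (cZ n) (cW n) s' w t
  rw [mul_smul, x2, Mod.DD, A.tw.sm (cW n), ← mul_smul]
  exact s2 x fun v hv => (x1 v hv).symm.trans
    (Module.mem_annihilator.1 (aZ.ge (Ideal.mem_comap.2 hf)) v)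

end Vale.Agent.P022G.Fin
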