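import Vale.Agent.P022G.Mod.Pkg
import Vale.Agent.P022G.Mod.Sub
import Vale.Agent.P022G.Rw.FinalO
import Vale.Agent.P022G.Rw.CrvPkgH88

/-!
# P022G: the last step
-/

set_option linter.all false

noncomputable section

namespace Vale.Agent.P022G.H12

open IsLocalRing MvPowerSeries Filter
open Vale.Agent.P022 Vale.Agent.P022G.R Vale.Agent.P022G.Loc Vale.Agent.P022G.Pt
open Vale.Agent.P022G.Mod
open Vale.Agent.P027M.S (mx)
open Vale.Agent.P022D.Core (PS io y1 Coef)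
open Vale.Agent.P022D.PA (Base lim)
open Vale.Agent.P022E.Loc (Pl)
open Vale.Agent.P022E.As (Tg tt cc mT)
open Vale.Agent.P022F.End0 (evt)
open Ideal (torsionOf mem_torsionOf_iff)

/-- one symbol for an element of one module and finitely many elements of another one -/
theorem two_sym {P T : Type} [CommRing P] [IsLocalRing P] [CommRing T] {𝔊 : Set (Ideal T)}
    {Φ : ∀ a : Ideal T, P →+* T ⧸ a} {m : Ideal T} (h : Fm 𝔊 Φ m) {Y Y' : Type} [AddCommGroup Y]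
    [Module T Y] [Module P Y] [AddCommGroup Y'] [Module T Y'] [Module P Y'] (c : Ac 𝔊 Φ Y)
    (c' : Ac 𝔊 Φ Y') (g : Gd 𝔊 Y) (g' : Gd 𝔊 Y') (w : Y) (s : Finset Y') (f : P) :
    ∃ t : T, f • w = t • w ∧ ∀ v ∈ s, f • v = t • v := by
  classical
  have k : ∃ a ∈ 𝔊, (∀ t ∈ a, t • w = 0) ∧ ∀ v ∈ s, ∀ t ∈ a, t • v = 0 := by
    induction s using Finset.induction_on with
    | empty => exact ⟨_, g w, fun t ht => (mem_torsionOf_iff _ _).1 ht, by simp⟩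
    | insert v s _ ih =>
      obtain ⟨a, ha, a1, a2⟩ := ih
      refine ⟨_, h.inf _ ha _ (g' v), fun t ht => a1 t ht.1, fun v' hv t ht => ?_⟩
      rcases Finset.mem_insert.1 hv with rfl | hv
      exacts [(mem_torsionOf_iff _ _).1 ht.2, a2 v' hv t ht.1]
  obtain ⟨a, ha, a1, a2⟩ := k
  obtain ⟨t, ht⟩ := Ideal.Quotient.mk_surjective (Φ a f)
  exact ⟨t, h.act c ha a1 ht.symm, fun v hv => h.act c' ha (a2 v hv) ht.symm⟩

theorem final2C (h0 : CPK) (h1 : POV) (h2 : GPW) (h3 : GPO) (h4 : RGAL) (h5 : KDA) (h6 : RCOV)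
    (h7 : Fin.OUT) : FINAL2 := by
  intro O F _ _ _ _ _ _ _ ϖ S L X as β τ ι' _ _ _ K ι _ G hϖ hC hK hE Sf I Y0 W0 _ _ _ _ ses ig ib
    iJ e1 e2 hD Z p z1 z2 z3 z4 z5 hp z6 z7
  classical
  have hT : Sf.T ⊆ S.T := e1 ▸ Finset.sdiff_subset
  have ka := (h5 O F ϖ S L X as β τ ι' K ι G hϖ hC hK).1
  obtain ⟨r, s, V, _, _, _, _, _, _, Y, b1, rfl, b3, rfl, b, c, φ, Yb, Wc, Pb, _, _, _, _, _, _, k1,
    -, -, k4⟩ := h0 O F ϖ S L X as β τ ι' K ι G hϖ hC hK hE (subL L X) Sf I Y0 W0 ses ig ib iJ hT e2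
      hD p hp (ka.trans (z2.trans z5)) z6 z7
  haveI := P022D.As.base O (Sy (ι ⊕ Fin r) ⊕ Fin r)
  letI : Algebra (S0 O τ L ι S.T r) (S1 O τ L ι S.T r) := (io O _ r).toAlgebra
  have H : Fc ϖ S L := fc_of h1 h2 h3 O F ϖ S L X as β τ ι' K ι Y.G' hϖ hC hK
  obtain ⟨lam, A⟩ := ex_la H b3
  have hq : ∀ n i, Y.q n i ∉ X := fun n i k => (b3.gn n i).1 (by
    rw [hC.cx.ok.hT]
    exact Finset.mem_insert_of_mem (Finset.mem_insert_of_mem
      (Finset.mem_union_right _ (hC.cx.sub k))))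
  have hQ : ∀ n, ∀ l ∈ X, l ∉ Finset.univ.image (Y.q n) := fun n l hl k => by
    obtain ⟨i, -, rfl⟩ := Finset.mem_image.1 k
    exact hq n i hl
  have V' := fun n => lv_sub hC.cx e1 hT (hq n) (k1 n)
  have g1 : ∀ n i, Gd (gg Y n) (Op (Yb n) i) := fun n i => H.gd ((V' n).gm i)
  have g2 : ∀ n, Gd (gg Y n) (Wc n) := fun n => H.gd (V' n).gmC
  have g3 : Gd (GP S L ∅ 0) W0 :=
    H.gd (gm_sub hC.cx (fun _ _ => Finset.notMem_empty _) (e1 ▸ hD.gmW))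
  choose m1 c1 using fun n i => A.mod n (g1 n i)
  choose m2 c2 using fun n => A.mod n (g2 n)
  choose m0 c0 an0 using fun i => A.mod0 (H.gd (gm0_sub hC.cx (e1 ▸ hD.gm0) i))
  obtain ⟨mW, cW, anW⟩ := A.mod0 g3
  have dm := A.tw.dm (L := L) V' (sb0_sub hD.sb0) c1 fun n i => c0 i n
  have df := A.tw.df (L := L) V' c1 c2
  choose a ha using fun i => lim _ Y.U fun n => uu lam Y.τq n i
  obtain ⟨d, hd⟩ := lim _ Y.U (Mod.DD lam Y.q φ c)
  have RG := h4 O F ϖ S L X as β τ ι' K ι _ hϖ hC hK r s V Y b1 rfl b3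
  obtain ⟨-, -, -, v1, v2, -⟩ := h6 O F ϖ S L X as β τ ι' K ι _ hϖ hC hK r s V Y b1 rfl b3
  have md := DM.md (X := Y.rd ϖ) (iJ := iO X iJ) dm b3.hU ha hd
    (fun k => by
      rw [v1] at k
      exact (Ideal.comap_ne_top _ hp.1.ne_top) (Ideal.eq_top_of_isUnit_mem _ k (A.dp k4 hd)))
    A.ue (by
      have : 0 < S.T.card := Finset.card_pos.2 ⟨0, by rw [hC.cx.ok.hT]; simp⟩
      change 4 * S.T.card + 2 * r + 1 = 4 * S.T.card - 1 + (Fintype.card (Fin r ⊕ Fin r) + 2)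
      rw [Fintype.card_sum, Fintype.card_fin]
      omega)
    (fun J => (RG _ (fun _ => True) fun n k => (A.gal (fun n => c1 n _) (fun n => (V' n).dia _)
      (fun n => g1 n _) ∅ (by simp) (by simp) n k).imp fun x hx =>
        ⟨hx.1, trivial, hx.2.2⟩).1)
    (fun J l hl t ht n w => A.unr (c1 n _) (g1 n _) l ((V' n).unr J l hl) t ht w)
    ⟨c, fun J l hl n w => (A.new (c1 n _) l c w).trans ((V' n).new J l hl w)⟩
  have gal := (RG (Du Wc) (fun x => ∀ t ∈ {t | ∃ l ∈ X, ∃ g, t = (tt (g * L.τ l) - tt g : Tg O)},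
      t ∈ x) (A.gal c2 (fun n => (V' n).diaC) g2 _ (by
        rintro _ ⟨l, hl, g, rfl⟩
        have hm : l ∈ L.W ∪ L.C := Finset.mem_union_right _ (hC.cx.sub hl)
        rw [H.mem_mT, map_sub, evt, evt, map_mul, hC.cx.unr l (hC.cx.ok.pr l hm).1 (Or.inr hl) _
          (hC.cx.ok.hP l hm).1 (hC.cx.ok.hP l hm).2 _ (hC.cx.ok.tm l hm).tau, mul_one, sub_self,
          map_zero]) (by
        rintro _ ⟨l, hl, g, rfl⟩ n w
        exact (mem_torsionOf_iff _ _).1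
          (gw_unr hC.cx (hQ n) (e1 ▸ (k1 n).gmC w) l hl g)))).2.2
    fun x hx l hl g => hx _ ⟨l, hl, g, rfl⟩
  obtain ⟨J, j1, j2, j3⟩ := h7 O F ϖ S L X as β τ ι' K ι _ hϖ hC hK r s V Y b1 rfl b3 _ _ _ a _ d _ _
    _ (iO X iJ) (some ig) Wc dm df md gal
    (fun N hN J hJ => by
      rw [iO_pos hJ, Fin.mX_eq]
      exact hD.comb _ _ (fun l => (hK.ok Unit).odd (Fin.inc L X l))
        (fun l => (hK.ok Unit).odd' (Fin.inc L X l)) (fun i => N (some i))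
        (fun i j k h => hN _ _ _ ⟨i, j, k, h, rfl, rfl, rfl⟩) _)
    ⟨Finset.univ.map Function.Embedding.inr, c, fun n => by
      rw [Finset.prod_map]
      exact A.tw.cyc (L := L) (q := Y.q) (φ := φ) (Yb := fun n => Op (Yb n)) (V' n) (c2 n)⟩
    (fun J q 𝔮 hq k1 k2 => ⟨_, A.sep (fun n => c1 n _) (fun n => (V' n).dia _) ha q 𝔮 hq.pr k1 k2⟩)
    Z z1 z2 z3 z4 z5 z6
  refine ⟨J, j1, j2, fun E k2 k3 k5 f hf => ?_⟩
  obtain ⟨t, rfl⟩ := v2 f
  refine j3 E k2 k3 ?_ t fun n w w1 w2 => ?_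
  · rw [ann_pi, an0, iO_pos j2]
    exact Ideal.comap_mono k5
  · obtain ⟨u, u1, u2⟩ := (V' n).desc n le_rfl w ((A.tw.pw (c2 n) n w).symm.trans w1)
      ((A.tw.fix (c2 n)).1 w2)
    obtain ⟨x, x1, x2⟩ := two_sym (A.tw.fm n) (c2 n) (cW n) (g2 n)
      (fun v => (A.base n (g3 v)).1) w u t
    have ht : t ∈ Module.annihilator (PP O ι r) W0 := by rw [anW]; exact hf
    rw [mul_smul, x1, Mod.DD, A.tw.sm (c2 n), ← mul_smul]
    exact u2 x fun v hv => (x2 v hv).symm.trans (Module.mem_annihilator.1 ht v)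

end Vale.Agent.P022G.H12
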