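import Vale.Agent.P022G.Rows
import Vale.Agent.P022G.Sel.Finr
import Vale.Agent.P022G.Sel.TauR
import Vale.Agent.P022D.L2.Rel

/-!
# P022G: row GENS
-/

set_option linter.all false

noncomputable section

namespace Vale.Agent.P022G.H12

open NumberField
open Vale.Agent.P022 Vale.Agent.P022G.R Vale.Agent.P022G.Loc
open Vale.Agent.P027M.S (Inert mx)
open Vale.Agent.P022E.Loc (Pl)
open Vale.Agent.P022E.GW (Ov Gn Op Ur)

section
variable {O F : Type} [CommRing O] [Field F]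

theorem gen_of' (S : Dat O F) (T : Finset ℕ) (hT : S.T ⊆ T) (h2 : 2 ∈ T)
    (hu : ∀ l ∉ T, ∀ P : Ideal (𝓞 Qb), Ov l P → ∀ s, Inert P s → S.rb s = 1)
    (U : Subgroup GQ) (hle : U ≤ S.rb.ker)
    (hU : ∀ (M : Type) [AddCommGroup M], (∀ x : M, 2 • x = 0) → ∀ c : GQ → M,
      (∀ g ∈ S.rb.ker, ∀ h ∈ S.rb.ker, c (g * h) = c g + c h) → Op c → Ur T c →
        ∀ g ∈ U, c g = 0)
    (Q : Finset ℕ) {ι : Type} (γ : ι → GQ) (hγ : ∀ g, ∃ i, ∃ u ∈ U, g = γ i * u)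
    (hτ : ∀ q ∈ Q, q ∉ S.T → ∃ i P, Ov q P ∧ Gn q P (γ i)) : Gen S Q γ := by
  classical
  intro Γ _ _ f ho htwo hun
  let H : Subgroup Γ := Subgroup.closure (Set.range fun i => f (γ i))
  have hH : ∀ i, f (γ i) ∈ H := fun i => Subgroup.subset_closure ⟨i, rfl⟩
  let N : Subgroup Γ := S.rb.ker.map f
  have hN : IsPGroup 2 N := by
    rintro ⟨_, g, hg, rfl⟩
    obtain ⟨k, hk⟩ := htwo g hg
    exact ⟨k, Subtype.ext hk⟩
  suffices key : N ≤ H by
    intro g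
    obtain ⟨i, u, h1, rfl⟩ := hγ g
    rw [map_mul]
    exact H.mul_mem (hH i) (key ⟨u, hle h1, rfl⟩)
  by_contra hn
  have hne : H.subgroupOf N ≠ ⊤ := fun e => hn (Subgroup.subgroupOf_eq_top.1 e)
  obtain ⟨M, hM, hHM⟩ := (eq_top_or_exists_le_coatom (H.subgroupOf N)).resolve_left hne
  have hi : M.index = 2 := P022D.L2.RelP.idx hN hM
  have nr : ∀ t, ∀ g ∈ S.rb.ker, t * g * t⁻¹ ∈ S.rb.ker := fun t g hg =>
    (MonoidHom.normal_ker S.rb).conj_mem g hg t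
  let χ : GQ → ZMod 2 := fun g =>
    if h : g ∈ S.rb.ker then (if (⟨f g, g, h, rfl⟩ : N) ∈ M then 0 else 1) else 0
  have χ0 : ∀ g (h : g ∈ S.rb.ker), χ g = 0 ↔ (⟨f g, g, h, rfl⟩ : N) ∈ M := fun g h => by
    simp only [χ, dif_pos h]
    split_ifs with k
    · exact iff_of_true rfl k
    · exact iff_of_false (by decide) k
  have χa : ∀ g ∈ S.rb.ker, ∀ h ∈ S.rb.ker, χ (g * h) = χ g + χ h := fun g hg h hh => by
    have e : (⟨f (g * h), g * h, mul_mem hg hh, rfl⟩ : N) =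
        ⟨f g, g, hg, rfl⟩ * ⟨f h, h, hh, rfl⟩ := Subtype.ext (map_mul f g h)
    have e2 := Subgroup.mul_mem_iff_of_index_two hi (a := (⟨f g, g, hg, rfl⟩ : N))
      (b := ⟨f h, h, hh, rfl⟩)
    rw [← e, ← χ0 _ (mul_mem hg hh), ← χ0 g hg, ← χ0 h hh] at e2
    revert e2
    generalize χ (g * h) = x
    generalize χ g = y
    generalize χ h = z
    revert x y z
    decide
  have χH : ∀ g ∈ S.rb.ker, f g ∈ H → χ g = 0 := fun g hg h => (χ0 g hg).2 (hHM h)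
  let c : GQ → ({t : GQ // f t ∈ H} → ZMod 2) := fun g t =>
    if g ∈ S.rb.ker then χ (t.1 * g * t.1⁻¹) else 0
  have cv : ∀ g ∈ S.rb.ker, ∀ t, c g t = χ (t.1 * g * t.1⁻¹) := fun g hg t => if_pos hg
  have ca : ∀ g ∈ S.rb.ker, ∀ h ∈ S.rb.ker, c (g * h) = c g + c h := fun g hg h hh => by
    funext t
    simp only [c, Pi.add_apply, if_pos hg, if_pos hh, if_pos (mul_mem hg hh)]
    rw [← χa _ (nr _ _ hg) _ (nr _ _ hh)]
    congr 1
    group
  have cH : ∀ g, f g ∈ H → c g = 0 := fun g h => by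
    funext t
    simp only [c, Pi.zero_apply]
    split_ifs with hg
    · refine χH _ (nr _ _ hg) ?_
      rw [map_mul, map_mul, map_inv]
      exact H.mul_mem (H.mul_mem t.2 h) (H.inv_mem t.2)
    · rfl
  have c1 : c 1 = 0 := cH 1 (by rw [map_one]; exact H.one_mem)
  have t2 : ∀ x : {t : GQ // f t ∈ H} → ZMod 2, x + x = 0 := fun x => by
    funext t
    exact CharTwo.add_self_eq_zero _
  have cj : ∀ t, ∀ g ∈ S.rb.ker, c g = 0 → c (t * g * t⁻¹) = 0 := fun t g hg h => by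
    obtain ⟨i, u, h1, rfl⟩ := hγ t
    have hu' := hle h1
    have e1 : c (u * g * u⁻¹) = 0 := by
      have e2 := ca u hu' u⁻¹ (inv_mem hu')
      rw [mul_inv_cancel, c1] at e2
      rw [ca _ (mul_mem hu' hg) _ (inv_mem hu'), ca _ hu' _ hg, h, add_zero, ← e2]
    funext t
    have e3 := (cv _ (nr u g hg) ⟨t.1 * γ i, by
      rw [map_mul]; exact H.mul_mem t.2 (hH i)⟩).symm.trans (congrFun e1 _)
    rw [cv _ (nr _ g hg)]
    refine Eq.trans (congrArg χ ?_) e3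
    group
  have co : Op c := ⟨f.ker, ho, fun g hg => cH g (by rw [MonoidHom.mem_ker.1 hg]; exact H.one_mem)⟩
  have cu : Ur T c := fun l hl P hP s hs => by
    by_cases hq : l ∈ Q
    · obtain ⟨i, P₀, h1, h3⟩ := hτ l hq fun e => hl (hT e)
      obtain ⟨t, rfl⟩ := P022E.GW.Tg.trans h1 hP
      have k := P022E.GW.Tg.inert_conj hs
      obtain ⟨n, e, -⟩ := _root_.P022G.Sel.H9.mult t2 h1 (fun e => hl (e ▸ h2)) h3 (a := c)
        (fun s hs t ht => ca s (hu l hl _ h1 s hs) t (hu l hl _ h1 t ht))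
        (co.imp fun V hV => ⟨hV.1, fun σ m _ => hV.2 σ m⟩) k
      rw [cH _ (hH i), smul_zero] at e
      have := cj t _ (hu l hl _ h1 _ k) e
      rwa [show t * (t⁻¹ * s * t) * t⁻¹ = s by group] at this
    · exact cH s (by rw [hun l hP.1 (fun e => hl (hT e)) hq P hP.2.1 hP.2.2 s hs]; exact H.one_mem)
  have cU := hU _ (fun x => by rw [two_nsmul, t2]) c ca co cu
  refine hM.1 (eq_top_iff.2 ?_)
  rintro ⟨_, g, hg, rfl⟩ -
  obtain ⟨i, u, h1, rfl⟩ := hγ g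
  have hi' : γ i ∈ S.rb.ker := (S.rb.ker.mul_mem_cancel_right (hle h1)).1 hg
  have e := ca _ hi' _ (hle h1)
  rw [cH _ (hH i), cU u h1, add_zero] at e
  have e2 := (cv _ hg ⟨1, by rw [map_one]; exact H.one_mem⟩).symm.trans (congrFun e _)
  simp only [Pi.zero_apply, one_mul, inv_one, mul_one] at e2
  exact (χ0 _ hg).1 e2

end

/-- **generators exist** -/
theorem gensC : GENS := by
  intro O F _ _ _ _ _ S L κ _ gk hL
  classical
  obtain ⟨R, -, hR⟩ := P022E.GW.Hy.ex_ram (U := S.rb.ker) hL.dh.opn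
  obtain ⟨U, h1, hle, hU⟩ := _root_.P022G.Sel.Finr.ex_U (H := S.rb.ker) hL.dh.opn (S.T ∪ R)
  haveI := H916.isGalois_Qb
  haveI : Finite (GQ ⧸ U) := Subgroup.quotient_finite_of_isOpen U h1
  haveI := Fintype.ofFinite (GQ ⧸ U)
  have h2 : 2 ∈ S.T := by
    rw [hL.hT]
    simp
  refine ⟨(Fin 2 ⊕ L.C ⊕ L.C) ⊕ κ ⊕ (GQ ⧸ U), inferInstance,
    ⟨⟨Sum.elim (Sum.elim ![S.g0, L.c] (Sum.elim (fun l => L.τ l) fun l => L.φ l))
      (Sum.elim gk Quotient.out), Sum.inl (Sum.inl 0), Sum.inl (Sum.inl 1),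
      fun l => Sum.inl (Sum.inr (Sum.inl l)), fun l => Sum.inl (Sum.inr (Sum.inr l)),
      fun t => Sum.inr (Sum.inl t), rfl, rfl, fun _ => rfl, fun _ => rfl, fun _ => rfl, ?_,
      fun r q τ' h => gen_of' S (S.T ∪ R) Finset.subset_union_left (Finset.mem_union_left _ h2)
        (fun l hl => hR l fun e => hl (Finset.mem_union_right _ e)) U hle hU _ _ (fun g => ?_) fun l hl _ => ?_⟩⟩⟩
  · have : (Sum.elim ![Sum.inl (Sum.inl 0), Sum.inl (Sum.inl 1)]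
        (Sum.elim (fun l => Sum.inl (Sum.inr (Sum.inl l))) fun l => Sum.inl (Sum.inr (Sum.inr l))) :
          Fin 2 ⊕ L.C ⊕ L.C → (Fin 2 ⊕ L.C ⊕ L.C) ⊕ κ ⊕ (GQ ⧸ U)) = Sum.inl := by
      funext x
      rcases x with x | x | x
      · fin_cases x <;> rfl
      · rfl
      · rfl
    rw [this]
    exact Sum.inl_injective
  · obtain ⟨u, hu⟩ := QuotientGroup.mk_out_eq_mul U g
    refine ⟨Sum.inl (Sum.inr (Sum.inr (QuotientGroup.mk g))), u⁻¹, U.inv_mem u.2, ?_⟩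
    show g = (QuotientGroup.mk g : GQ ⧸ U).out * _
    rw [hu, mul_inv_cancel_right]
  · obtain ⟨i, -, rfl⟩ := Finset.mem_image.1 hl
    obtain ⟨P, k1, k2⟩ := (h i).2
    exact ⟨Sum.inr i, P, k1, k2⟩

end Vale.Agent.P022G.H12
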