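import Vale.Agent.P022R.Sec

/-!
# P022G: a finite local ring over which a matrix of rank one splits
-/

set_option linter.all false

noncomputable section

namespace Vale.Agent.P022G.KdaH82

open MvPolynomial

variable {Γ B F : Type} [CommRing B] [Field F]

theorem dec (Γ' : Type) [Fintype Γ'] (q : MvPolynomial (Γ ⊕ Γ') B) :
    ∃ (p : MvPolynomial Γ B) (c : Γ' → MvPolynomial (Γ ⊕ Γ') B),
      q = rename Sum.inl p + ∑ j, X (Sum.inr j) * c j := by
  classical
  induction q using MvPolynomial.induction_on with
  | C a => exact ⟨C a, 0, by simp⟩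
  | add p q hp hq =>
    obtain ⟨a, c, rfl⟩ := hp
    obtain ⟨a', c', rfl⟩ := hq
    refine ⟨a + a', c + c', ?_⟩
    simp only [map_add, Pi.add_apply, mul_add, Finset.sum_add_distrib]
    ring
  | mul_X p s hp =>
    rcases s with i | j
    · obtain ⟨a, c, rfl⟩ := hp
      refine ⟨a * X i, fun j => c j * X (Sum.inl i), ?_⟩
      simp only [map_mul, rename_X, add_mul, Finset.sum_mul, mul_assoc]
    · refine ⟨0, Pi.single j p, ?_⟩
      rw [map_zero, zero_add, Finset.sum_eq_single j]
      · simp [mul_comm]
      · intro b _ hb; simp [hb]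
      · simp

theorem dec' (Γ' : Type) [Fintype Γ'] (q : MvPolynomial (Γ' ⊕ Γ) B) :
    ∃ (p : MvPolynomial Γ B) (c : Γ' → MvPolynomial (Γ' ⊕ Γ) B),
      q = rename Sum.inr p + ∑ j, X (Sum.inl j) * c j := by
  obtain ⟨p, c, h⟩ := dec Γ' (rename Sum.swap q)
  refine ⟨p, fun j => rename Sum.swap (c j), ?_⟩
  have := congrArg (rename Sum.swap) h
  rw [rename_rename] at this
  simp only [map_add, map_sum, map_mul, rename_X, rename_rename] at this
  have e : (Sum.swap ∘ Sum.inl : Γ → Γ' ⊕ Γ) = Sum.inr := rfl
  rw [e] at this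
  simpa using this

/-- the splitting ring -/
theorem split [Fintype Γ] [Finite B] (π : B →+* F) (hl : ∀ u, π u ≠ 0 → IsUnit u) (N : ℕ)
    (hN : RingHom.ker π ^ N = ⊥) (x : Γ → Γ → B) (hx : ∀ i j, π (x i j) = 0)
    (sw : ∀ i k j l, x i j * x k l = x i l * x k j) :
    ∃ (B' : Type) (_ : CommRing B') (e : B →+* B') (π' : B' →+* F) (b c : Γ → B'),
      Function.Injective e ∧ Finite B' ∧ (∀ u, π' u ≠ 0 → IsUnit u) ∧ (∀ u, π' (e u) = π u) ∧
      (∀ i, π' (b i) = 0 ∧ π' (c i) = 0) ∧ (∀ i j, b i * c j = e (x i j)) ∧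
      (∀ (i j k : Γ) (u v w : B), (∀ l, u * x i l + v * x j l + w * x k l = 0) →
        e u * b i + e v * b j + e w * b k = 0) ∧
      ∀ (i j k : Γ) (u v w : B), (∀ l, u * x l i + v * x l j + w * x l k = 0) →
        e u * c i + e v * c j + e w * c k = 0 := by
  classical
  obtain ⟨ev, h1, h2, h3, h4⟩ := Vale.Agent.P022R.sec Γ Γ B x sw
  let J : Ideal (MvPolynomial (Γ ⊕ Γ) B) :=
    { carrier := {p | ∀ q, ev (p * q) = 0}
      zero_mem' := fun q => by rw [zero_mul, map_zero]
      add_mem' := fun {a b} ha hb q => by rw [add_mul, map_add, ha, hb, add_zero]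
      smul_mem' := fun c a ha q => by rw [smul_eq_mul, mul_comm c a, mul_assoc, ha] }
  have hC : ∀ u p, ev (C u * p) = u * ev p := fun u p => by
    rw [← smul_eq_C_mul, map_smul, smul_eq_mul]
  have z : ∀ p, Ideal.Quotient.mk J p = 0 ↔ ∀ q, ev (p * q) = 0 := fun p =>
    Ideal.Quotient.eq_zero_iff_mem
  have inj : ∀ u, Ideal.Quotient.mk J (C u) = 0 → u = 0 := fun u hu => by
    have := (z _).1 hu 1
    rwa [hC, h1, mul_one] at this
  have pl : ∀ i n q, ev (X (Sum.inl i) ^ n * q) ∈ RingHom.ker π ^ n := by
    intro i n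
    induction n with
    | zero => intro q; simp
    | succ n ih =>
      intro q
      obtain ⟨p, c, rfl⟩ := dec Γ q
      rw [mul_add, map_add, Finset.mul_sum, map_sum]
      refine add_mem ?_ (sum_mem fun j _ => ?_)
      · have := h3 i (X i ^ n * p)
        rw [map_mul (rename _), map_pow (rename _), rename_X, ← mul_assoc, ← pow_succ'] at this
        rw [this]; exact zero_mem _
      · have e : X (Sum.inl i) ^ (n + 1) * (X (Sum.inr j) * c j) =
            X (Sum.inl i) * X (Sum.inr j) * (X (Sum.inl i) ^ n * c j) := by ring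
        rw [e, h2, pow_succ']
        exact Ideal.mul_mem_mul (hx i j) (ih _)
  have pr : ∀ i n q, ev (X (Sum.inr i) ^ n * q) ∈ RingHom.ker π ^ n := by
    intro i n
    induction n with
    | zero => intro q; simp
    | succ n ih =>
      intro q
      obtain ⟨p, c, rfl⟩ := dec' Γ q
      rw [mul_add, map_add, Finset.mul_sum, map_sum]
      refine add_mem ?_ (sum_mem fun j _ => ?_)
      · have := h4 i (X i ^ n * p)
        rw [map_mul (rename _), map_pow (rename _), rename_X, ← mul_assoc, ← pow_succ'] at this
        rw [this]; exact zero_mem _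
      · have e : X (Sum.inr i) ^ (n + 1) * (X (Sum.inl j) * c j) =
            X (Sum.inl j) * X (Sum.inr i) * (X (Sum.inr i) ^ n * c j) := by ring
        rw [e, h2, pow_succ']
        exact Ideal.mul_mem_mul (hx j i) (ih _)
  have nX : ∀ s, Ideal.Quotient.mk J (X s) ^ N = 0 := by
    intro s
    rw [← map_pow, z]
    intro q
    rcases s with i | i
    · have := pl i N q
      rwa [hN] at this
    · have := pr i N q
      rwa [hN] at this
  have nil : ∀ p, IsNilpotent (Ideal.Quotient.mk J (p - C (constantCoeff p))) := by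
    intro p
    induction p using MvPolynomial.induction_on with
    | C a => simp
    | add p q hp hq =>
      have e : p + q - C (constantCoeff (p + q)) =
          (p - C (constantCoeff p)) + (q - C (constantCoeff q)) := by
        rw [map_add, map_add]; ring
      rw [e, map_add]
      exact Commute.isNilpotent_add (Commute.all _ _) hp hq
    | mul_X p s hp =>
      rw [map_mul, constantCoeff_X, mul_zero, map_zero, sub_zero, map_mul]
      exact (Commute.all _ _).isNilpotent_mul_left ⟨N, nX s⟩
  have ker : ∀ p ∈ J, (π.comp constantCoeff) p = 0 := by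
    intro p hp
    have h := nil p
    rw [map_sub, Ideal.Quotient.eq_zero_iff_mem.2 hp, zero_sub, isNilpotent_neg_iff] at h
    obtain ⟨n, hn⟩ := h
    rw [← map_pow, ← map_pow] at hn
    have := congrArg π (inj _ hn)
    rw [map_pow, map_zero] at this
    exact eq_zero_of_pow_eq_zero this
  refine ⟨_ ⧸ J, inferInstance, (Ideal.Quotient.mk J).comp C,
    Ideal.Quotient.lift J (π.comp constantCoeff) ker, fun i => Ideal.Quotient.mk J (X (Sum.inl i)),
    fun i => Ideal.Quotient.mk J (X (Sum.inr i)), (injective_iff_map_eq_zero _).2 inj, ?_, ?_,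
    fun u => by simp, fun i => by simp, fun i j => ?_, fun i j k u v w h => ?_,
    fun i j k u v w h => ?_⟩
  · haveI : Algebra.IsIntegral B (MvPolynomial (Γ ⊕ Γ) B ⧸ J) := ⟨fun y => by
      obtain ⟨p, rfl⟩ := Ideal.Quotient.mk_surjective y
      induction p using MvPolynomial.induction_on with
      | C a => exact isIntegral_algebraMap (x := a)
      | add p q hp hq => rw [map_add]; exact hp.add hq
      | mul_X p s hp =>
        rw [map_mul]
        refine hp.mul (IsIntegral.of_pow (Nat.succ_pos N) ?_)
        rw [pow_succ, nX, zero_mul]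
        exact isIntegral_zero⟩
    haveI : Module.Finite B (MvPolynomial (Γ ⊕ Γ) B ⧸ J) := Algebra.IsIntegral.finite
    exact Module.finite_of_finite B
  · intro y hy
    obtain ⟨p, rfl⟩ := Ideal.Quotient.mk_surjective y
    have h : IsUnit (Ideal.Quotient.mk J (C (constantCoeff p))) :=
      ((hl _ hy).map C).map _
    have := (nil p).isUnit_add_right_of_commute h (Commute.all _ _)
    rwa [← map_add, sub_add_cancel] at this
  · rw [← sub_eq_zero, RingHom.comp_apply, ← map_mul, ← map_sub, z]
    intro q
    rw [sub_mul, map_sub, h2, hC, sub_self]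
  · simp only [RingHom.comp_apply]
    rw [← map_mul, ← map_mul, ← map_mul, ← map_add, ← map_add, z]
    intro q
    obtain ⟨p, c, rfl⟩ := dec Γ q
    rw [mul_add, map_add, Finset.mul_sum, map_sum, Finset.sum_eq_zero, add_zero]
    · simp only [add_mul, map_add, mul_assoc, hC, h3, mul_zero, add_zero]
    · intro l _
      simp only [add_mul, map_add, mul_assoc, hC]
      simp only [← mul_assoc, h2]
      linear_combination h l * ev (c l)
  · simp only [RingHom.comp_apply]
    rw [← map_mul, ← map_mul, ← map_mul, ← map_add, ← map_add, z]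
    intro q
    obtain ⟨p, c, rfl⟩ := dec' Γ q
    rw [mul_add, map_add, Finset.mul_sum, map_sum, Finset.sum_eq_zero, add_zero]
    · simp only [add_mul, map_add, mul_assoc, hC, h4, mul_zero, add_zero]
    · intro l _
      have e : ∀ a, ev (X (Sum.inr a) * (X (Sum.inl l) * c l)) = x l a * ev (c l) := fun a => by
        rw [← h2]; congr 1; ring
      simp only [add_mul, map_add, mul_assoc, hC, e]
      linear_combination h l * ev (c l)

end Vale.Agent.P022G.KdaH82
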