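import Vale.Agent.P022G.Rw.Rfl
import Vale.Agent.P022G.Klev

/-!
# P022G: row RLOC, the auxiliary primes at level zero
-/

set_option linter.all false

noncomputable section

namespace Vale.Agent.P022G.RlocH82

open NumberField IsLocalRing MvPowerSeries Filter
open Vale.Agent.P022 Vale.Agent.P022G.R Vale.Agent.P022G.Loc
open Vale.Agent.P027M.S (Inert mx)
open Vale.Agent.P022D.Sel (M2)
open Vale.Agent.P022D.Core (PS io y1)
open Vale.Agent.P022E.Loc (Pl)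

variable {O F : Type} [CommRing O] [Field F] {S : Dat O F}

/-- the elements which do not change the trace -/
def Kt {B : Type} [CommRing B] (Z : PO S B) : Subgroup GQ where
  carrier := {k | ∀ g, Z.t (g * k) = Z.t g}
  one_mem' := fun g => by rw [mul_one]
  mul_mem' := fun {a b} ha hb g => by rw [← mul_assoc, hb, ha]
  inv_mem' := fun {a} ha g => by rw [← ha (g * a⁻¹), inv_mul_cancel_right]

theorem Kt_normal {B : Type} [CommRing B] (Z : PO S B) : (Kt Z).Normal := by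
  refine ⟨fun k hk h g => ?_⟩
  have e : g * (h * k * h⁻¹) = (g * h * k) * h⁻¹ := by group
  have e2 : h⁻¹ * (g * h * k) = (h⁻¹ * (g * h)) * k := by group
  rw [e, Z.tf.comm, e2, hk, Z.tf.comm]
  congr 1
  group

theorem triv {B : Type} [CommRing B] (Z : PO S B) {k : GQ} (hk : ∀ g, Z.t (g * k) = Z.t g) :
    Z.a k = 1 ∧ Z.b k = 1 ∧ (∀ g, Z.x k g = 0) ∧ (∀ g, Z.x g k = 0) ∧ Z.t k = 2 ∧
      (Z.d k : B) = 1 := by
  haveI := Kt_normal Z
  obtain ⟨u, hu⟩ : IsUnit (Z.a S.g0 - Z.b S.g0) := Z.loc _ (by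
    rw [map_sub, Z.ra, Z.rb]; exact sub_ne_zero.2 S.dne)
  have h := _root_.P022G.Kl.ker_ent Z.gm (Kt Z) (_root_.P022G.Kl.inv_of_tr Z.gm S.g0
    (u := ((u⁻¹ : Bˣ) : B)) (by rw [← hu, Units.mul_inv]) (fun g => (Z.x0 g).1)
    (fun g => (Z.x0 g).2) (Kt Z) fun k hk => hk) k hk
  obtain ⟨h1, h2, h3, h4⟩ := h
  refine ⟨h1, h2, h3, h4, ?_, ?_⟩
  · have := hk 1
    rwa [one_mul, Z.tf.one] at this
  · rw [← Z.gm.det, h1, h2, h3]; ring

/-- a map to a finite local ring kills a power of the maximal ideal -/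
theorem kill {P B : Type} [CommRing P] [IsLocalRing P] [CommRing B] [Finite B] (π : B →+* F)
    (hl : ∀ u, π u ≠ 0 → IsUnit u) (ψ : P →+* B) (hs : Function.Surjective (π.comp ψ)) :
    ∃ k : ℕ, ∀ f ∈ maximalIdeal P ^ k, ψ f = 0 := by
  obtain ⟨k, hk⟩ := IsArtinianRing.isNilpotent_jacobson_bot (R := B)
  have h1 : RingHom.ker (π.comp ψ) = maximalIdeal P :=
    eq_maximalIdeal (RingHom.ker_isMaximal_of_surjective _ hs)
  have h2 : (maximalIdeal P).map ψ ≤ Ideal.jacobson ⊥ := by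
    rw [Ideal.map_le_iff_le_comap, ← h1]
    intro x hx
    rw [Ideal.mem_comap, Ideal.mem_jacobson_bot]
    intro y
    refine hl _ ?_
    have : π (ψ x) = 0 := hx
    rw [map_add, map_mul, this, zero_mul, zero_add, map_one]
    exact one_ne_zero
  refine ⟨k, fun f hf => ?_⟩
  have h3 : ψ f ∈ ((maximalIdeal P).map ψ) ^ k := by
    rw [← Ideal.map_pow]; exact Ideal.mem_map_of_mem _ hf
  have h4 := Ideal.pow_right_mono h2 k h3
  rw [hk] at h4
  simpa using h4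

/-- the symbols inside the ring which acts on the modules -/
def inP (O ι : Type) [CommRing O] (r : ℕ) : PS O (Sy (ι ⊕ Fin r)) →+* PP O ι r := io O _ r

variable {L : Pl O} {β : Type} {τ ι' : β → Type} {K : Kx O β τ ι' L.C} {ι : Type} {r s : ℕ}
  {V : Type} [CommRing V]

theorem psi_in (f : PS O (Sy (ι ⊕ Fin r))) :
    ψ1 S L τ ι r (inP O ι r f) = io O _ r (ψ0 S L τ ι r f) := by
  change rename _ (rename _ f) = rename _ (rename _ f)
  rw [rename_rename, rename_rename]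
  rfl

variable [IsLocalRing O] [Fintype β] [∀ b, Fintype (τ b)] [Fintype ι]
  {Y : Pc (S := S) (ι := ι) K r s V}

theorem lim (h : Y.Ok) (i : Fin r) :
    Y.jr (inP O ι r (Y.ta i) - 2) ∈ Y.G'.aP ∧ Y.jr (inP O ι r (Y.da i) - 1) ∈ Y.G'.aP := by
  have key : ∀ (B : Type) [CommRing B] (Z : PO S B) (ψ : PS O (Sy ι) →+* B), Z.Cl L ∅ →
      Hm Z.ι (Z.val Y.G'.rc Y.G'.γ) ψ →
      ψ (Y.jr (inP O ι r (Y.ta i))) = 2 ∧ ψ (Y.jr (inP O ι r (Y.da i))) = 1 := by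
    intro B _ Z ψ hZ hψ
    haveI := Z.fin
    set ψ' : PS O (Sy (ι ⊕ Fin r)) →+* B := ψ.comp (Y.jr.comp (inP O ι r)) with hψ'
    have hc : ∀ o, ψ' (C o) = Z.ι o := fun o => by
      change ψ (Y.jr (io O _ r (C o))) = _
      rw [io_C', h.jr.c, hψ.c]
    have ha : ∀ i, ψ (aS Y.G'.rc id i) = Z.a (Y.G'.γ i) := fun i => by
      rw [aS, map_add, hψ.c, hψ.x]; simp [PO.val, gv]
    have hd : ∀ i, ψ (dS Y.G'.rc id i) = Z.b (Y.G'.γ i) := fun i => by
      rw [dS, map_add, hψ.c, hψ.x]; simp [PO.val, gv]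
    have hx : ∀ i k, ψ (xS Y.G'.rc id i k) = Z.x (Y.G'.γ i) (Y.G'.γ k) := fun i k => by
      rw [xS, map_add, hψ.c, hψ.x]; simp [PO.val, gv]
    have hin : ∀ n i (g : GQ), (∃ P, P022E.GW.Ov (Y.q n i) P ∧ Inert P g) →
        ∀ g', Z.t (g' * g) = Z.t g' := by
      rintro n i g ⟨P, ⟨a1, a2, a3⟩, a4⟩
      exact hZ.unr _ a1 (h.gn n i).1 (Finset.notMem_empty _) P a2 a3 g a4
    have hτ : ∀ n i, ∀ g', Z.t (g' * Y.τ' n i) = Z.t g' := fun n i => by
      obtain ⟨P, a1, a2⟩ := (h.gn n i).2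
      exact hin n i _ ⟨P, a1, a2.1⟩
    have hm : ∀ n, Hm Z.ι (Z.val (Y.G'.rcr r) (Sum.elim Y.G'.γ (Y.τ' n))) ψ' := by
      intro n
      refine ⟨hc, fun z => ?_⟩
      change ψ (Y.jr (io O _ r (X z))) = _
      rw [io_X', h.jr.x]
      rcases z with i | i | ⟨i, k⟩
      · rcases i with i | i
        · simp [Gs.jv, gv, PO.val, ha, hψ.c]
        · simp [Gs.jv, gv, PO.val, hψ.c, (triv Z (hτ n i)).1]
      · rcases i with i | i
        · simp [Gs.jv, gv, PO.val, hd, hψ.c]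
        · simp [Gs.jv, gv, PO.val, hψ.c, (triv Z (hτ n i)).2.1]
      · rcases i with i | i
        · rcases k with k | k
          · simp [Gs.jv, gv, PO.val, hx, hψ.c]
          · simp [Gs.jv, gv, PO.val, hψ.c, (triv Z (hτ n k)).2.2.2.1]
        · rcases k with k | k
          · simp [Gs.jv, gv, PO.val, hψ.c, (triv Z (hτ n i)).2.2.1]
          · simp [Gs.jv, gv, PO.val, hψ.c, (triv Z (hτ n i)).2.2.1]
    have hv : ∀ n, ψ' (Y.tn n i) = 2 ∧ ψ' (Y.dn n i) = 1 := by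
      intro n
      have a := h.tn n i B Z ψ' ⟨hZ.d2, hZ.dc, hZ.dl, hZ.ty, fun l a1 a2 _ =>
        hZ.unr l a1 a2 (Finset.notMem_empty _)⟩ (hm n)
      have b := triv Z (hin n i _ (h.ine n i))
      exact ⟨a.1.trans b.2.2.2.2.1, a.2.trans b.2.2.2.2.2⟩
    obtain ⟨k, hk⟩ := kill Z.π Z.loc ψ' (fun y => by
      obtain ⟨o, rfl⟩ := S.surj y
      exact ⟨C o, by rw [RingHom.comp_apply, hc, Z.alg]⟩)
    obtain ⟨n, hn⟩ := (h.cvt i k).exists
    obtain ⟨m, hm'⟩ := (h.cvd i k).exists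
    have e1 := hk _ hn
    have e2 := hk _ hm'
    rw [map_sub, (hv n).1, sub_eq_zero] at e1
    rw [map_sub, (hv m).2, sub_eq_zero] at e2
    exact ⟨e1.symm, e2.symm⟩
  constructor
  · rintro B _ j v ψ ⟨Z, hZ, rfl, rfl⟩ hψ
    rw [map_sub, map_sub, (key B Z ψ hZ hψ).1, map_ofNat, map_ofNat, sub_self]
  · rintro B _ j v ψ ⟨Z, hZ, rfl, rfl⟩ hψ
    rw [map_sub, map_sub, (key B Z ψ hZ hψ).2, map_one, map_one, sub_self]

/-- first part of the row -/
theorem one (h : Y.Ok) (𝔮 : Ideal (S1 O τ L ι S.T r))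
    (he : (Y.G'.aP.comap Y.jr).map (ψ1 S L τ ι r) ≤ 𝔮) (i : Fin r) :
    y1 O _ i ∈ 𝔮 ∧ io O _ r (ψ0 S L τ ι r (Y.ta i) - 2) ∈ 𝔮 ∧
      io O _ r (1 - ψ0 S L τ ι r (Y.ta i) + ψ0 S L τ ι r (Y.da i)) ∈ 𝔮 := by
  have k : ∀ f, Y.jr f ∈ Y.G'.aP → ψ1 S L τ ι r f ∈ 𝔮 := fun f hf =>
    he (Ideal.mem_map_of_mem _ hf)
  have a1 := k _ (lim h i).1
  have a2 := k _ (lim h i).2
  rw [map_sub, psi_in, map_ofNat] at a1
  rw [map_sub, psi_in, map_one] at a2
  refine ⟨?_, ?_, ?_⟩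
  · have := k (X (Sum.inr i)) (by rw [h.jr.x]; exact Ideal.zero_mem _)
    have e : ψ1 S L τ ι r (X (Sum.inr i)) = y1 O _ i := psiS_inr r i
    rwa [e] at this
  · rwa [map_sub, map_ofNat]
  · have := sub_mem a2 a1
    convert this using 1
    rw [map_add, map_sub, map_one]
    ring

end Vale.Agent.P022G.RlocH82
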