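import Vale.Agent.P022G.Rw.KdaAH82
import Vale.Agent.P022G.Rw.RlocAH82
import Vale.Agent.P022G.Kd.A

/-!
# P022G: row KDA
-/

set_option linter.all false

noncomputable section

namespace Vale.Agent.P022G.KdaH82

open NumberField IsLocalRing MvPowerSeries
open Vale.Agent.P022 Vale.Agent.P022G.R Vale.Agent.P022G.Loc
open Vale.Agent.P027M.S (Inert mx)
open Vale.Agent.P022D.Sel (M2)
open Vale.Agent.P022D.Core (PS)
open Vale.Agent.P022E.Loc (Pl)

variable {O F : Type} [CommRing O] [Field F] {S : Dat O F} {B : Type} [CommRing B]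

/-- off-diagonal entries for a pseudo object over an extension -/
structure Xt (Z : PO S B) {B' : Type} [CommRing B'] (e : B →+* B') (π : B' →+* F)
    (b c : GQ → B') : Prop where
  inj : Function.Injective e
  fin : Finite B'
  loc : ∀ u, π u ≠ 0 → IsUnit u
  pe : ∀ u, π (e u) = Z.π u
  rb : ∀ g, π (b g) = mx S.rb g 0 1
  rc : ∀ g, π (c g) = mx S.rb g 1 0
  bc : ∀ g h, b g * c h = e (Z.x g h)
  bm : ∀ g h, b (g * h) = e (Z.a g) * b h + e (Z.b h) * b g
  cm : ∀ g h, c (g * h) = e (Z.a h) * c g + e (Z.b g) * c h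
  b0 : ∀ k, (∀ g, Z.x k g = 0) → b k = 0
  c0 : ∀ k, (∀ g, Z.x g k = 0) → c k = 0

theorem xt_irr (Z : PO S B) (g1 : GQ) (h : mx S.rb g1 0 1 * mx S.rb g1 1 0 ≠ 0) :
    ∃ b c, Xt Z (RingHom.id B) Z.π b c := by
  obtain ⟨o, ho⟩ := S.surj (mx S.rb g1 1 0)⁻¹
  have h1 := left_ne_zero_of_mul h
  have h2 := right_ne_zero_of_mul h
  have hu : Z.π (Z.ι o) = (mx S.rb g1 1 0)⁻¹ := by rw [Z.alg, ho]
  obtain ⟨v, hv⟩ := (Z.loc (Z.ι o * Z.x g1 g1) (by
    rw [map_mul, hu, Z.rx]; exact mul_ne_zero (inv_ne_zero h2) h)).exists_right_inv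
  have hv' : Z.π v = (mx S.rb g1 0 1)⁻¹ := by
    have := congrArg Z.π hv
    rw [map_mul, map_mul, hu, Z.rx, map_one] at this
    field_simp at this ⊢
    linear_combination this
  refine ⟨fun g => Z.x g g1 * Z.ι o, fun g => Z.x g1 g * v, Function.injective_id, Z.fin, Z.loc,
    fun u => rfl, fun g => ?_, fun g => ?_, fun g k => ?_, fun g k => ?_, fun g k => ?_,
    fun k hk => ?_, fun k hk => ?_⟩
  · rw [map_mul, hu, Z.rx]; field_simp
  · rw [map_mul, hv', Z.rx]; field_simp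
  · have := Z.gm.sw g g1 g1 k
    simp only [RingHom.id_apply]
    linear_combination (Z.ι o * v) * this + Z.x g k * hv
  · simp only [RingHom.id_apply]; rw [Z.gm.cl]; ring
  · simp only [RingHom.id_apply]; rw [Z.gm.cr]; ring
  · simp only [hk, zero_mul]
  · simp only [hk, zero_mul]

theorem xt_red (Z : PO S B) (h : ∀ g, mx S.rb g 0 1 = 0 ∧ mx S.rb g 1 0 = 0) :
    ∃ (B' : Type) (_ : CommRing B') (e : B →+* B') (π : B' →+* F) (b c : GQ → B'),
      Xt Z e π b c := by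
  haveI := Z.fin
  haveI : Finite (GQ ⧸ Z.N) := Subgroup.quotient_finite_of_isOpen _ Z.N_open
  haveI := Fintype.ofFinite (GQ ⧸ Z.N)
  obtain ⟨N, hN⟩ := Z.nil
  have l : ∀ g k : GQ, Z.x (g : GQ ⧸ Z.N).out k = Z.x g k := fun g k => by
    obtain ⟨u, hu⟩ := QuotientGroup.mk_out_eq_mul Z.N g
    obtain ⟨a1, a2, a3, a4, -⟩ := RlocH82.triv Z u.2
    rw [hu, Z.gm.cl, a3, a2]; ring
  have r : ∀ g k : GQ, Z.x k (g : GQ ⧸ Z.N).out = Z.x k g := fun g k => by
    obtain ⟨u, hu⟩ := QuotientGroup.mk_out_eq_mul Z.N g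
    obtain ⟨a1, a2, a3, a4, -⟩ := RlocH82.triv Z u.2
    rw [hu, Z.gm.cr, a4, a1]; ring
  obtain ⟨B', _, e, π, b, c, h1, h2, h3, h4, h5, h6, h7, h8⟩ := split Z.π Z.loc N hN
    (fun i j : GQ ⧸ Z.N => Z.x i.out j.out) (fun i j => by rw [Z.rx, (h _).1, zero_mul])
    fun i k j l => Z.gm.sw _ _ _ _
  refine ⟨B', inferInstance, e, π, fun g => b g, fun g => c g, h1, h2, h3, h4,
    fun g => by rw [(h5 _).1, (h g).1], fun g => by rw [(h5 _).2, (h g).2],
    fun g k => by rw [h6, l, r], fun g k => ?_, fun g k => ?_, fun k hk => ?_, fun k hk => ?_⟩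
  · have := h7 (g * k : GQ) k g (-1) (Z.a g) (Z.b k) fun j => by
      simp only [l]; rw [Z.gm.cl]; ring
    rw [map_neg, map_one] at this
    linear_combination -this
  · have := h8 (g * k : GQ) g k (-1) (Z.a k) (Z.b g) fun j => by
      simp only [r]; rw [Z.gm.cr]; ring
    rw [map_neg, map_one] at this
    linear_combination -this
  · have := h7 k k k 1 0 0 fun j => by simp only [l, hk]; ring
    simpa using this
  · have := h8 k k k 1 0 0 fun j => by simp only [r, hk]; ring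
    simpa using this

variable {Z : PO S B} {B' : Type} [CommRing B'] {e : B →+* B'} {π : B' →+* F} {b c : GQ → B'}

/-- the representation -/
def Xt.rho (h : Xt Z e π b c) : GQ →* M2 B' where
  toFun g := !![e (Z.a g), b g; c g, e (Z.b g)]
  map_one' := by
    obtain ⟨a1, a2, a3, a4, -⟩ := RlocH82.triv Z (k := 1) fun g => by rw [mul_one]
    rw [a1, a2, h.b0 1 a3, h.c0 1 a4, map_one, Matrix.one_fin_two]
  map_mul' g k := by
    rw [Matrix.mul_fin_two, Z.gm.am, Z.gm.bm, h.bm, h.cm, map_add, map_add, map_mul, map_mul,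
      ← h.bc, ← h.bc]
    ext i j
    fin_cases i <;> fin_cases j <;> simp <;> ring

theorem Xt.rho_apply (h : Xt Z e π b c) (g : GQ) :
    h.rho g = !![e (Z.a g), b g; c g, e (Z.b g)] := rfl

theorem Xt.rho_N (h : Xt Z e π b c) {k : GQ} (hk : ∀ g, Z.t (g * k) = Z.t g) : h.rho k = 1 := by
  obtain ⟨a1, a2, a3, a4, -⟩ := RlocH82.triv Z hk
  rw [h.rho_apply, a1, a2, h.b0 k a3, h.c0 k a4, map_one, Matrix.one_fin_two]

theorem Xt.tr (h : Xt Z e π b c) (g : GQ) : (h.rho g).trace = e (Z.t g) := by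
  rw [h.rho_apply, Matrix.trace_fin_two_of, ← map_add, Z.gm.sum]

theorem Xt.det (h : Xt Z e π b c) (g : GQ) : (h.rho g).det = e (Z.d g) := by
  rw [h.rho_apply, Matrix.det_fin_two_of, h.bc, ← map_mul, ← map_sub, Z.gm.det]

/-- the object -/
def Xt.obj (h : Xt Z e π b c) : Obj S B' where
  ι := e.comp Z.ι
  π := π
  ρ := h.rho
  α := fun _ => 1
  β := fun _ => 1
  fin := h.fin
  loc := h.loc
  alg := fun o => by rw [RingHom.comp_apply, h.pe, Z.alg]
  res := fun g => by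
    rw [h.rho_apply]
    ext i j
    fin_cases i <;> fin_cases j <;> simp [h.pe, h.rb, h.rc, Z.ra, Z.rb]
  opn := by
    let Kr : Subgroup GQ :=
      { carrier := {g | h.rho g = 1}
        one_mem' := map_one _
        mul_mem' := fun {u v} hu hv => by
          change h.rho (u * v) = 1
          rw [map_mul, hu, hv, one_mul]
        inv_mem' := fun {u} hu => by
          change h.rho u⁻¹ = 1
          have : h.rho u = 1 := hu
          have e := map_mul h.rho u⁻¹ u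
          rw [inv_mul_cancel, map_one, this, mul_one] at e
          exact e.symm }
    exact Subgroup.isOpen_mono (H₁ := Z.N) (H₂ := Kr) (fun u hu => h.rho_N hu) Z.N_open
  dg := ⟨h.b0 _ fun g => (Z.x0 g).1, h.c0 _ fun g => (Z.x0 g).2⟩
  inv := fun _ => one_mul _
  one := fun _ => by simp
  off := fun _ _ => rfl
  fr := ⟨rfl, rfl⟩

theorem Xt.ty (h : Xt Z e π b c) {L : Pl O} {Q : Finset ℕ} (hZ : Z.Cl L Q) :
    Ty (ClG L S) Q B' h.obj := by
  have hd : ∀ g, e (Z.ι (L.r g).det) = h.obj.ι (L.r g).det := fun g => rfl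
  refine ⟨⟨fun g hg => ?_, ?_, fun l hl => ?_, fun l hl => ?_⟩, fun l a1 a2 a3 P a4 a5 g a6 =>
    h.rho_N (hZ.unr l a1 a2 a3 P a4 a5 g a6)⟩
  · exact (h.det g).trans (congrArg e (hZ.d2 g hg))
  · exact (h.det _).trans (by rw [hZ.dc, map_neg, map_one])
  · exact (h.det _).trans (congrArg e (hZ.dl l hl))
  · obtain ⟨y, a1, a2, a3⟩ := hZ.ty l hl
    refine ⟨e y, ?_, (h.pe y).trans a2, ?_⟩
    · change e y ^ 2 - (h.rho _).trace * e y + (h.rho _).det = 0
      rw [h.tr, h.det]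
      simpa using congrArg e a1
    · change (h.rho _).trace - e y * (h.rho _).trace = e (Z.ι _) * ((h.rho _).trace - 2 * e y)
      rw [h.tr, h.tr, h.tr]
      have := congrArg e a3
      simp only [map_sub, map_mul, map_ofNat] at this
      exact this

/-- the two ideals of relations agree -/
theorem le [IsLocalRing O] {L : Pl O} (hL : OkG L S) {κ ι : Type} {gk : κ → GQ}
    (G : Gs S L gk ι) : G.aG ≤ G.aP := by
  rintro f hf B _ j v ψ ⟨Z, hZ, rfl, rfl⟩ hψ
  have : ∃ (B' : Type) (_ : CommRing B') (e : B →+* B') (π : B' →+* F) (b c : GQ → B'),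
      Xt Z e π b c := by
    by_cases hH : ∀ g, g ∈ L.H
    · exact xt_red Z fun g => hL.dh.dg g (hH g)
    · push Not at hH
      obtain ⟨g, hg⟩ := hH
      obtain ⟨b, c, h⟩ := xt_irr Z g (by
        have := hL.det g
        rw [Matrix.det_fin_two, (hL.dh.ad g hg).1, zero_mul, zero_sub] at this
        intro k
        rw [k, neg_zero] at this
        exact zero_ne_one this)
      exact ⟨B, inferInstance, _, _, b, c, h⟩
  obtain ⟨B', _, e, π, b, c, h⟩ := this
  refine h.inj ?_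
  rw [map_zero]
  refine hf B' _ _ (e.comp ψ) ⟨h.obj, h.ty hZ, rfl, rfl⟩ ⟨fun o => congrArg e (hψ.c o), fun s => ?_⟩
  rw [RingHom.comp_apply, hψ.x]
  rcases s with i | i | ⟨i, k⟩
  · simp [PO.val, sv, gv, Xt.obj, Xt.rho_apply]
  · simp [PO.val, sv, gv, Xt.obj, Xt.rho_apply]
  · simp [PO.val, sv, gv, Xt.obj, Xt.rho_apply, h.bc]

theorem kda (hG : GPO) : KDA := by
  intro O F _ _ _ _ _ _ _ ϖ S L X as β τ ι' _ _ _ K ι _ G hϖ hC hK
  refine ⟨?_, fun i k f hf => Ideal.mul_mem_left _ _ (le hC.cx.ok G hf)⟩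
  rintro f hf B _ j v ψ ⟨Y, hY, rfl, rfl⟩ hψ
  obtain ⟨Z, a1, a2, a3, a4, a5⟩ :=
    (hG O F ϖ S L X as β τ ι' K ι G hϖ hC hK).2.2 ∅ B Y hY
  refine hf B _ _ ψ ⟨Z, a1, rfl, rfl⟩ ⟨fun o => by rw [hψ.c, a2], fun s => ?_⟩
  rw [hψ.x]
  rcases s with i | i | ⟨i, k⟩
  · simp [PO.val, sv, gv, a2, (a4 _).2.2.1]
  · simp [PO.val, sv, gv, a2, (a4 _).2.2.2]
  · simp [PO.val, sv, gv, a2, a5]

end Vale.Agent.P022G.KdaH82
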