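import Vale.Agent.P022G.Rows
import Vale.Agent.P022G.R.Obj
import Vale.Agent.P022D.NR.Ev

/-!
# P022G, row REPO: points of the framed ring are objects
-/

set_option linter.all false

noncomputable section

namespace Vale.Agent.P022G

open NumberField IsLocalRing MvPowerSeries Filter
open Vale.Agent.P022 Vale.Agent.P022G.R Vale.Agent.P022G.Loc
open Vale.Agent.P027M.S (Inert mx)
open Vale.Agent.P022D.Sel (M2)
open Vale.Agent.P022D.Core (PS Coef)
open Vale.Agent.P022E.Loc (Pl)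
open Vale.Agent.P022E.GW (Ov Gn)
open Vale.Agent.P022D.R (W Van van_of_pow evl evl_C evl_X map_evl evl_eq_zero ulim_ser
  exists_ultra ker_nil ker_set map_one')

namespace Repo

section gen
variable {O F : Type} [CommRing O] [Field F]

/-- an evaluation at nilpotent elements is unique -/
theorem hm_eq {σ B : Type} [Finite σ] [CommRing B] {j : O →+* B} {v : σ → B} {ψ : PS O σ →+* B}
    (h : Hm j v ψ) (m : Ideal B) {n : ℕ} (hn : m ^ n = ⊥) (hv : ∀ s, v s ∈ m) : ψ = evl j v := by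
  have w := van_of_pow j v m hn hv
  have : IsHausdorff m B := ⟨fun x hx => by
    have := hx n
    rwa [SModEq.zero, smul_eq_mul, Ideal.mul_top, hn, Ideal.mem_bot] at this⟩
  exact P022D.NR.ev_ext m (fun o => (h.c o).trans (evl_C w o).symm)
    (fun s => (h.x s).trans (evl_X w s).symm) fun s => h.x s ▸ hv s

theorem hm_evl {σ B : Type} [Finite σ] [CommRing B] (j : O →+* B) (v : σ → B)
    (m : Ideal B) {n : ℕ} (hn : m ^ n = ⊥) (hv : ∀ s, v s ∈ m) : Hm j v (evl j v) :=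
  ⟨evl_C (van_of_pow j v m hn hv), evl_X (van_of_pow j v m hn hv)⟩

/-- series with small coefficients are killed -/
theorem hm_zero [IsLocalRing O] {σ B : Type} [Finite σ] [CommRing B] {j : O →+* B} {v : σ → B}
    {ψ : PS O σ →+* B} (h : Hm j v ψ) (m : Ideal B) {n k : ℕ} (hn : m ^ n = ⊥) (hk : n ≤ k)
    (hv : ∀ s, v s ∈ m) (hj : ∀ c ∈ maximalIdeal O, j c ∈ m) (f : PS O σ)
    (hf : ∀ d : σ →₀ ℕ, d.degree < k → coeff d f ∈ maximalIdeal O ^ k) : ψ f = 0 := by
  rw [hm_eq h m hn hv]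
  refine evl_eq_zero (van_of_pow j v m hn hv) fun d hd => ?_
  have h3 : maximalIdeal O ≤ m.comap j := hj
  have h4 := ((Ideal.pow_right_mono h3 n).trans (Ideal.le_comap_pow _ n))
    (Ideal.pow_le_pow_right hk (hf d (hd.trans_le hk)))
  rwa [hn, Ideal.mem_comap, Ideal.mem_bot] at h4

/-- a matrix which is trivial modulo a nilpotent ideal containing two has order a power of two -/
theorem two_pow {A : Type} [CommRing A] (m : Ideal A) (h2 : (2 : A) ∈ m) (M : M2 A)
    (hM : ∀ a b, (M - 1 : M2 A) a b ∈ m) (k : ℕ) :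
    ∀ a b, (M ^ 2 ^ k - 1 : M2 A) a b ∈ m ^ (k + 1) := by
  induction k with
  | zero => simpa using hM
  | succ k ih =>
    intro a b
    have e : M ^ 2 ^ (k + 1) - 1 =
        (M ^ 2 ^ k - 1) * (M ^ 2 ^ k - 1) + (2 : A) • (M ^ 2 ^ k - 1) := by
      rw [pow_succ, pow_mul, two_smul]
      noncomm_ring
    rw [e, Matrix.add_apply, Matrix.smul_apply, Matrix.mul_apply, pow_succ' m (k + 1)]
    refine add_mem (Ideal.sum_mem _ fun c _ => Ideal.mul_mem_mul ?_ (ih c b))
      (Ideal.mul_mem_mul h2 (ih a b))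
    exact Ideal.pow_le_self (Nat.succ_ne_zero k) (ih a c)

variable {S : Dat O F}

theorem obj_two [CharP F 2] {A : Type} [CommRing A] (X : Obj S A) (g : GQ) (hg : S.rb g = 1) :
    ∃ k : ℕ, X.ρ g ^ 2 ^ k = 1 := by
  obtain ⟨n, hn⟩ := X.nil
  refine ⟨n, Matrix.ext fun a b => sub_eq_zero.1 ?_⟩
  have h2 : (2 : A) ∈ RingHom.ker X.π := by
    rw [RingHom.mem_ker, map_ofNat]
    exact CharTwo.two_eq_zero
  have h := two_pow (RingHom.ker X.π) h2 (X.ρ g) (fun a b => by
    have e := congrFun (congrFun (X.res g) a) b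
    rw [mx, hg, Matrix.map_apply, Units.val_one] at e
    rw [RingHom.mem_ker, Matrix.sub_apply, map_sub, e, sub_eq_zero]
    exact (congrFun (congrFun (map_one' X.π) a) b).symm) n a b
  rwa [pow_succ, hn, Ideal.bot_mul, Ideal.mem_bot] at h

/-- the entries of an object lie in every subring which contains the entries of the generators -/
theorem obj_sub [CharP F 2] {Q : Finset ℕ} {ι : Type} {γ : ι → GQ} (hG : Gen S Q γ) {A : Type}
    [CommRing A] (X : Obj S A) (hX : Unr X Q) (R : Subring A)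
    (hR : ∀ i a b, X.ρ (γ i) a b ∈ R) (g : GQ) (a b : Fin 2) : X.ρ g a b ∈ R := by
  have := X.fin
  have h := hG (M2 A)ˣ X.ρ.toHomUnits
    (by
      have e : {g : GQ | X.ρ.toHomUnits g = 1} = {g | X.ρ g = 1} := Set.ext fun _ => Units.ext_iff
      rw [e]
      exact X.opn)
    (fun g hg => (obj_two X g hg).imp fun k hk => Units.ext (by
      rw [Units.val_pow_eq_pow_val]; exact hk))
    (fun l a b c P d e s f => Units.ext (hX l a b c P d e s f)) g
  have h' : X.ρ.toHomUnits g ∈ Submonoid.closure (Set.range fun i => X.ρ.toHomUnits (γ i)) := by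
    rw [← Subgroup.closure_toSubmonoid_of_finite]
    exact h
  have k : Submonoid.closure (Set.range fun i => X.ρ.toHomUnits (γ i)) ≤
      (R.matrix (n := Fin 2)).toSubmonoid.comap (Units.coeHom (M2 A)) := by
    rw [Submonoid.closure_le]
    rintro _ ⟨i, rfl⟩
    exact hR i
  exact k h' a b

theorem beta_sub {A : Type} [CommRing A] (X : Obj S A) (R : Subring A) (l : ℕ)
    (h : ∀ a b, X.α l a b ∈ R) (a b : Fin 2) : X.β l a b ∈ R := by
  have := X.fin
  let u : (M2 A)ˣ := ⟨X.α l, X.β l, X.inv l, X.inv' l⟩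
  have h' : u⁻¹ ∈ Submonoid.closure ({u} : Set (M2 A)ˣ) := by
    rw [← Subgroup.closure_toSubmonoid_of_finite]
    exact (Subgroup.closure ({u} : Set (M2 A)ˣ)).inv_mem (Subgroup.subset_closure rfl)
  have k : Submonoid.closure ({u} : Set (M2 A)ˣ) ≤
      (R.matrix (n := Fin 2)).toSubmonoid.comap (Units.coeHom (M2 A)) := by
    rw [Submonoid.closure_le]
    rintro _ rfl
    exact h
  exact k h' a b

/-- the kernels of the objects of a class -/
def Kers (C : Cl S) : Set (Ideal (W O)) :=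
  {I | ∃ Z : Obj S (W O ⧸ I), C _ Z ∧ ∀ w, Z.ev w = Ideal.Quotient.mk I w}

theorem ker_mem {C : Cl S} (hC : Closed C) {A : Type} [CommRing A] {X : Obj S A} (h : C A X) :
    RingHom.ker X.ev ∈ Kers C := by
  obtain ⟨Z, u, u', a, b, c, d⟩ := exists_can X X (RingHom.ker X.ev) fun w =>
    ⟨fun h => ⟨h, h⟩, fun h => h.1⟩
  exact ⟨Z, hC.pull _ _ _ Z X X u u' b c d h h, a⟩

theorem inf_mem {C : Cl S} (hC : Closed C) : ∀ I ∈ Kers C, ∀ J ∈ Kers C, I ⊓ J ∈ Kers C := by
  rintro I ⟨X, h, e⟩ J ⟨Y, h', e'⟩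
  obtain ⟨Z, u, u', a, b, c, d⟩ := exists_can X Y (I ⊓ J) fun w => by
    rw [e, e', Ideal.Quotient.eq_zero_iff_mem, Ideal.Quotient.eq_zero_iff_mem, Ideal.mem_inf]
  exact ⟨Z, hC.pull _ _ _ Z X Y u u' b c d h h', a⟩

theorem can_hom {I : Ideal (W O)} {Z : Obj S (W O ⧸ I)}
    (e : ∀ w, Z.ev w = Ideal.Quotient.mk I w) {A : Type} [CommRing A] (X : Obj S A)
    (h : I ≤ RingHom.ker X.ev) : Hom Z X (Ideal.Quotient.lift I X.ev fun _ hw => h hw) :=
  hom_of_ev fun w => by rw [e]; rfl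

/-- **compactness**: a family of coordinates `v` on a closed class; every point of the common
kernel is the image of an object -/
theorem cpt [IsLocalRing O] [IsNoetherianRing O] [IsPrecomplete (maximalIdeal O) O]
    [Finite (ResidueField O)] (hO : ∀ c, S.red c = 0 ↔ c ∈ maximalIdeal O) {σ : Type} [Finite σ]
    {C : Cl S} (hC : Closed C) (v : Crd S σ)
    (res : ∀ (A : Type) [CommRing A] (X : Obj S A), C A X → ∀ s, X.π (v A X s) = 0)
    (nat : ∀ (A B : Type) [CommRing A] [CommRing B] (X : Obj S A) (Y : Obj S B) (u : A →+* B),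
      Hom X Y u → C A X → ∀ s, u (v A X s) = v B Y s)
    (gen : ∀ (A : Type) [CommRing A] (X : Obj S A), C A X → ∀ R : Subring A, (∀ o, X.ι o ∈ R) →
      (∀ s, v A X s ∈ R) → ∀ w, X.ev w ∈ R)
    (B : Type) [CommRing B] [Finite B] (π : B →+* F) (ψ : PS O σ →+* B)
    (hl : ∀ u, π u ≠ 0 → IsUnit u) (hπ : ∀ f, π (ψ f) = S.red (constantCoeff f))
    (hK : ∀ f, (∀ (A : Type) [CommRing A] (X : Obj S A) (φ : PS O σ →+* A), C A X →
      Hm X.ι (v A X) φ → φ f = 0) → ψ f = 0) :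
    ∃ Y : Obj S B, Y.π = π ∧ C B Y ∧ Hm Y.ι (v B Y) ψ := by
  have hm : ∀ (A : Type) [CommRing A] (X : Obj S A), C A X → Hm X.ι (v A X) (evl X.ι (v A X)) :=
    fun A _ X h => X.nil.elim fun n hn => hm_evl _ _ _ hn (res A X h)
  have key : ∃ (I : Ideal (W O)) (Z : Obj S (W O ⧸ I)), C _ Z ∧
      (∀ w, Z.ev w = Ideal.Quotient.mk I w) ∧ ∀ f, evl Z.ι (v _ Z) f = 0 → ψ f = 0 := by
    by_contra hn
    by_cases hne : (Kers C).Nonempty
    swap
    · have h1 := hπ 1
      rw [hK 1 fun A _ X φ h _ => absurd ⟨_, ker_mem hC h⟩ hne, map_zero, map_one, map_one] at h1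
      exact zero_ne_one h1
    have : Nonempty (Kers C) := hne.to_subtype
    obtain ⟨U, hU⟩ := exists_ultra (α := Kers C) fun a b =>
      ⟨⟨a.1 ⊓ b.1, inf_mem hC _ a.2 _ b.2⟩, (inf_le_left : a.1 ⊓ b.1 ≤ a.1),
        (inf_le_right : a.1 ⊓ b.1 ≤ b.1)⟩
    choose Z c e using fun p : Kers C => p.2
    have ex : ∀ p : Kers C, ∃ f, evl (Z p).ι (v _ (Z p)) f = 0 ∧ ψ f ≠ 0 := fun p => by
      by_contra k
      exact hn ⟨p.1, Z p, c p, e p, fun f hf => by_contra fun h => k ⟨f, hf, h⟩⟩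
    choose f f0 f1 using ex
    have : Finite (O ⧸ maximalIdeal O) := ‹Finite (ResidueField O)›
    obtain ⟨l, hl'⟩ := ulim_ser U f (maximalIdeal O) fun k =>
      Ideal.finite_quotient_pow (IsNoetherian.noetherian _) k
    have l0 : ψ l = 0 := hK l fun A _ X φ h hφ => by
      obtain ⟨n, hn⟩ := X.nil
      obtain ⟨p, a, b⟩ := ((hU ⟨_, ker_mem hC h⟩).and (hl' n)).exists
      have k := can_hom (e p) X a
      have e1 : φ (f p - l) = 0 := hm_zero hφ _ hn le_rfl (res A X h)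
        (fun c hc => (X.alg c).trans ((hO c).2 hc)) _ b
      have e2 : Hm X.ι (v A X) ((Ideal.Quotient.lift p.1 X.ev fun _ hw => a hw).comp
          (evl (Z p).ι (v _ (Z p)))) :=
        ⟨fun o => by rw [RingHom.comp_apply, (hm _ _ (c p)).c, k.ι],
          fun s => by rw [RingHom.comp_apply, (hm _ _ (c p)).x, nat _ _ _ _ _ k (c p)]⟩
      rw [map_sub, sub_eq_zero] at e1
      rw [← e1, hm_eq hφ _ hn (res A X h), ← hm_eq e2 _ hn (res A X h), RingHom.comp_apply, f0,
        map_zero]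
    obtain ⟨n, hn⟩ := ker_nil π hl
    obtain ⟨p, b⟩ := (hl' n).exists
    have e1 : ψ (f p - l) = 0 := hm_zero (j := ψ.comp MvPowerSeries.C) (v := fun s => ψ (X s))
      ⟨fun _ => rfl, fun _ => rfl⟩ _ hn le_rfl
      (fun s => by rw [RingHom.mem_ker, hπ, constantCoeff_X, map_zero])
      (fun c hc => by
        rw [RingHom.mem_ker, RingHom.comp_apply, hπ, constantCoeff_C]
        exact (hO c).2 hc) _ b
    rw [map_sub, l0, sub_zero] at e1
    exact f1 p e1
  obtain ⟨I, Z, c, e, k⟩ := key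
  have sj : Function.Surjective (evl Z.ι (v _ Z)) := fun a => by
    obtain ⟨w, rfl⟩ := Ideal.Quotient.mk_surjective a
    rw [← e]
    exact gen _ Z c (evl Z.ι (v _ Z)).range (fun o => ⟨_, (hm _ Z c).c o⟩)
      (fun s => ⟨_, (hm _ Z c).x s⟩) w
  let u : W O ⧸ I →+* B := RingHom.liftOfSurjective _ sj ⟨ψ, fun f hf => k f hf⟩
  have hu : ∀ f, u (evl Z.ι (v _ Z) f) = ψ f := fun f =>
    RingHom.liftOfRightInverse_comp_apply _ _ _ _ f
  have hp : ∀ a, π (u a) = Z.π a := fun a => by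
    obtain ⟨f, rfl⟩ := sj a
    obtain ⟨n, hn⟩ := Z.nil
    rw [hu, hπ, map_evl (van_of_pow _ _ _ hn (res _ Z c)), funext (res _ Z c),
      P022D.R.evl_zero]
    exact (Z.alg _).symm
  have hh := hom_map Z u π inferInstance hl hp
  refine ⟨Z.map u π inferInstance hl hp, rfl, hC.push _ _ _ _ u hh c, fun o => ?_, fun s => ?_⟩
  · rw [← hu, (hm _ Z c).c, hh.ι]
  · rw [← hu, (hm _ Z c).x, nat _ _ _ _ _ hh c]

end gen

section v0
variable {O F : Type} [CommRing O] [Field F] {S : Dat O F} {L : Pl O} {β : Type} {τ ι' : β → Type}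
  (K : Kx O β τ ι' L.C) {ι : Type} (G : Gs S L K.g ι) (r : ℕ) (τ' : Fin r → GQ)

/-- the coordinates of the framed ring on objects -/
def vv : Crd S (V0 τ L ι S.T r) := fun _ _ X => v0 K G r X.ι X.ρ X.α X.β τ'

variable {K G r τ'}

theorem vv_res (hL : Loc L.D (ClG L S) (K.crd L S))
    (hr : ∀ i, (G.rcr r i).map S.red = mx S.rb (Sum.elim G.γ τ' i))
    (A : Type) [CommRing A] (X : Obj S A) (h : ClG L S A X) (s) : X.π (vv K G r τ' A X s) = 0 := by
  have e : ∀ i a b, X.π (X.ρ (Sum.elim G.γ τ' i) a b) = X.π (X.ι (G.rcr r i a b)) := fun i a b => by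
    rw [X.alg]
    exact (congrFun (congrFun (X.res _) a) b).trans (congrFun (congrFun (hr i) a) b).symm
  rcases s with i | (i | i | i) | (i | i) | p
  · exact hL.res A X h i
  · exact (map_sub _ _ _).trans (sub_eq_zero.2 (e i 0 0))
  · exact (map_sub _ _ _).trans (sub_eq_zero.2 (e i 1 1))
  · refine (map_sub _ _ _).trans (sub_eq_zero.2 ?_)
    rw [map_mul, map_mul, map_mul, e, e]
  · exact (map_sub _ _ _).trans (sub_eq_zero.2 (e i 0 1))
  · exact (map_sub _ _ _).trans (sub_eq_zero.2 (e i 1 0))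
  · refine (map_sub _ _ _).trans (sub_eq_zero.2 ?_)
    exact (congrFun (congrFun (X.one p.1) _) _).trans (congrFun (congrFun (map_one' X.π) _) _).symm

theorem vv_nat (hL : Loc L.D (ClG L S) (K.crd L S)) (A B : Type) [CommRing A] [CommRing B]
    (X : Obj S A) (Y : Obj S B) (u : A →+* B) (k : Hom X Y u) (h : ClG L S A X) (s) :
    u (vv K G r τ' A X s) = vv K G r τ' B Y s := by
  have e : ∀ g a b, u (X.ρ g a b) = Y.ρ g a b := fun g a b => congrFun (congrFun (k.ρ g) a) b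
  rcases s with i | (i | i | i) | (i | i) | p
  · exact hL.nat A B X Y u k h i
  · exact (map_sub _ _ _).trans (congrArg₂ _ (e _ 0 0) (k.ι _))
  · exact (map_sub _ _ _).trans (congrArg₂ _ (e _ 1 1) (k.ι _))
  · exact (map_sub _ _ _).trans (congrArg₂ _ ((map_mul _ _ _).trans
      (congrArg₂ _ (e _ 0 1) (e _ 1 0))) (k.ι _))
  · exact (map_sub _ _ _).trans (congrArg₂ _ (e _ 0 1) (k.ι _))
  · exact (map_sub _ _ _).trans (congrArg₂ _ (e _ 1 0) (k.ι _))
  · exact (map_sub _ _ _).trans (congrArg₂ _ (congrFun (congrFun (k.α p.1) _) _)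
      (congrFun (congrFun (map_one' u) _) _))

theorem vv_gen [CharP F 2] {Q : Finset ℕ} (hG : Gen S Q (Sum.elim G.γ τ')) (A : Type)
    [CommRing A] (X : Obj S A) (h : Unr X Q) (R : Subring A) (h0 : ∀ o, X.ι o ∈ R)
    (h1 : ∀ s, vv K G r τ' A X s ∈ R) (w : W O) : X.ev w ∈ R := by
  have ad : ∀ {x : A} {o : O}, x - X.ι o ∈ R → x ∈ R := fun {x o} hx => by
    have := R.add_mem hx (h0 o)
    rwa [sub_add_cancel] at this
  have hρ := obj_sub hG X h R (fun i a b => by
    fin_cases a <;> fin_cases b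
    · exact ad (h1 (.inr (.inl (.inl i))))
    · exact ad (h1 (.inr (.inr (.inl (.inl i)))))
    · exact ad (h1 (.inr (.inr (.inl (.inr i)))))
    · exact ad (h1 (.inr (.inl (.inr (.inl i))))))
  have one : ∀ a b, (1 : M2 A) a b ∈ R := (R.matrix (n := Fin 2)).one_mem
  have hα : ∀ l a b, X.α l a b ∈ R := fun l a b => by
    by_cases hl : l ∈ S.T
    · have := R.add_mem (h1 (.inr (.inr (.inr (⟨l, hl⟩, a, b))))) (one a b)
      exact (sub_add_cancel (X.α l a b) ((1 : M2 A) a b)) ▸ this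
    · rw [X.off l hl]
      exact one a b
  induction w using MvPolynomial.induction_on with
  | C o => rw [ev_C]; exact h0 o
  | add p q hp hq => rw [map_add]; exact R.add_mem hp hq
  | mul_X p x hp =>
    obtain ⟨y, a, b⟩ := x
    rw [map_mul, ev_X]
    refine R.mul_mem hp ?_
    rcases y with g | l | l
    · exact hρ g a b
    · exact hα l a b
    · exact beta_sub X R l (hα l) a b

/-- the constants lift the residual representation -/
theorem rcr_red [IsLocalRing O] {X : Finset ℕ} {as : ℕ} (hC : Cx S L X as) {q : Fin r → ℕ}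
    (hq : ∀ i, q i ∉ S.T ∧ ∃ P, Ov (q i) P ∧ Gn (q i) P (τ' i)) (i : ι ⊕ Fin r) :
    (G.rcr r i).map S.red = mx S.rb (Sum.elim G.γ τ' i) := by
  rcases i with i | i
  · exact hC.ok.lift _
  · obtain ⟨a, P, b, c⟩ := hq i
    have := hC.ok.lift (τ' i)
    rw [hC.unr _ b.1 (Or.inl a) P b.2.1 b.2.2 _ c.1] at this
    exact this

end v0

end Repo

/-- **row REPO** -/
theorem repoC : REPO := by
  intro O F _ _ _ _ _ _ _ ϖ S L X as β τ ι' _ _ _ K ι _ G hϖ hC hK r q τ' hq B _ _ π ψ hl hπ hk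
  have := Coef.cpl (O := O)
  have := Coef.fin (O := O)
  exact Repo.cpt hC.cx.ok.ker (hK.clo.ty (Finset.univ.image q)) (Repo.vv K G r τ')
    (fun A _ Y h => Repo.vv_res hK.loc (Repo.rcr_red hC.cx hq) A Y h.1)
    (fun A B _ _ Y Y' u k h => Repo.vv_nat hK.loc A B Y Y' u k h.1)
    (fun A _ Y h => Repo.vv_gen (G.gen r q τ' hq) A Y h.2) B π ψ hl hπ
    fun f hf => hk fun A _ j v φ ⟨Y, a, b, c⟩ d => hf A Y φ a (by subst b c; exact d)

end Vale.Agent.P022G
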