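import Vale.Agent.P022G.Rows
import Vale.Agent.P022G.Kd.A
import Vale.Agent.P022G.Rw.Gpo
import Vale.Agent.P022G.Rw.Lam
import Vale.Agent.P022G.Rw.Repo
import Vale.Agent.P022G.Tw.Crv
import Vale.Agent.P022G.Tw.UnivH44
import Vale.Agent.P022D.As.Cov
import Vale.Agent.P022D.PA.Lim

/-!
# P022G, row KDEL: pseudo objects are objects up to the products of off-diagonal entries
-/

set_option linter.all false

noncomputable section

namespace Vale.Agent.P022G.KdH47

open NumberField IsLocalRing MvPowerSeries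
open Vale.Agent.P022 Vale.Agent.P022.H346 Vale.Agent.P022G.R Vale.Agent.P022G.Loc
open Vale.Agent.P027M.S (Inert mx)
open Vale.Agent.P022D.Sel (M2)
open Vale.Agent.P022D.Core (PS Coef)
open Vale.Agent.P022E.Loc (Pl Rt En)
open Vale.Agent.P022E.GW (Ov Gn)
open Vale.Agent.P022F.Gm (GM)

variable {O F : Type} [CommRing O] [Field F] {S : Dat O F} {L : Pl O}

/-- descent of a pseudo object to a subring -/
theorem sub [IsLocalRing O] (ok : OkG L S) {A B : Type} [CommRing A] [CommRing B] (Z : PO S B)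
    {Q : Finset ℕ} (hZ : Z.Cl L Q) (u : A →+* B) (hu : Function.Injective u) (j : O →+* A)
    (hj : ∀ o, u (j o) = Z.ι o)
    (h : ∀ g k, Z.a g ∈ u.range ∧ Z.b g ∈ u.range ∧ Z.x g k ∈ u.range ∧ Z.t g ∈ u.range ∧
      (Z.d g : B) ∈ u.range) :
    ∃ Y : PO S A, Y.Cl L Q ∧ Y.ι = j ∧ (∀ g, u (Y.a g) = Z.a g) ∧ (∀ g, u (Y.b g) = Z.b g) ∧
      ∀ g k, u (Y.x g k) = Z.x g k := by
  choose a ha using fun g => (h g g).1
  choose b hb using fun g => (h g g).2.1
  choose x hx using fun g k => (h g k).2.2.1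
  choose t ht using fun g => (h g g).2.2.2.1
  choose d0 hd0 using fun g => (h g g).2.2.2.2
  let d1 : GQ →* A :=
    { toFun := d0
      map_one' := hu (by rw [hd0, map_one, map_one, Units.val_one])
      map_mul' := fun g k => hu (by rw [map_mul, hd0, hd0, hd0, map_mul, Units.val_mul]) }
  obtain ⟨d, hd⟩ : ∃ d : GQ →* Aˣ, ∀ g, u (d g) = Z.d g := ⟨d1.toHomUnits, hd0⟩
  haveI := Z.fin
  haveI : Finite A := Finite.of_injective u hu
  have G := Z.gm
  let Y : PO S A :=
    { ι := j, π := Z.π.comp u, t := t, d := d, a := a, b := b, x := x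
      fin := inferInstance
      loc := fun v hv => by
        have h1 := Z.loc _ hv
        obtain ⟨w, hw⟩ := Finite.surjective_of_injective (f := fun w => v * w)
          (fun w w' e => hu (h1.mul_left_cancel (by rw [← map_mul, ← map_mul]; exact congrArg u e))) 1
        exact IsUnit.of_mul_eq_one w hw
      alg := fun c => (congrArg Z.π (hj c)).trans (Z.alg c)
      tf := ⟨hu (by rw [ht, Z.tf.one, map_ofNat]), fun g k => hu (by rw [ht, ht, Z.tf.comm]),
        fun g k => hu (by simp only [map_mul u, map_add, ht, hd, Z.tf.mul])⟩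
      gm := ⟨fun g => hu (by rw [map_add, ha, hb, ht, G.sum]), hu (by rw [ha, G.a1, map_one]),
        hu (by rw [hb, G.b1, map_one]),
        fun g k => hu (by simp only [map_mul u, map_add, ha, hx, G.am]),
        fun g k => hu (by simp only [map_mul u, map_add, hb, hx, G.bm]),
        fun g g' k => hu (by simp only [map_mul u, map_add, ha, hb, hx, G.cl]),
        fun g k k' => hu (by simp only [map_mul u, map_add, ha, hb, hx, G.cr]),
        fun g => hu (by simp only [map_mul u, map_sub, ha, hb, hx, hd, G.det]),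
        fun g k g' k' => hu (by simp only [map_mul u, hx]; exact G.sw _ _ _ _)⟩
      x0 := fun g => ⟨hu (by rw [hx, (Z.x0 g).1, map_zero]), hu (by rw [hx, (Z.x0 g).2, map_zero])⟩
      ra := fun g => (congrArg Z.π (ha g)).trans (Z.ra g)
      rb := fun g => (congrArg Z.π (hb g)).trans (Z.rb g)
      rx := fun g k => (congrArg Z.π (hx g k)).trans (Z.rx g k)
      opn := Z.opn.imp fun U e => ⟨e.1, fun v hv g => hu (by rw [ht, ht, e.2 v hv])⟩ }
  refine ⟨Y, ⟨fun g hg => hu ((hd g).trans ((hZ.d2 g hg).trans (hj _).symm)),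
    hu ((hd _).trans (hZ.dc.trans (by rw [map_neg, map_one]))),
    fun l hl => hu ((hd _).trans ((hZ.dl l hl).trans (hj _).symm)), fun l hl => ?_,
    fun l a1 a2 a3 P a4 a5 s a6 g => hu ((ht _).trans
      ((hZ.unr l a1 a2 a3 P a4 a5 s a6 g).trans (ht g).symm))⟩, rfl, ha, hb, hx⟩
  obtain ⟨-, r2, r3⟩ := ok.reg l hl
  obtain ⟨y, y1, y2, y3⟩ := hZ.ty l hl
  obtain ⟨z, z1, z2⟩ := Gpo.rt_ex Y (ok.dh.dg _ r2).1 r3
  have e : u z = y := Gpo.rt_uniq Z r3 (by
    have := congrArg u (show z ^ 2 - t (L.g0 l) * z + d (L.g0 l) = 0 from z1)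
    rwa [map_add, map_sub, map_pow, map_mul, ht, hd, map_zero] at this) y1 z2 y2
  refine ⟨z, z1, z2, hu ?_⟩
  show u (t _ - z * t _) = u (j _ * (t _ - 2 * z))
  simp only [map_mul u, map_sub, ht, hj, e, map_ofNat, y3]

variable {β : Type} {τ ι' : β → Type} (K : Kx O β τ ι' L.C) {ι : Type} (G : Gs S L K.g ι) (r : ℕ)

theorem hm_of {B : Type} [CommRing B] (μ : PS O (V0 τ L ι S.T r) →+* B) (ρ : GQ → M2 B)
    (τ' : Fin r → GQ) (h0 : ∀ s ∈ t0 K G r, μ s = 0)
    (hρ : ∀ i, ρ (Sum.elim G.γ τ' i) = (ZS K G r i).map μ) :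
    Hm (μ.comp C) (v0 K G r (μ.comp C) ρ (fun l => (αS τ L ι S.T r l).map μ)
      (fun l => (αS τ L ι S.T r l)⁻¹.map μ) τ') μ := by
  have e : ∀ {x y}, x - y ∈ t0 K G r → μ x = μ y := fun h => by
    have := h0 _ h
    rwa [map_sub, sub_eq_zero] at this
  have ls : ∀ l i, (lS K G r l i).map μ = (αS τ L ι S.T r l)⁻¹.map μ * ρ (G.γ i) *
      (αS τ L ι S.T r l).map μ := fun l i => by
    rw [lS, Matrix.map_mul, Matrix.map_mul, ← hρ (Sum.inl i)]
    rfl
  refine ⟨fun _ => rfl, ?_⟩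
  rintro (x | (i | i | ⟨i, k⟩) | (i | i) | ⟨l, a, b⟩)
  · rw [e (Ideal.subset_span (Or.inl (Or.inr ⟨x, rfl⟩))), κS, Tw.val_map]
    simp only [ls, G.hK, G.hφ, G.hτ]
    rfl
  · show _ = ρ _ 0 0 - _
    rw [hρ]
    exact (eq_sub_of_add_eq' (map_add μ _ _).symm)
  · show _ = ρ _ 1 1 - _
    rw [hρ]
    exact (eq_sub_of_add_eq' (map_add μ _ _).symm)
  · show _ = ρ _ 0 1 * ρ _ 1 0 - _
    rw [hρ, hρ]
    exact eq_sub_of_add_eq' ((map_add μ _ _).symm.trans
      ((e (Ideal.subset_span (Or.inl (Or.inl ⟨(i, k), rfl⟩)))).trans (map_mul μ _ _)))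
  · show _ = ρ _ 0 1 - _
    rw [hρ]
    exact (eq_sub_of_add_eq' (map_add μ _ _).symm)
  · show _ = ρ _ 1 0 - _
    rw [hρ]
    exact (eq_sub_of_add_eq' (map_add μ _ _).symm)
  · show _ = ((αS τ L ι S.T r l).map μ - 1) a b
    rw [αS, dif_pos l.2, ← RingHom.mapMatrix_apply, map_add, map_one, add_sub_cancel_left]
    rfl

theorem al_res (l : ℕ) :
    (αS (O := O) τ L ι S.T r l).map (S.red.comp constantCoeff) = 1 := by
  rw [αS, ← RingHom.mapMatrix_apply]
  split_ifs with h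
  · rw [map_add, map_one, add_eq_left]
    ext a b
    simp
  · exact map_one _

theorem zs_res (i : ι ⊕ Fin r) :
    (ZS K G r i).map (S.red.comp constantCoeff) = (G.rcr r i).map S.red := by
  ext a b
  fin_cases a <;> fin_cases b <;> simp [ZS, aS, dS]

end Vale.Agent.P022G.KdH47

namespace Vale.Agent.P022G.H47

open NumberField IsLocalRing MvPowerSeries
open Vale.Agent.P022 Vale.Agent.P022.H346 Vale.Agent.P022G.R Vale.Agent.P022G.Loc
open Vale.Agent.P027M.S (Inert mx)
open Vale.Agent.P022D.Sel (M2)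
open Vale.Agent.P022D.Core (PS Coef)
open Vale.Agent.P022E.Loc (Pl Rt En)
open KdH47

theorem kdelC : KDEL := by
  intro O F _ _ _ _ _ _ _ ϖ S L X as β τ ι' _ _ _ K ι _ G hϖ hC hK r q τ' hq B _ Z ψ hZ hψ i0 k0 f hf
  classical
  have ok := hC.cx.ok
  have hG := G.gen r q τ' hq
  haveI := P022D.As.base O (V0 τ L ι S.T r)
  obtain ⟨Y, cl, eι, ea, eb, ex⟩ := sub ok Z hZ (RingHom.kerLift ψ) (RingHom.kerLift_injective ψ)
    ((Ideal.Quotient.mk _).comp C) (fun o => hψ.c o) fun g k =>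
      Z.gen _ hZ.unr _ hG (G.rcr r) (RingHom.kerLift ψ).range (fun o => ⟨Ideal.Quotient.mk _ (C o), hψ.c o⟩)
        (fun s => ⟨Ideal.Quotient.mk _ (MvPowerSeries.X s), hψ.x s⟩) g k
  let π0 : S0 O τ L ι S.T r →+* F := S.red.comp constantCoeff
  have un : ∀ p, π0 p ≠ 0 → IsUnit p := fun p hp => by
    rw [MvPowerSeries.isUnit_iff_constantCoeff]
    by_contra hn
    exact hp ((ok.ker _).2 hn)
  have ud : ∀ M : M2 (S0 O τ L ι S.T r), (M.map π0).det = 1 → IsUnit M.det := fun M h =>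
    un _ (by rw [π0.map_det, RingHom.mapMatrix_apply, h]; exact one_ne_zero)
  have zr : ∀ i, (ZS K G r i).map π0 = mx S.rb (Sum.elim G.γ τ' i) := fun i =>
    (zs_res K G r i).trans (Repo.rcr_red hC.cx hq i)
  have uz : ∀ i, IsUnit (ZS K G r i) := fun i =>
    (Matrix.isUnit_iff_isUnit_det _).2 (ud _ (by rw [zr, ok.det]))
  let Zu : FreeGroup (ι ⊕ Fin r) →* (M2 (S0 O τ L ι S.T r))ˣ := FreeGroup.lift fun i => (uz i).unit
  let Zm : FreeGroup (ι ⊕ Fin r) →* M2 (S0 O τ L ι S.T r) := (Units.coeHom _).comp Zu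
  have zm : ∀ i, Zm (FreeGroup.of i) = ZS K G r i := fun i =>
    (congrArg Units.val (FreeGroup.lift_apply_of (f := fun i => (uz i).unit) (x := i))).trans
      (uz i).unit_spec
  let w : FreeGroup (ι ⊕ Fin r) →* GQ := FreeGroup.lift (Sum.elim G.γ τ')
  have wo : ∀ i, w (FreeGroup.of i) = Sum.elim G.γ τ' i := fun i => FreeGroup.lift_apply_of
  have zw : ∀ v, (Zm v).map π0 = mx S.rb (w v) := fun v => by
    have e : (Units.map (π0.mapMatrix : M2 _ →+* M2 F).toMonoidHom).comp Zu = S.rb.comp w :=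
      FreeGroup.ext_hom _ _ fun i => Units.ext (by
        show (Zm (FreeGroup.of i)).map π0 = mx S.rb (w (FreeGroup.of i))
        rw [zm, wo, zr])
    exact congrArg Units.val (DFunLike.congr_fun e v)
  haveI := Y.N_normal
  let N : Subgroup GQ := Y.N ⊓ S.rb.ker
  have ho : IsOpen (N : Set GQ) := Y.N_open.inter ok.dh.opn
  have hu : ∀ l : ℕ, l.Prime → l ∉ S.T → l ∉ Finset.univ.image q → ∀ P : Ideal (𝓞 Qb),
      P.IsPrime → (l : 𝓞 Qb) ∈ P → ∀ s, Inert P s → s ∈ N := fun l a1 a2 a3 P a4 a5 s a6 =>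
    ⟨cl.unr l a1 a2 a3 P a4 a5 s a6, Units.ext (by
      have := ok.lift s
      rw [hC.cx.unr l a1 (Or.inl a2) P a4 a5 s a6] at this
      exact this.symm.trans (Matrix.map_one _ (map_zero _) (map_one _)))⟩
  have hs : ∀ g, ∃ v, g⁻¹ * w v ∈ N := fun g => by
    obtain ⟨v, h1, h2⟩ := gen_mod hG N ho (fun g hg => (Y.pow_mem hg).imp fun k e =>
      ⟨e, S.rb.ker.pow_mem hg _⟩) hu g
    rw [← FreeGroup.range_lift_eq_closure] at h1
    obtain ⟨v, rfl⟩ := h1
    exact ⟨v, h2⟩
  have pC : ∀ o, ψ0 S L τ ι r (C o) = C o := fun o => rename_C _ o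
  have pX : ∀ s, ψ0 S L τ ι r (MvPowerSeries.X s) = MvPowerSeries.X (e0 r s) := fun s =>
    rename_X _ s
  have px : ∀ i k, ψ0 S L τ ι r (xS (G.rcr r) id i k) -
      Zm (FreeGroup.of i) 0 1 * Zm (FreeGroup.of k) 1 0 ∈ t0 K G r := fun i k => by
    rw [zm, zm, xS, map_add, pC, pX]
    exact Ideal.subset_span (Or.inl (Or.inl ⟨(i, k), rfl⟩))
  obtain ⟨k1, k2⟩ := _root_.P022G.Kl.klev (ψ0 S L τ ι r) (RingHom.ker ψ) (t0 K G r) FreeGroup.of
    (FreeGroup.closure_range_of _) w Y.gm N hs (fun k hk => Y.N_inv k hk.1) Zm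
    (aS (G.rcr r) id) (dS (G.rcr r) id) (xS (G.rcr r) id)
    (fun i => RingHom.kerLift_injective ψ (by
      rw [ea, wo, RingHom.kerLift_mk, aS, map_add, hψ.c, hψ.x]; exact add_sub_cancel _ _))
    (fun i => RingHom.kerLift_injective ψ (by
      rw [eb, wo, RingHom.kerLift_mk, dS, map_add, hψ.c, hψ.x]; exact add_sub_cancel _ _))
    (fun i k => RingHom.kerLift_injective ψ (by
      rw [ex, wo, wo, RingHom.kerLift_mk, xS, map_add, hψ.c, hψ.x]; exact add_sub_cancel _ _))
    (fun i => by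
      rw [zm, aS, map_add, pC, pX]
      exact Ideal.Quotient.eq.1 rfl)
    (fun i => by
      rw [zm, dS, map_add, pC, pX]
      exact Ideal.Quotient.eq.1 rfl) px
  have key : f ∈ (RingHom.ker ψ).map (ψ0 S L τ ι r) ⊔ t0 K G r ⊔ _root_.P022G.Kl.rel w N Zm := by
    refine P022D.PA.mem_of_sup _ f fun n => ?_
    generalize hI : (RingHom.ker ψ).map (ψ0 S L τ ι r) ⊔ t0 K G r ⊔ _root_.P022G.Kl.rel w N Zm ⊔
      maximalIdeal _ ^ n = I
    by_cases ht : I = ⊤
    · rw [ht]
      trivial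
    have i1 : (RingHom.ker ψ).map (ψ0 S L τ ι r) ⊔ t0 K G r ⊔ _root_.P022G.Kl.rel w N Zm ≤ I :=
      hI ▸ le_sup_left
    have i2 : maximalIdeal _ ^ n ≤ I := hI ▸ le_sup_right
    let μ := Ideal.Quotient.mk I
    have z : ∀ s ∈ t0 K G r, μ s = 0 := fun s hs => Ideal.Quotient.eq_zero_iff_mem.2
      (i1 (Ideal.mem_sup_left (Ideal.mem_sup_right hs)))
    obtain ⟨ρ, r1, r2, r3, r4, -⟩ := k2 _ μ fun s hs => Ideal.Quotient.eq_zero_iff_mem.2 (i1 hs)
    let π : _ ⧸ I →+* F := Ideal.Quotient.lift I π0 fun p hp => by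
      by_contra hn
      exact ht (I.eq_top_of_isUnit_mem hp (un p hn))
    have mp : ∀ M : M2 (S0 O τ L ι S.T r), (M.map μ).map π = M.map π0 := fun M => rfl
    have hρ : ∀ i, ρ (Sum.elim G.γ τ' i) = (ZS K G r i).map μ := fun i => by rw [← wo, r1, zm]
    have h0 : ρ S.g0 = (ZS K G r (Sum.inl G.i0)).map μ := by
      rw [← hρ, ← G.h0]
      rfl
    let j : _ ⧸ RingHom.ker ψ →+* _ ⧸ I := Ideal.Quotient.lift _ (μ.comp (ψ0 S L τ ι r))
      fun u hu => Ideal.Quotient.eq_zero_iff_mem.2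
        (i1 (Ideal.mem_sup_left (Ideal.mem_sup_left (Ideal.mem_map_of_mem _ hu))))
    have jt : ∀ g, (ρ g).trace = j (Y.t g) := fun g => by
      obtain ⟨u, hu⟩ := Ideal.Quotient.mk_surjective (Y.t g)
      rw [r3 g u hu, ← hu]
      rfl
    have jd : ∀ g, (ρ g).det = j (Y.d g) := fun g => by
      obtain ⟨u, hu⟩ := Ideal.Quotient.mk_surjective (Y.d g : _ ⧸ RingHom.ker ψ)
      rw [r4 g u hu, ← hu]
      rfl
    have ji : ∀ o, j (Y.ι o) = μ (C o) := fun o => by
      rw [eι]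
      exact congrArg μ (pC o)
    have jp : ∀ y, π (j y) = Y.π y := fun y => by
      obtain ⟨u, rfl⟩ := Ideal.Quotient.mk_surjective y
      refine (Tw.H44.res_eq ok.ker (π.comp (j.comp (Ideal.Quotient.mk _))) (fun c => ?_) u).trans
        (Tw.H44.res_eq ok.ker (Y.π.comp (Ideal.Quotient.mk _)) (fun c => ?_) u).symm
      · exact (congrArg π0 (pC c)).trans (congrArg S.red (constantCoeff_C c))
      · rw [← Y.alg, eι]
        rfl
    haveI : Finite (S0 O τ L ι S.T r ⧸ maximalIdeal _) := P022D.PA.Base.fin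
    haveI := Ideal.finite_quotient_pow (I := maximalIdeal (S0 O τ L ι S.T r))
      (IsNoetherian.noetherian _) n
    let W : Obj S (_ ⧸ I) :=
      { ι := μ.comp C, π := π, ρ := ρ
        α := fun l => (αS τ L ι S.T r l).map μ
        β := fun l => (αS τ L ι S.T r l)⁻¹.map μ
        fin := Finite.of_surjective _ (Ideal.Quotient.factor_surjective i2)
        loc := fun a ha => by
          obtain ⟨p, rfl⟩ := Ideal.Quotient.mk_surjective a
          exact (un p ha).map μ
        alg := fun c => congrArg S.red (constantCoeff_C c)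
        res := fun g => by
          obtain ⟨v, hv⟩ := hs g
          have e1 : ρ g = ρ (w v) := by
            rw [← mul_inv_cancel_left g (w v), map_mul, r2 _ hv, mul_one]
          have e2 : S.rb (w v) = S.rb g := by
            rw [← mul_inv_cancel_left g (w v), map_mul, show S.rb (g⁻¹ * w v) = 1 from hv.2, mul_one]
          rw [e1, r1, mp, zw, mx, e2, mx]
        opn := Subgroup.isOpen_mono (H₁ := N) (H₂ := ρ.ker) (fun k hk => r2 k hk) ho
        dg := by
          rw [h0]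
          exact ⟨z _ (Ideal.subset_span (Or.inr (Or.inl rfl))),
            z _ (Ideal.subset_span (Or.inr (Or.inr (Or.inl rfl))))⟩
        inv := fun l => by
          rw [← Matrix.map_mul, Matrix.mul_nonsing_inv _ (ud _ (by
            rw [al_res, Matrix.det_one]))]
          exact Matrix.map_one _ (map_zero _) (map_one _)
        one := fun l => (mp _).trans (al_res r l)
        off := fun l hl => by
          rw [αS, dif_neg hl]
          exact Matrix.map_one _ (map_zero _) (map_one _)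
        fr := ⟨by
            have := z _ (Ideal.subset_span (Or.inr (Or.inr (Or.inr (Or.inl rfl)))))
            rwa [map_sub, map_one, sub_eq_zero] at this, by
            have := z _ (Ideal.subset_span (Or.inr (Or.inr (Or.inr (Or.inr rfl)))))
            rwa [map_sub, map_one, sub_eq_zero] at this⟩ }
    refine Ideal.Quotient.eq_zero_iff_mem.1 (hf _ _ _ μ ⟨W, ⟨⟨fun g hg => ?_, ?_, fun l hl => ?_,
      fun l hl => ?_⟩, fun l a1 a2 a3 P a4 a5 s a6 => r2 s (hu l a1 a2 a3 P a4 a5 s a6)⟩, rfl, rfl⟩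
      (hm_of K G r μ ρ τ' z hρ))
    · exact (jd g).trans ((congrArg j (cl.d2 g hg)).trans (ji _))
    · exact (jd _).trans ((congrArg j cl.dc).trans (by rw [map_neg, map_one]))
    · exact (jd _).trans ((congrArg j (cl.dl l hl)).trans (ji _))
    · obtain ⟨y, y1, y2, y3⟩ := cl.ty l hl
      refine ⟨j y, ?_, (jp y).trans y2, ?_⟩
      · show j y ^ 2 - (ρ _).trace * j y + (ρ _).det = 0
        rw [jt, jd, ← map_pow, ← map_mul, ← map_sub, ← map_add, y1, map_zero]
      · show (ρ _).trace - j y * (ρ _).trace = μ (C _) * ((ρ _).trace - 2 * j y)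
        have := congrArg j y3
        rw [map_sub, map_mul, map_mul, map_sub, map_mul, map_ofNat, ji] at this
        rw [jt, jt, jt, this]
  obtain ⟨f1, h1, s, hs', rfl⟩ := Submodule.mem_sup.1 key
  rw [mul_add]
  refine add_mem (Ideal.mul_mem_left _ _ h1) ?_
  have := add_mem (Ideal.mem_sup_right (Ideal.mul_mem_right s _ (px i0 k0)))
    (k1 (FreeGroup.of i0) (FreeGroup.of k0) s hs')
  rwa [← add_mul, sub_add_cancel] at this

end Vale.Agent.P022G.H47
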