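import Vale.Agent.P022G.Rows2
import Vale.Agent.P022G.Top.L2
import Vale.Agent.P022G.Tr.Big
import Vale.Agent.P022G.Rw.Auxx

/-!
# P022G: the Galois side from the rows
-/

set_option linter.all false

noncomputable section

namespace Vale.Agent.P022G.L2

open NumberField IsLocalRing MvPowerSeries Filter
open Vale.Agent.P022 Vale.Agent.P022G.R Vale.Agent.P022G.Loc
open Vale.Agent.P027M.S (Inert mx)
open Vale.Agent.P022D.Core (PS Coef)
open Vale.Agent.P022E.Loc (Pl)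
open Vale.Agent.P022E.As (Tg Out2)
open Vale.Agent.P022G.Chain (Pd Cn Cv exists_cv exists_cv_mem)
open Vale.Agent.P022D.CA (dimGE_sup)

/-- the chain argument; the special prime is lowered last -/
theorem chain {A : Type} [CommRing A] [IsNoetherianRing A] [IsLocalRing A] {C : Type}
    [DecidableEq C] {I : Finset C → Ideal A} {X : Finset C} {f : C → A} {as : C}
    {Md : Finset C → Ideal A → Prop} (has : as ∈ X) (max : ∀ a ∈ X, f a ∈ maximalIdeal A)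
    (mem : ∀ J, as ∈ J → f as ∈ I J)
    (sup : ∀ J a, ∀ p, Cv p → I J ≤ p → f a ∈ p → I (insert a J) ≤ p)
    (pres : ∀ J p, Cv p → I J ≤ p → f as ∈ p → ∃ E, Pd (I J) 2 E ∧ E ≤ p)
    (seed : ∀ J, X ⊆ J → ∃ E, Pd (I J) 2 E ∧ Md J E)
    (conn : ∀ J, X ⊆ J → Cn (I J) 1)
    (patch : ∀ J p, Cv p → f as ∈ p → ∀ E E', Pd (I J) 2 E → Pd (I J) 2 E' → E ≤ p → E' ≤ p →
      Md J E → Md J E')
    (lower : ∀ J, ∀ a ∈ X, a ∉ J → ∀ p, Cv p → f as ∈ p → ∀ E E', Pd (I (insert a J)) 2 E →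
      Pd (I J) 2 E' → E ≤ p → E' ≤ p → Md (insert a J) E → Md J E')
    (J : Finset C) (E : Ideal A) (hE : Pd (I J) 2 E) : Md J E := by
  induction hk : (X \ J).card using Nat.strong_induction_on generalizing J E with
  | _ k ih =>
  by_cases hX : X ⊆ J
  · obtain ⟨E0, h0, hM⟩ := seed J hX
    have h := conn J hX E0 E h0 hE
    clear hE
    induction h with
    | refl => exact hM
    | tail _ hl ih2 =>
      obtain ⟨p, hp, hle⟩ := exists_cv hl.2.2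
      exact patch J p hp (hle (Ideal.mem_sup_left (hl.1.2.1 (mem J (hX has))))) _ _ hl.1 hl.2.1
        (le_sup_left.trans hle) (le_sup_right.trans hle) ih2
  · obtain ⟨a, haX, haJ, hs⟩ : ∃ a ∈ X, a ∉ J ∧ (a = as ∨ as ∈ J) := by
      by_cases h : as ∈ J
      · obtain ⟨a, h1, h2⟩ := Finset.not_subset.1 hX
        exact ⟨a, h1, h2, Or.inr h⟩
      · exact ⟨as, has, h, Or.inl rfl⟩
    obtain ⟨p, hp, hle, hf⟩ := exists_cv_mem (max a haX) hE.2.2
    have hs' : f as ∈ p := hs.elim (fun e => e ▸ hf) fun h => hle (hE.2.1 (mem J h))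
    obtain ⟨E1, h1, h1p⟩ := pres _ p hp (sup J a p hp (hE.2.1.trans hle) hf) hs'
    refine lower J a haX haJ p hp hs' E1 E h1 hE h1p hle (ih _ ?_ _ E1 h1 rfl)
    rw [← hk]
    refine Finset.card_lt_card ⟨Finset.sdiff_subset_sdiff le_rfl (Finset.subset_insert a J), ?_⟩
    intro h
    have := h (Finset.mem_sdiff.2 ⟨haX, haJ⟩)
    simp at this

theorem mem_max {O σ : Type} [CommRing O] [IsLocalRing O] {f : PS O σ}
    (h : constantCoeff f ∈ maximalIdeal O) : f ∈ maximalIdeal (PS O σ) := by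
  rw [mem_maximalIdeal, mem_nonunits_iff] at h ⊢
  exact fun k => h (k.map constantCoeff)

/-- **the Galois side** -/
theorem l2g (hLoc : LOCG2) (hGen : GENS) (hKda : KDA) (hCrv : CRV) (hNice : NICE)
    (hTyp : TYP) (hPres : PRESC2) (hConn : CONNJ2) (hZ : ZED2) (hSeed : SEED2) (hPatch : PATCH2)
    (hLow : LOWER2) (hFin : FINAL2) (hOut : OUTG) (hTra : TRA) : Top.L2G := by
  classical
  intro K0 T₀
  obtain ⟨k, g, hb⟩ := Tr.big K0 T₀
  refine ⟨2 * k, ?_⟩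
  intro O F _ _ _ _ _ _ _ ϖ S0 S' L X as h0 I I' Y0 W0 Y0' W0' _ _ _ _ _ _ _ _ ses ig ib iJ
    ses' ig' ib' iJ' hK0 hT0 hn hϖ hCx hW hur fx fx1 hT htr H H' hTr
  obtain ⟨S, hC, -, e1, e2, -⟩ := cy_of_cx hCx hur fx fx1
  rw [← e1] at hK0 htr
  rw [← e2] at hT0 hT
  have hx := hC.cx
  have fx := hC.fx
  have fx1 := hC.fx1
  haveI : IsAdicComplete (maximalIdeal O) O := Coef.cpl
  obtain ⟨β, τ, ι', _, _, _, K, hK, hD⟩ := hLoc O F S L ϖ hϖ hx.ok
  obtain ⟨ι, _, ⟨G⟩⟩ := hGen O F S L _ K.g hx.ok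
  have hE : Ex K S X := ⟨hD, ⟨fx, fx1, k, g, hn, by
    rw [hT0]; exact hb F S.rb hK0 hx.ok.dh.opn⟩, hW⟩
  have hm : as ∈ L.C := hx.sub hx.mem
  have hT' : (Top.dS S' X h0).T = S.T \ X := by rw [← hT]; rfl
  have aP : G.aP ≤ G.aG := (hKda O F ϖ S L X as β τ ι' K ι G hϖ hC hK).1
  have itG : ∀ J, G.aG ≤ G.IT ϖ J := fun J => le_sup_left.trans le_sup_left
  have itp : ∀ J, (C ϖ : PS O (Sy ι)) ∈ G.IT ϖ J := fun J =>
    Ideal.mem_sup_left (Ideal.mem_sup_right (Ideal.mem_span_singleton_self _))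
  have max : ∀ a : L.C, (a : ℕ) ∈ X → G.fr a ∈ maximalIdeal (PS O (Sy ι)) := by
    intro a ha
    refine mem_max ((hx.ok.ker _).1 ?_)
    have h1 := hx.ok.lift (L.φ a)
    rw [(hx.one a ha).2] at h1
    have a0 : S.red (L.r (L.φ a) 0 0) = 1 := by simpa using congrFun (congrFun h1 0) 0
    have a1 : S.red (L.r (L.φ a) 1 1) = 1 := by simpa using congrFun (congrFun h1 1) 1
    simp only [Gs.fr, trS, aS, dS, Gs.rc, G.hφ, map_add, constantCoeff_C, constantCoeff_X,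
      add_zero, a0, a1]
    exact CharTwo.add_self_eq_zero _
  have irr : ∀ p, Cv p → G.aG ≤ p → C ϖ ∈ p → G.fr ⟨as, hm⟩ ∈ p → G.Irr p := by
    intro p hp h1 h2 h3
    obtain ⟨V, _, _, _, _, _, _, t, j, ρ, θ, ht, hc, rfl⟩ :=
      hCrv O F ϖ S L X as β τ ι' K ι G hϖ hC hK p hp (aP.trans h1) h2
    exact (hNice O F ϖ S L X as β τ ι' K ι G hϖ hC hK V t j ρ θ ht hc hp fun _ => h3).2.2
  have pres : ∀ J p, Cv p → G.IT ϖ J ≤ p → G.fr ⟨as, hm⟩ ∈ p → ∃ E, Pd (G.IT ϖ J) 2 E ∧ E ≤ p :=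
    fun J p hp h1 h2 => hPres O F ϖ S L X as β τ ι' K ι G hϖ hC hK hE J p hp h1
      (irr p hp ((itG J).trans h1) (h1 (itp J)) h2)
  have key : ∀ (J : Finset L.C) E, Pd (G.IT ϖ J) 2 E → G.An (Y0 (iJ J)) ≤ E := by
    refine chain (I := G.IT ϖ) (X := Finset.univ.filter fun a : L.C => (a : ℕ) ∈ X) (f := G.fr)
      (as := ⟨as, hm⟩) (Md := fun J E => G.An (Y0 (iJ J)) ≤ E) (by simpa using hx.mem)
      (fun a ha => max a (by simpa using ha)) (fun J h => ?_) (fun J a p hp h1 h2 => ?_) pres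
      (fun J h => ?_) (fun J h => ?_) (fun J p hp h E E' => ?_) fun J a ha hJ p hp h E E' => ?_
    · exact Ideal.mem_sup_right (Ideal.subset_span (Or.inl ⟨_, h, Or.inr (Or.inl rfl)⟩))
    · obtain ⟨V, _, _, _, _, _, _, t, j, ρ, θ, ht, hc, rfl⟩ :=
        hCrv O F ϖ S L X as β τ ι' K ι G hϖ hC hK p hp (aP.trans ((itG J).trans h1)) (h1 (itp J))
      obtain ⟨k1, k2⟩ := hTyp O F ϖ S L X as β τ ι' K ι G hϖ hC hK V t j ρ θ ht hc a h2
      refine sup_le (le_sup_left.trans h1) (Ideal.span_le.2 ?_)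
      rintro u (⟨l, hl, hu⟩ | ⟨l, hl, hu⟩)
      · rcases Finset.mem_insert.1 hl with rfl | hl
        · rcases hu with rfl | rfl | rfl
          · exact k1
          · exact h2
          · exact k2
        · exact h1 (Ideal.mem_sup_right (Ideal.subset_span (Or.inl ⟨l, hl, hu⟩)))
      · exact h1 (Ideal.mem_sup_right (Ideal.subset_span
          (Or.inr ⟨l, fun k => hl (Finset.mem_insert_of_mem k), hu⟩)))
    · exact hSeed O F ϖ S L X as β τ ι' K ι G hϖ hC hK hE S' I Y0 W0 ses ig ib iJ hT htr H J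
        fun a ha => h (by simpa using ha)
    · exact hConn O F ϖ S L X as β τ ι' K ι G hϖ hC hK hE J fun a ha => h (by simpa using ha)
    · exact hPatch O F ϖ S L X as β τ ι' K ι G hϖ hC hK hE S' I Y0 W0 ses ig ib iJ hT htr H J
        p E E' hp fun _ => h
    · have := hLow O F ϖ S L X as β τ ι' K ι G hϖ hC hK hE S' I Y0 W0 ses ig ib iJ hT htr H J a
        (by simpa using ha) hJ p E E' hp fun _ => h
      convert this
  obtain ⟨Z, hZ3, hZt, hZ0⟩ := hZ O F ϖ S L X as β τ ι' K ι G hϖ hC hK hE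
  have mϖ : (C ϖ : PS O (Sy ι)) ∈ maximalIdeal (PS O (Sy ι)) :=
    mem_max (by rw [constantCoeff_C]; exact (mem_maximalIdeal _).2 hϖ.not_isUnit)
  obtain ⟨p, hp, hle, hf⟩ := exists_cv_mem (max ⟨as, hm⟩ hx.mem) (dimGE_sup (k := 2) mϖ hZ3.2.2)
  have pϖ : C ϖ ∈ p := hle (Ideal.mem_sup_right (Ideal.mem_span_singleton_self _))
  obtain ⟨J, hJ, hJX, hfin⟩ := hFin O F ϖ S L X as β τ ι' K ι G hϖ hC hK hE (Top.dS S' X h0) I'
    Y0' W0' ses' ig' ib' iJ' hT' htr H' Z p hZ3.1 hZ3.2.1 hZt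
    (fun h => hϖ.ne_zero (by simpa using hZ0 _ h)) (le_sup_left.trans hle) hp pϖ fun _ => hf
  obtain ⟨E, hE2, hEp⟩ := pres J p hp hJ hf
  obtain ⟨f, hfi⟩ := hTr J (resJ X J) fun l => ⟨fun h => ⟨⟨l.1, Finset.mem_sdiff.2
    ⟨l.2, hJX l h⟩⟩, Finset.mem_filter.2 ⟨Finset.mem_univ _, h⟩, rfl⟩, by
      rintro ⟨l', h, e⟩
      have := (Finset.mem_filter.1 h).2
      rwa [show (⟨l'.1, (Finset.mem_sdiff.1 l'.2).1⟩ : L.C) = l from Subtype.ext e] at this⟩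
  have hAn := hTra O F ϖ S L X as β τ ι' K ι G hϖ hC hK (Y0 (iJ J)) (Y0' (iJ' (resJ X J)))
    (hT ▸ H.gm0 _) (hT' ▸ H'.gm0 _) fun w => ⟨{f w}, fun q hq => hfi (by
      rw [map_smul, map_zero]; exact hq _ (Finset.mem_singleton_self _))⟩
  have := hfin E hE2 hEp (hAn.trans (key J E hE2))
  exact hOut O F ϖ S L X as β τ ι' K ι G hϖ hC hK W0' (hT' ▸ H'.gmW) fun f hf => hZ0 f (this hf)

end Vale.Agent.P022G.L2
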