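import Vale.Agent.P022G.Rows2
import Vale.Agent.P022G.Rw.Auxx

/-!
# P022G: the row ODD
-/

set_option linter.all false

noncomputable section

namespace Vale.Agent.P022G

open Vale.Agent.P027M.S (mx)

theorem oddC : ODD := by
  intro O F _ _ _ _ _ _ _ S L X as h
  obtain ⟨g', hg⟩ := Auxx.ex_op S.g0
  obtain ⟨m, hm, e⟩ := Auxx.odd_ord (S.rb S.g0) ⟨S.d01, S.d10⟩
  have e1 : S.rb g' = S.rb S.g0 := hg.eq S.rb h.ok.dh.opn hm e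
  have e2 : mx S.rb g' = mx S.rb S.g0 := congrArg Units.val e1
  have c8 : ∀ z, z ^ 8 = 1 → g' z = z := fun z hz => hg.fix (h.g0.2.1 z hz)
  have k := h.ok
  exact ⟨⟨S.red, S.rb, S.T, g', S.l0, S.surj, e2 ▸ S.d01, e2 ▸ S.d10, e2 ▸ S.dne, S.hl0⟩, rfl, rfl,
    ⟨⟨k.ker, k.dh, k.det, k.hT, k.dj, k.pr, k.hP, k.h2, k.cj, k.tm, k.reg, k.uni, k.lift, k.cont,
      k.odd, k.ty⟩, ⟨k.dh.cy8 g' c8, c8, hg.diag L.r k.cont h.g0.2.2⟩, h.irr, h.unr, h.sub, h.big,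
      h.one, h.mem, h.mv1, h.mv2⟩, hg.odd⟩

end Vale.Agent.P022G
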