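import Vale.Agent.P022G.Rw.Gpo
import Vale.Agent.P022G.Crv.Uni
import Vale.Agent.P022D.L2b.Ps

/-! # P022G, row OUTG: the point is a limit of systems which occur in the module -/

set_option linter.all false

noncomputable section

namespace Vale.Agent.P022G

open NumberField IsLocalRing MvPowerSeries
open Vale.Agent.P022 Vale.Agent.P022.H346 Vale.Agent.P022G.R Vale.Agent.P022G.Loc
open Vale.Agent.P027M.S (Inert mx)
open Vale.Agent.P022D.Sel (M2)
open Vale.Agent.P022D.Core (PS Coef)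
open Vale.Agent.P022E.Loc (Pl)
open Vale.Agent.P022E.As (Tg cc tt dd yy ev0 Gw Out2)

namespace Outg

variable {O F : Type} [CommRing O] [Field F] {S : Dat O F} {L : Pl O}

theorem d_one {B : Type} [CommRing B] (Z : PO S B) {s : GQ} (hs : ∀ g, Z.t (g * s) = Z.t g) :
    (Z.d s : B) = 1 := by
  have h : (1 : GQ)⁻¹ * s ∈ Crv.kr Z.tf := by
    rw [inv_one, one_mul]
    exact hs
  obtain ⟨h1, h2, h3⟩ := Crv.po_congr Z h h
  rw [← Z.gm.det, h1, h2, h3, Z.gm.det, map_one, Units.val_one]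

/-- a pseudo object whose kernel is good for the smaller set of places is in the class -/
theorem cl_of [IsLocalRing O] {X : Finset ℕ} {as : ℕ} (hC : Cx S L X as) {ϖ : O} {B : Type}
    [CommRing B] (Z : PO S B) {u : Tg O →+* B} (hu : Z.Std u)
    (h : Gw ϖ (subL L X) (S.T \ X) ∅ 0 (RingHom.ker u)) : Z.Cl L ∅ := by
  classical
  have ok := hC.ok
  have eq : ∀ {x y : Tg O}, x - y ∈ RingHom.ker u → u x = u y := fun hx => by
    rwa [RingHom.mem_ker, map_sub, sub_eq_zero] at hx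
  have ct : ∀ g ∈ L.TT, Z.t g = Z.ι (L.r g).trace := fun g hg => by
    rw [← hu.t, ← hu.c]
    exact eq (h.clt g hg)
  have cd : ∀ g ∈ (subL L X).DD, (Z.d g : B) = Z.ι (L.r g).det := fun g hg => by
    rw [← hu.d, ← hu.c]
    exact eq (h.cld g hg)
  have un : ∀ l : ℕ, l.Prime → l ∉ S.T \ X → ∀ P : Ideal (𝓞 Qb), P.IsPrime → (l : 𝓞 Qb) ∈ P →
      ∀ s, Inert P s → ∀ g, Z.t (g * s) = Z.t g := fun l a1 a2 P a4 a5 s a6 g => by
    rw [← hu.t, ← hu.t]
    exact eq (h.unr l a1 a2 (Finset.notMem_empty l) P a4 a5 s a6 g)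
  refine ⟨fun g hg => cd g (Or.inl hg), ?_, fun l hl => ?_, fun l hl => ?_,
    fun l a1 a2 _ => un l a1 fun e => a2 (Finset.mem_sdiff.1 e).1⟩
  · exact (cd L.c (Or.inr (Or.inl rfl))).trans (by rw [ok.odd, map_neg, map_one])
  · by_cases hx : l ∈ X
    · have hi : Inert (L.P l) (L.τ l) := (ok.tm l hl).tau
      rw [hC.unr l (ok.pr l hl).1 (Or.inr hx) _ (ok.hP l hl).1 (ok.hP l hl).2 _ hi,
        Matrix.det_one, map_one]
      exact d_one Z (un l (ok.pr l hl).1 (fun e => (Finset.mem_sdiff.1 e).2 hx) _ (ok.hP l hl).1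
        (ok.hP l hl).2 _ hi)
    · refine cd (L.τ l) (Or.inr (Or.inr (Or.inl ⟨l, ?_, rfl⟩)))
      rcases Finset.mem_union.1 hl with h1 | h1
      · exact Finset.mem_union_left _ h1
      · exact Finset.mem_union_right _ (Finset.mem_sdiff.2 ⟨h1, hx⟩)
  · obtain ⟨z, z1, z2, z3⟩ := ok.ty l hl
    have w1 := congrArg Z.ι
      (show z ^ 2 - (L.r (L.g0 l)).trace * z + (L.r (L.g0 l)).det = 0 from z1)
    have w3 := congrArg Z.ι (show (L.r (L.τ l * L.g0 l)).trace - z * (L.r (L.τ l)).trace =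
      L.a l * ((L.r (L.g0 l)).trace - 2 * z) from z3)
    simp only [map_add, map_sub, map_mul Z.ι, map_pow, map_zero, map_ofNat] at w1 w3
    refine ⟨Z.ι z, ?_, (Z.alg z).trans z2, ?_⟩
    · rw [ct _ ⟨l, hl, Or.inr (Or.inr rfl)⟩,
        cd (L.g0 l) (Or.inr (Or.inr (Or.inr ⟨l, hl, rfl⟩))), w1]
    · rw [ct _ ⟨l, hl, Or.inr (Or.inr rfl)⟩, ct _ ⟨l, hl, Or.inr (Or.inl rfl)⟩,
        ct _ ⟨l, hl, Or.inl rfl⟩, w3]

/-- the symbols as power series -/
def lam {ι : Type} (a b : GQ → PS O (Sy ι)) (x : GQ → GQ → PS O (Sy ι)) :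
    Tg O →+* PS O (Sy ι) :=
  MvPolynomial.eval₂Hom C
    (Sum.elim (fun g => a g + b g) (Sum.elim (fun g => a g * b g - x g g) fun _ => 0))

theorem lam_eq {ι B : Type} [CommRing B] {a b : GQ → PS O (Sy ι)} {x : GQ → GQ → PS O (Sy ι)}
    (Z : PO S B) {ψ : PS O (Sy ι) →+* B} (hc : ∀ o, ψ (C o) = Z.ι o)
    (h : (∀ g, ψ (a g) = Z.a g) ∧ (∀ g, ψ (b g) = Z.b g) ∧ ∀ g h, ψ (x g h) = Z.x g h)
    {u : Tg O →+* B} (hu : Z.Std u) (hy : ∀ i, u (yy i) = 0) (p : Tg O) :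
    ψ (lam a b x p) = u p := by
  have : ψ.comp (lam a b x) = u := by
    refine MvPolynomial.ringHom_ext (fun o => ?_) fun s => ?_
    · rw [RingHom.comp_apply, lam, MvPolynomial.eval₂Hom_C, hc]
      exact (hu.c o).symm
    · rw [RingHom.comp_apply, lam, MvPolynomial.eval₂Hom_X']
      rcases s with g | g | i
      · rw [Sum.elim_inl, map_add, h.1, h.2.1, Z.gm.sum]
        exact (hu.t g).symm
      · rw [Sum.elim_inr, Sum.elim_inl, map_sub, map_mul, h.1, h.2.1, h.2.2, Z.gm.det]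
        exact (hu.d g).symm
      · rw [Sum.elim_inr, Sum.elim_inr, map_zero]
        exact (hy i).symm
  exact RingHom.congr_fun this p

/-- the point modulo a power of the maximal ideal -/
def pt [IsLocalRing O] [IsNoetherianRing O] [Finite F] {X : Finset ℕ} {as : ℕ} (hC : Cx S L X as)
    (j : ℕ) : Obj S (O ⧸ maximalIdeal O ^ (j + 1)) where
  ι := Ideal.Quotient.mk _
  π := Ideal.Quotient.lift _ S.red fun c hc =>
    (hC.ok.ker c).2 (Ideal.pow_le_self j.succ_ne_zero hc)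
  ρ := (Ideal.Quotient.mk (maximalIdeal O ^ (j + 1))).mapMatrix.toMonoidHom.comp L.r
  α := fun _ => 1
  β := fun _ => 1
  fin := by
    have : Finite (O ⧸ maximalIdeal O) :=
      Finite.of_equiv F ((Ideal.quotEquivOfEq (ker_eq_maximalIdeal S.red S.surj).symm).trans
        (RingHom.quotientKerEquivOfSurjective S.surj)).symm.toEquiv
    exact Ideal.finite_quotient_pow (IsNoetherian.noetherian _) _
  loc := fun a ha => by
    obtain ⟨c, rfl⟩ := Ideal.Quotient.mk_surjective a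
    refine IsUnit.map _ ?_
    by_contra hu
    exact ha ((hC.ok.ker c).2 hu)
  alg := fun _ => rfl
  res := fun g => by
    rw [← hC.ok.lift g]
    rfl
  opn := hC.ok.cont _
  dg := ⟨(congrArg (Ideal.Quotient.mk _) hC.g0.2.2.1).trans (map_zero _),
    (congrArg (Ideal.Quotient.mk _) hC.g0.2.2.2).trans (map_zero _)⟩
  inv := fun _ => mul_one _
  one := fun _ => Matrix.map_one _ (map_zero _) (map_one _)
  off := fun _ _ => rfl
  fr := ⟨rfl, rfl⟩

section pt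
variable [IsLocalRing O] [IsNoetherianRing O] [Finite F] {X : Finset ℕ} {as : ℕ}
  (hC : Cx S L X as) (j : ℕ)

theorem pt_tr (g : GQ) : ((pt hC j).ρ g).trace = (pt hC j).ι (L.r g).trace :=
  (AddMonoidHom.map_trace (Ideal.Quotient.mk (maximalIdeal O ^ (j + 1))) (L.r g)).symm

theorem pt_det (g : GQ) : ((pt hC j).ρ g).det = (pt hC j).ι (L.r g).det :=
  ((Ideal.Quotient.mk (maximalIdeal O ^ (j + 1))).map_det (L.r g)).symm

theorem pt_ty : Ty (ClG L S) ∅ _ (pt hC j) := by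
  refine ⟨⟨fun g _ => pt_det hC j g, ?_, fun l _ => pt_det hC j _, fun l hl => ?_⟩,
    fun l a1 a2 _ P a4 a5 g a6 => ?_⟩
  · rw [pt_det, hC.ok.odd, map_neg, map_one]
  · obtain ⟨z, z1, z2, z3⟩ := hC.ok.ty l hl
    have w1 := congrArg (pt hC j).ι
      (show z ^ 2 - (L.r (L.g0 l)).trace * z + (L.r (L.g0 l)).det = 0 from z1)
    have w3 := congrArg (pt hC j).ι (show (L.r (L.τ l * L.g0 l)).trace - z * (L.r (L.τ l)).trace =
      L.a l * ((L.r (L.g0 l)).trace - 2 * z) from z3)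
    simp only [map_add, map_sub, map_mul (pt hC j).ι, map_pow, map_zero, map_ofNat] at w1 w3
    refine ⟨(pt hC j).ι z, ?_, z2, ?_⟩
    · rw [P022E.Loc.Rt, pt_tr, pt_det, w1]
    · rw [P022E.Loc.En, pt_tr, pt_tr, pt_tr, w3]
  · change (Ideal.Quotient.mk (maximalIdeal O ^ (j + 1))).mapMatrix (L.r g) = 1
    rw [hC.unr l a1 (Or.inl a2) P a4 a5 g a6, map_one]

theorem pt_std : (Gpo.ofObj (pt hC j)).Std ((Ideal.Quotient.mk _).comp (ev0 L.r)) :=
  ⟨fun o => congrArg (Ideal.Quotient.mk _) (MvPolynomial.eval₂Hom_C _ _ o),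
    fun g => (congrArg (Ideal.Quotient.mk _) (MvPolynomial.eval₂Hom_X' _ _ _)).trans
      (pt_tr hC j g).symm,
    fun g => (congrArg (Ideal.Quotient.mk _) (MvPolynomial.eval₂Hom_X' _ _ _)).trans
      (pt_det hC j g).symm⟩

theorem pt_hm {κ ι : Type} {gk : κ → GQ} (G : Gs S L gk ι) :
    Hm (Gpo.ofObj (pt hC j)).ι ((Gpo.ofObj (pt hC j)).val G.rc G.γ)
      ((Ideal.Quotient.mk _).comp (constantCoeff (σ := Sy ι) (R := O))) := by
  refine ⟨fun o => congrArg (Ideal.Quotient.mk _) (constantCoeff_C o), fun s => ?_⟩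
  rw [RingHom.comp_apply, constantCoeff_X, map_zero]
  rcases s with i | i | ⟨i, k⟩
  · exact (sub_self _).symm
  · exact (sub_self _).symm
  · exact (sub_eq_zero.2 (map_mul (Ideal.Quotient.mk (maximalIdeal O ^ (j + 1))) _ _).symm).symm

end pt

end Outg

theorem outg : OUTG := by
  intro O F _ _ _ _ _ _ _ ϖ S L X as β τ ι' _ _ _ K ι _ G hϖ hC hK W0 _ _ hW h0 j
  classical
  have := Coef.cpl (O := O)
  obtain ⟨a, b, x, hU⟩ := Crv.uni G hC.cx.ok
  have := P022D.CA.Cpl.isAdicCompleteV (σ := Sy ι) (V := O) inferInstance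
  obtain ⟨N, hN⟩ := Crv.hm_nil _ (Outg.pt_hm hC.cx j G)
  obtain ⟨I, ⟨-, s, hs⟩, hI⟩ := P022D.L2b.chevalley (maximalIdeal (PS O (Sy ι))) (Crv.fin_pow S)
    {I | (∃ k, maximalIdeal (PS O (Sy ι)) ^ k ≤ I) ∧
      ∃ s : Finset W0, ∀ p : Tg O, (∀ v ∈ s, p • v = 0) → Outg.lam a b x p ∈ I}
    ⟨⊤, ⟨0, le_top⟩, ∅, fun _ _ => trivial⟩
    (by
      rintro I ⟨⟨k, hk⟩, s, hs⟩ I' ⟨⟨k', hk'⟩, s', hs'⟩
      exact ⟨I ⊓ I', ⟨⟨max k k', le_inf ((Ideal.pow_le_pow_right (le_max_left _ _)).trans hk)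
        ((Ideal.pow_le_pow_right (le_max_right _ _)).trans hk')⟩, s ∪ s', fun p hp =>
        ⟨hs p fun v hv => hp v (Finset.mem_union_left _ hv),
          hs' p fun v hv => hp v (Finset.mem_union_right _ hv)⟩⟩, inf_le_left, inf_le_right⟩)
    (fun I hI => hI.1) N
  refine ⟨s, fun p hp => ?_⟩
  obtain ⟨f, hf, f', hf', e⟩ := Submodule.mem_sup.1 (hI (hs p hp))
  have h1 : f ∈ G.An W0 := by
    rintro B _ j' v ψ ⟨w, Z, u, hu, hk, rfl, rfl⟩ hm
    have hw := hW w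
    rw [← hk] at hw
    obtain ⟨k, hk'⟩ := Crv.hm_nil Z hm
    refine Submodule.mem_sInf.1 hf (RingHom.ker ψ) ⟨⟨k, hk'⟩, {w}, fun q hq => ?_⟩
    rw [RingHom.mem_ker, Outg.lam_eq Z hm.c (hU.ev B Z ψ ⟨Outg.cl_of hC.cx Z hu hw, hm⟩) hu
      fun i => hw.yz i i.zero_le, ← RingHom.mem_ker, hk, Ideal.mem_torsionOf_iff]
    exact hq w (Finset.mem_singleton_self w)
  have h2 := Outg.lam_eq _ (Outg.pt_hm hC.cx j G).c
    (hU.ev _ _ _ ⟨Gpo.ofObj_cl (Outg.pt_ty hC.cx j), Outg.pt_hm hC.cx j G⟩) (Outg.pt_std hC.cx j)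
    (fun i => (congrArg (Ideal.Quotient.mk _) (MvPolynomial.eval₂Hom_X' _ _ _)).trans
      (map_zero _)) p
  rw [← e, map_add, hN f' hf', add_zero, RingHom.comp_apply, h0 f h1, map_zero,
    RingHom.comp_apply, eq_comm, Ideal.Quotient.eq_zero_iff_mem, hϖ.maximalIdeal_eq,
    Ideal.span_singleton_pow, Ideal.mem_span_singleton] at h2
  exact (pow_dvd_pow ϖ j.le_succ).trans h2

end Vale.Agent.P022G
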