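import Vale.Agent.P022G.Mod.Gp
import Vale.Agent.P022D.As.Cov

/-! # P022G, row OUTG: the point is a limit of systems which occur in the module -/

set_option linter.all false

open IsLocalRing Filter MvPowerSeries NumberField

noncomputable section

namespace Vale.Agent.P022G.H94

open Vale.Agent.P022 Vale.Agent.P022G.R Vale.Agent.P022G.Loc Vale.Agent.P022G.Mod
open Vale.Agent.P022E.As (Tg cc tt dd yy Gw mT ev0 pk)
open Vale.Agent.P027M.S (Inert mx)
open Vale.Agent.P022D.Core (PS io y1 Coef)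
open Vale.Agent.P022D.Sel (M2)
open Vale.Agent.P022E.Loc (Pl)
open Vale.Agent.P022F.End0 (evc evt evd evy)
open Ideal (torsionOf mem_torsionOf_iff)

variable {O F : Type} [CommRing O] [IsLocalRing O] [Field F] [CharP F 2] {S : Dat O F} {L : Pl O}
  {X : Finset ℕ} {as : ℕ}

theorem unit_diff (hC : Cx S L X as) : IsUnit (L.r S.g0 0 0 - L.r S.g0 1 1) := by
  by_contra hn
  have := (hC.ok.ker _).2 ((mem_maximalIdeal _).2 hn)
  rw [map_sub] at this
  refine S.dne ?_
  rw [← hC.ok.lift]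
  exact sub_eq_zero.1 this

theorem unit_tr (hC : Cx S L X as) : IsUnit (L.r S.g0).trace := by
  by_contra hn
  have := (hC.ok.ker _).2 ((mem_maximalIdeal _).2 hn)
  rw [Matrix.trace_fin_two, map_add] at this
  refine S.dne ?_
  rw [← hC.ok.lift]
  exact (CharTwo.add_eq_zero.1 this)

/-- the good ideals for the smaller set of places are good -/
theorem gw_sub (hC : Cx S L X as) {ϖ : O} {Q : Finset ℕ} {r : ℕ} (hQ : ∀ l ∈ X, l ∉ Q)
    {a : Ideal (Tg O)} (h : Gw ϖ (subL L X) (S.T \ X) Q r a) : Gw ϖ L S.T Q r a := by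
  refine ⟨h.fin, h.nil0, h.nilt, h.nild, h.nily, h.t1, h.tc, h.tm, h.d1, h.dm, h.opn,
    fun l h1 h2 => h.unr l h1 fun k => h2 (Finset.mem_sdiff.1 k).1, h.clt, fun g hg => ?_, h.yz⟩
  rcases hg with k | k | ⟨l, hl, rfl⟩ | k
  · exact h.cld g (Or.inl k)
  · exact h.cld g (Or.inr (Or.inl k))
  · by_cases hX : l ∈ X
    · have hu : ∀ g, tt (g * L.τ l) - tt g ∈ a := h.unr l (hC.ok.pr l hl).1
        (fun k => (Finset.mem_sdiff.1 k).2 hX) (hQ l hX) _ (hC.ok.hP l hl).1 (hC.ok.hP l hl).2 _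
        (hC.ok.tm l hl).tau
      have h1 : L.r (L.τ l) = 1 := hC.unr l (hC.ok.pr l hl).1 (Or.inr hX) _ (hC.ok.hP l hl).1
        (hC.ok.hP l hl).2 _ (hC.ok.tm l hl).tau
      rw [h1, Matrix.det_one, ← Ideal.Quotient.eq]
      have e := fun g => Ideal.Quotient.eq.2 (hu g)
      have e1 := e 1
      rw [one_mul, Ideal.Quotient.eq.2 h.t1, map_ofNat] at e1
      have e2 := e (S.g0 * (L.τ l)⁻¹)
      rw [inv_mul_cancel_right] at e2
      have e3 := Ideal.Quotient.eq.2 (h.tm S.g0 (L.τ l))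
      rw [map_mul, map_add, map_mul, e1, e, ← e2] at e3
      have hun : IsUnit (Ideal.Quotient.mk a (tt S.g0)) := by
        obtain ⟨k, hk⟩ := h.nilt S.g0
        have n1 : IsNilpotent (Ideal.Quotient.mk a (tt S.g0 - cc (L.r S.g0).trace)) :=
          ⟨k, by rw [← map_pow]; exact Ideal.Quotient.eq_zero_iff_mem.2 hk⟩
        have u1 : IsUnit (Ideal.Quotient.mk a (cc (L.r S.g0).trace)) :=
          ((unit_tr hC).map (MvPolynomial.C : O →+* Tg O)).map _
        have := n1.isUnit_add_right_of_commute u1 (Commute.all _ _)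
        rwa [← map_add, sub_add_cancel] at this
      have e4 : cc (1 : O) = 1 := map_one MvPolynomial.C
      rw [e4, map_one]
      exact hun.mul_left_cancel (by linear_combination -e3)
    · refine h.cld _ (Or.inr (Or.inr (Or.inl ⟨l, ?_, rfl⟩)))
      rcases Finset.mem_union.1 hl with k | k
      · exact Finset.mem_union_left _ k
      · exact Finset.mem_union_right _ (Finset.mem_sdiff.2 ⟨k, hX⟩)
  · exact h.cld g (Or.inr (Or.inr (Or.inr k)))

theorem ev_aT (hC : Cx S L X as) (g : GQ) : ev0 L.r (aT S L g) = L.r g 0 0 := by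
  obtain ⟨-, -, d1, d2⟩ := hC.g0
  have hv := Ring.mul_inverse_cancel _ (unit_diff hC)
  simp only [aT, P022D.Gma.ent, map_mul, map_sub, evc, evt, Matrix.trace_fin_two,
    Matrix.mul_apply, Fin.sum_univ_two, d1, d2]
  linear_combination L.r g 0 0 * hv

theorem ev_vT (hC : Cx S L X as) {ι : Type} (γ : ι → GQ) (s : Sy ι) :
    ev0 L.r (vT S L (fun i => L.r (γ i)) γ s) = 0 := by
  rcases s with s | s | s
  · refine (map_sub _ _ _).trans ?_
    rw [ev_aT hC]
    exact sub_eq_zero.2 (evc _ _).symm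
  · refine (map_sub _ (dT S L (γ s)) _).trans ?_
    rw [dT, map_sub, ev_aT hC, evt, Matrix.trace_fin_two, add_sub_cancel_left]
    exact sub_eq_zero.2 (evc _ _).symm
  · refine (map_sub _ (xT S L (γ s.1) (γ s.2)) _).trans ?_
    rw [xT, map_sub, map_mul, ev_aT hC, ev_aT hC, ev_aT hC, map_mul, Matrix.mul_apply,
      Fin.sum_univ_two, add_sub_cancel_left]
    exact sub_eq_zero.2 (evc _ _).symm

theorem outgC (h1 : POV) (h2 : GPW) (h3 : GPO) : OUTG := by
  classical
  intro O F _ _ _ _ _ _ _ ϖ S L X as β τ ι' _ _ _ K ι _ G hϖ hC hK W0 _ _ hW hA j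
  have H : Fc ϖ S L := fc_of h1 h2 h3 O F ϖ S L X as β τ ι' K ι G hϖ hC hK
  haveI := P022D.As.base O (Sy ι)
  have gd : Gd (GP S L ∅ 0) W0 := H.gd fun w => gw_sub hC.cx (fun l _ => Finset.notMem_empty l) (hW w)
  have fm := H.fm0 G
  let a : Finset W0 → Ideal (Tg O) := fun s => s.inf fun v => torsionOf (Tg O) W0 v
  have ha : ∀ s, a s ∈ GP S L ∅ 0 := fun s => by
    induction s using Finset.induction_on with
    | empty => exact Or.inl rfl
    | insert v s _ ih =>
      have : a (insert v s) = torsionOf (Tg O) W0 v ⊓ a s := Finset.inf_insert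
      rw [this]
      exact H.inf' _ (gd v) _ ih
  have hb : pk ϖ L.r j ∈ GP S L ∅ 0 := Or.inr (H.pt j ∅ 0)
  have hev : ∀ f, Ph (vA G) (pk ϖ L.r j) f = Ideal.Quotient.mk _ (cc (constantCoeff f)) := fun f => by
    have e : (fun s => Ideal.Quotient.mk (pk ϖ L.r j) (vA G s)) = fun _ => 0 :=
      funext fun s => Ideal.Quotient.eq_zero_iff_mem.2 (by
        change ev0 L.r _ ∈ Ideal.span _
        rw [show ev0 L.r (vA G s) = 0 from ev_vT hC.cx G.γ s]
        exact zero_mem _)
    rw [Ph, e, P022D.R.evl_zero]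
    rfl
  have key : ∃ s, ∀ f, Ph (vA G) (a s) f = 0 → Ph (vA G) (pk ϖ L.r j) f = 0 := by
    by_contra hn
    push Not at hn
    obtain ⟨y, hy⟩ := cpt (P := PS O (Sy ι))
      (fun s : Finset W0 => {f | Ph (vA G) (a s) f = 0 ∧ Ph (vA G) (pk ϖ L.r j) f ≠ 0})
      (fun s s' => ⟨s ∪ s', fun f hf => ⟨(fm.fac _ (ha _) _ (ha _)
          (Finset.inf_mono Finset.subset_union_left) f 0 (hf.1.trans (map_zero _).symm)).trans
          (map_zero _), hf.2⟩, fun f hf => ⟨(fm.fac _ (ha _) _ (ha _)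
          (Finset.inf_mono Finset.subset_union_right) f 0 (hf.1.trans (map_zero _).symm)).trans
          (map_zero _), hf.2⟩⟩) hn fun s => by
        obtain ⟨k, hk⟩ := fm.ker _ (ha s)
        obtain ⟨k', hk'⟩ := fm.ker _ hb
        refine ⟨k + k', fun x hx y hxy => ?_⟩
        have e1 := hk _ (Ideal.pow_le_pow_right (Nat.le_add_right k k') hxy)
        have e2 := hk' _ (Ideal.pow_le_pow_right (Nat.le_add_left k' k) hxy)
        rw [map_sub, sub_eq_zero] at e1 e2
        exact ⟨e1 ▸ hx.1, e2 ▸ hx.2⟩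
    have hyA : y ∈ G.An W0 := (H.mem_An G gd y).2 fun w => by
      have := (hy {w}).1
      exact (fm.fac _ (ha _) _ (gd w) (Finset.inf_le (Finset.mem_singleton_self w)) y 0
        (this.trans (map_zero _).symm)).trans (map_zero _)
    refine (hy ∅).2 ?_
    rw [hev, hA y hyA]
    exact (congrArg _ (map_zero MvPolynomial.C)).trans (map_zero _)
  obtain ⟨s, hs⟩ := key
  refine ⟨s, fun p hp => ?_⟩
  have hp' : p ∈ a s := (Finset.le_inf (a := Ideal.span {p}) fun v hv =>
    (Ideal.span_singleton_le_iff_mem _).2 ((mem_torsionOf_iff _ _).2 (hp v hv)))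
      (Ideal.mem_span_singleton_self p)
  have hc := H.inf' _ (ha s) _ hb
  obtain ⟨f, hf⟩ := fm.sur _ hc (Ideal.Quotient.mk _ p)
  have e1 := hs f ((fm.fac _ hc _ (ha s) inf_le_left f p hf).trans
    (Ideal.Quotient.eq_zero_iff_mem.2 hp'))
  rw [fm.fac _ hc _ hb inf_le_right f p hf, Ideal.Quotient.eq_zero_iff_mem] at e1
  have e2 : ev0 L.r p ∈ Ideal.span {ϖ ^ (j + 1)} := e1
  exact (pow_dvd_pow ϖ (Nat.le_succ j)).trans (Ideal.mem_span_singleton.1 e2)

end Vale.Agent.P022G.H94
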