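import Vale.Agent.P022G.Rows
import Vale.Agent.P022G.Tw.Crv
import Vale.Agent.P022G.Conn.Dim
import Vale.Agent.P022G.Jac
import Vale.Agent.P022D.As.Cov
import Vale.Agent.P022D.PA.Lim

/-!
# P022G, row PCEX: the evaluation maps and the limit of the minors
-/

set_option linter.all false

noncomputable section

namespace Vale.Agent.P022G.PcB

open NumberField IsLocalRing MvPowerSeries Filter
open Vale.Agent.P022 Vale.Agent.P022G.R Vale.Agent.P022G.Loc
open Vale.Agent.P027M.S (Inert mx)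
open Vale.Agent.P022D.Sel (M2)
open Vale.Agent.P022D.Core (PS io y1 Coef)
open Vale.Agent.P022E.Loc (Pl)
open _root_.P022G.Sel (tI rd)

theorem der_pow {O P : Type} [CommRing O] [CommRing P] [Algebra O P] (D : Derivation O P P)
    (I : Ideal P) (j : ℕ) : ∀ x ∈ I ^ (j + 1), D x ∈ I ^ j := by
  induction j with
  | zero => intro x _; rw [pow_zero, Ideal.one_eq_top]; trivial
  | succ j ih =>
    intro x hx
    rw [pow_succ] at hx
    refine Submodule.mul_induction_on hx (fun a ha b hb => ?_) fun a b ha hb => ?_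
    · rw [Derivation.leibniz, smul_eq_mul, smul_eq_mul]
      refine Ideal.add_mem _ (Ideal.mul_mem_right _ _ ha) ?_
      rw [pow_succ, mul_comm b]
      exact Ideal.mul_mem_mul (ih a ha) hb
    · rw [map_add]; exact Ideal.add_mem _ ha hb

theorem loc_of_fin {P V : Type} [CommRing P] [IsLocalRing P] [CommRing V] [IsLocalRing V]
    [Finite (ResidueField V)] (φ : P →+* V) : maximalIdeal P = (maximalIdeal V).comap φ := by
  have : Finite (V ⧸ maximalIdeal V) := inferInstanceAs (Finite (ResidueField V))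
  have : Finite (P ⧸ (maximalIdeal V).comap φ) :=
    Finite.of_injective _ (Ideal.quotientMap_injective (f := φ) (I := maximalIdeal V))
  have hp : ((maximalIdeal V).comap φ).IsPrime := Ideal.IsPrime.comap φ
  exact (eq_maximalIdeal (Ideal.Quotient.maximal_of_isField _ (Finite.isField_of_domain _))).symm

theorem lt_card {V : Type} [CommRing V] [IsDomain V] {t : V} (ht : Irreducible t)
    (hf : ∀ N, Finite (V ⧸ tI t N)) (N : ℕ) : N < Nat.card (V ⧸ tI t N) := by
  induction N with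
  | zero => have := hf 0; exact Nat.card_pos
  | succ N ih =>
    have := hf (N + 1)
    have hle : tI t (N + 1) ≤ tI t N := Ideal.span_singleton_le_span_singleton.2 (by
      rw [pow_succ]; exact dvd_mul_right _ _)
    have hs := Ideal.Quotient.factor_surjective hle
    refine lt_of_le_of_lt ih (lt_of_le_of_ne (Nat.card_le_card_of_surjective _ hs) fun e => ?_)
    have hi := ((Nat.bijective_iff_surjective_and_card _).2 ⟨hs, e.symm⟩).1
    have h0 : Ideal.Quotient.mk (tI t (N + 1)) (t ^ N) = 0 := hi (by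
      rw [map_zero, Ideal.Quotient.factor_mk]
      exact Ideal.Quotient.eq_zero_iff_mem.2 (Ideal.mem_span_singleton_self _))
    have h1 := Ideal.mem_span_singleton.1 (Ideal.Quotient.eq_zero_iff_mem.1 h0)
    exact absurd ((pow_dvd_pow_iff ht.ne_zero ht.not_isUnit).1 h1) (Nat.not_succ_le_self N)

/-- the limit of the minors does not vanish -/
theorem mn_ne {O σ V : Type} [CommRing O] [IsLocalRing O] [CommRing V] [IsDomain V]
    [IsDiscreteValuationRing V] [Finite (ResidueField V)] {t : V} (ht : Irreducible t)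
    (θ : PS O σ →+* V) (U : Filter ℕ) [U.NeBot] {s : ℕ} (kn : ℕ → Fin s → PS O σ)
    (k : Fin s → PS O σ) (col : Fin s → σ) (hk : ∀ a, P022D.PA.Cv U (fun n => kn n a) (k a))
    (M : ℕ) (h : ∀ᶠ n in U, (Matrix.of fun a b => θ (pderiv O (col b) (kn n a))).det ∣ t ^ M) :
    θ (Rel.mn k col) ≠ 0 := by
  intro h0
  obtain ⟨n, h1, h2⟩ := (h.and (eventually_all.2 fun a => hk a (M + 2))).exists
  let mk := Ideal.Quotient.mk (tI t (M + 1))
  have e : mk (Matrix.of fun a b => θ (pderiv O (col b) (kn n a))).det =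
      mk (θ (Rel.mn k col)) := by
    rw [Rel.mn, RingHom.map_det, RingHom.map_det, RingHom.map_det]
    congr 1
    ext a b
    refine (Ideal.Quotient.mk_eq_mk_iff_sub_mem _ _).2 ?_
    have h3 := der_pow (pderiv O (col b)) _ _ _ (h2 a)
    rw [loc_of_fin θ] at h3
    have h4 := Ideal.le_comap_pow θ (M + 1) h3
    rw [Ideal.mem_comap, map_sub, map_sub, ht.maximalIdeal_eq, Ideal.span_singleton_pow] at h4
    exact h4
  rw [h0, map_zero] at e
  have h5 := (Ideal.mem_span_singleton.1 (Ideal.Quotient.eq_zero_iff_mem.1 e)).trans h1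
  exact absurd ((pow_dvd_pow_iff ht.ne_zero ht.not_isUnit).1 h5) (Nat.not_succ_le_self M)

variable {O F : Type} [CommRing O] [IsDomain O] [IsDiscreteValuationRing O] [Coef O] [Field F]
  {S : Dat O F} {L : Pl O} {β : Type} {τ ι' : β → Type} [Fintype β] [∀ b, Fintype (τ b)]
  [∀ b, Fintype (ι' b)] {K : Kx O β τ ι' L.C} {ι : Type} [Fintype ι] (G : Gs S L K.g ι)
  {V : Type} [CommRing V] [IsDomain V] [IsDiscreteValuationRing V] [CharP V 2]
  [IsAdicComplete (maximalIdeal V) V] [Finite (ResidueField V)] {t : V} {j : O →+* V}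
  {ρ : GQ →* GL (Fin 2) V} {θ : PS O (Sy ι) →+* V}

theorem v0_mem {ϖ : O} (hL : OkG L S) (hK : K.Ok L S ϖ) (ht : Irreducible t)
    (hc : G.Crv t j ρ θ) (r : ℕ) (s : V0 τ L ι S.T r) :
    v0 K G r j (fun g => (ρ g : M2 V)) (fun _ => 1) (fun _ => 1) (fun _ => 1) s ∈
      maximalIdeal V := by
  have hj : ∀ c, S.red c = 0 → j c = 0 := fun c h => Tw.j_zero j ((hL.ker c).1 h)
  obtain ⟨A, _, u, ι0, π, H⟩ := Tw.ex_sb t j 0 S.red hL.ker ht.not_isUnit (Tw.fin_tI ht _)
  obtain ⟨X, h1, h2, h3, h4, h5, h6⟩ := Tw.crv_obj hL hj hc H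
  have h7 := Tw.v0_res K G r hL.lift X (hK.loc.res A X h6.1) (fun _ => 1)
    (fun _ => by simp [mx]) s
  obtain ⟨o, v, h8⟩ := H.ran (v0 K G r X.ι X.ρ X.α X.β (fun _ => 1) s)
  have h9 := H.res _ _ _ h8
  rw [← h2, h7] at h9
  rw [hj o h9.symm, zero_add (t * v), Tw.v0_map] at h8
  have e1 : u.comp X.ι = (Ideal.Quotient.mk (tI t (0 + 1))).comp j :=
    RingHom.ext fun o => by rw [h1]; exact H.cst o
  have h10 := Tw.v0_map (Ideal.Quotient.mk (tI t (0 + 1))) K G r j (fun g => (ρ g : M2 V))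
    (fun _ => 1) (fun _ => 1) (fun _ => 1) s
  simp only [h3, h4, h5, e1, P022D.R.map_one'] at h8 h10
  have h11 := (Ideal.Quotient.mk_eq_mk_iff_sub_mem _ _).1 (h10.trans h8)
  rw [tI, zero_add, pow_one] at h11
  rw [ht.maximalIdeal_eq]
  have := Ideal.add_mem _ h11 (Ideal.mul_mem_right v _ (Ideal.mem_span_singleton_self t))
  rwa [sub_add_cancel] at this

theorem ex_th {ϖ : O} (hL : OkG L S) (hK : K.Ok L S ϖ) (ht : Irreducible t)
    (hc : G.Crv t j ρ θ) (r : ℕ) : ∃ θ1 : S1 O τ L ι S.T r →+* V,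
      Cf K G r j ρ (θ1.comp (io O _ r)) ∧ ∀ i, θ1 (y1 O _ i) = 0 := by
  obtain ⟨φ, h1, h2⟩ := Conn.exists_ev (ι := V0 τ L ι S.T r ⊕ Fin r) (maximalIdeal V) j
    (Sum.elim (v0 K G r j (fun g => (ρ g : M2 V)) (fun _ => 1) (fun _ => 1) fun _ => 1)
      fun _ => 0) (by
      rintro (s | i)
      · exact v0_mem G hL hK ht hc r s
      · exact Ideal.zero_mem _)
  refine ⟨φ, ⟨fun o => ?_, fun s => ?_⟩, fun i => h2 _⟩
  · exact (congrArg φ (MvPowerSeries.rename_C _ o)).trans (h1 o)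
  · exact (congrArg φ (MvPowerSeries.rename_X _ s)).trans (h2 _)

omit [Fintype β] [∀ b, Fintype (τ b)] [∀ b, Fintype (ι' b)] in
theorem ex_jr (r : ℕ) : ∃ jr : PP O ι r →+* PS O (Sy ι), Hm C (G.jv r) jr := by
  have := (P022D.As.base O (Sy ι)).cpl
  have hX : ∀ (c : O) (s : Sy ι), (C c + X s : PS O (Sy ι)) - C c ∈
      maximalIdeal (PS O (Sy ι)) := fun c s => by
    rw [add_sub_cancel_left, P022D.CA.Cpl.mem_max_iff, constantCoeff_X]
    exact Ideal.zero_mem _
  obtain ⟨φ, h1, h2⟩ := Conn.exists_ev (ι := Sy (ι ⊕ Fin r) ⊕ Fin r)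
    (maximalIdeal (PS O (Sy ι))) (C : O →+* PS O (Sy ι)) (G.jv r) (by
      rintro (((i | i) | (i | i) | ⟨i | i, k | k⟩) | i)
      · exact hX _ _
      · simp [Gs.jv, gv, Gs.rcr]
      · exact hX _ _
      · simp [Gs.jv, gv, Gs.rcr]
      · exact hX _ _
      · simp [Gs.jv, gv, Gs.rcr]
      · simp [Gs.jv, gv, Gs.rcr]
      · simp [Gs.jv, gv, Gs.rcr]
      · exact Ideal.zero_mem _)
  exact ⟨φ, h1, h2⟩

end Vale.Agent.P022G.PcB
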