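import Vale.Agent.P022G.Rows2
import Vale.Agent.P022G.Rw.PcB
import Vale.Agent.P022G.Lb90.All
import Vale.Agent.P022E.GW.TauG

/-!
# P022G, row PCEX: the data at a nice curve exist
-/

set_option linter.all false

noncomputable section

namespace Vale.Agent.P022G

open NumberField IsLocalRing MvPowerSeries Filter
open Vale.Agent.P022 Vale.Agent.P022G.R Vale.Agent.P022G.Loc
open Vale.Agent.P027M.S (Inert mx)
open Vale.Agent.P022D.Sel (M2 Ginf)
open Vale.Agent.P022D.Core (PS io y1 Coef)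
open Vale.Agent.P022E.Loc (Pl)
open Vale.Agent.P022E.GW (Ov Gn)
open _root_.P022G.Sel (tI rd)

/-- the auxiliary primes of one level -/
def EXQ : Prop := All fun O F _ _ _ _ _ _ _ ϖ S L X as β τ ι' _ _ _ K ι _ G =>
  ∀ (V : Type) [CommRing V] [IsDomain V] [IsDiscreteValuationRing V] [CharP V 2]
    [Finite (ResidueField V)] (t : V) (j : O →+* V)
    (ρ : GQ →* GL (Fin 2) V) (θ : PS O (Sy ι) →+* V), Irreducible t → G.Crv t j ρ θ →
    _root_.P022G.Sel.Nice t ρ S.T L.D → ∀ (r : ℕ) (sg : Fin r → GQ) (U : Subgroup GQ),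
    IsOpen (U : Set GQ) → ∀ T₁ : Finset ℕ,
    (∀ i, sg i ∈ Ginf ∧ IsUnit (_root_.P022G.Sel.mr ρ (sg i)).trace) → ∀ (n : ℕ) (A : Finset ℕ),
    ∃ q : Fin r → ℕ, Function.Injective q ∧ ∀ i, Ar S (A ∪ S.T) n (q i) ∧
      _root_.P022G.Sel.AuxR ρ U T₁ (sg i) (q i)

theorem pcex_of (hQ : EXQ) (hT : TANV2) (hL : LAM) : PCEX2 := by
  intro O F _ _ _ _ _ _ _ ϖ S L X as β τ ι' _ _ _ K ι _ G hϖ hC hK hE V _ _ _ _ _ _ t j ρ θ ht hc
    hN hS hI
  classical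
  have hf := Tw.fin_tI ht
  obtain ⟨T₁, c, -, hs⟩ := _root_.P022G.Lb90.selC ht (hf 1) hN hS
  obtain ⟨r, sg, U, hU, -, -, hsg, hb⟩ := hs c
  refine ⟨r, fun n₀ A => ?_⟩
  choose q hq1 hq2 using fun n => hQ O F ϖ S L X as β τ ι' K ι G hϖ hC hK V t j ρ θ ht hc hN r sg U
    hU T₁ hsg (n + n₀) A
  refine ⟨q, fun n => ⟨hq1 n, fun i => (hq2 n i).1⟩, fun τq hτq => ?_⟩
  have hg : ∀ n i, ∃ g, q n i ∉ S.T ∧ ∃ P, Ov (q n i) P ∧ Gn (q n i) P g := fun n i => by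
    obtain ⟨P, hP, -⟩ := hτq n i
    obtain ⟨g, hg⟩ := P022E.GW.Tg.ex_gn' hP
    exact ⟨g, fun h => (hq2 n i).1.out (Finset.mem_union_right _ h), P, hP, hg⟩
  choose τ' hτ' using hg
  obtain ⟨θ1, hcf, hy⟩ := PcB.ex_th G hC.cx.ok hK ht hc r
  obtain ⟨jr, hjr⟩ := PcB.ex_jr G r
  have hcard : 2 * r + 1 ≤ Fintype.card (Rs (ι ⊕ Fin r) S.T) := by
    have := Finset.card_pos.2 ⟨_, S.hl0⟩
    simp only [Fintype.card_sum, Fintype.card_prod, Fintype.card_fin, Fintype.card_coe]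
    omega
  obtain ⟨s, hsc⟩ : ∃ s, s + (2 * r + 1) = Fintype.card (Rs (ι ⊕ Fin r) S.T) :=
    ⟨_, Nat.sub_add_cancel hcard⟩
  have hj : ∀ n, ∃ (k : Fin s → Kn K G r (q n) (τ' n)) (cl : Fin s → Rs (ι ⊕ Fin r) S.T),
      (Matrix.of fun a b => θ1.comp (io O _ r) (pderiv O (Sum.inr (cl b)) (k a).1)).det ∣
        (t ^ c) ^ s := fun n => by
    obtain ⟨h1, h2⟩ := hb (q n) (hq1 n) fun i => (hq2 n i).2
    have h3 := (hT O F ϖ S L X as β τ ι' K ι G hϖ hC hK hE V t j ρ θ ht hc r (q n) (τ' n) (hτ' n)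
      _ hcf c h1).trans h2
    have h4 := PcB.lt_card ht hf c
    have := hf c
    obtain ⟨k, cl, -, h5⟩ := _root_.P022G.Jac.jac (t ^ c) s
      (fun (f : Kn K G r (q n) (τ' n)) (z : Rs (ι ⊕ Fin r) S.T) =>
        θ1.comp (io O _ r) (pderiv O (Sum.inr z) f.1)) (by omega) (by
        have e : Fintype.card (Rs (ι ⊕ Fin r) S.T) - s + 1 = 2 * r + 2 := by omega
        rw [e]
        refine Nat.lt_of_mul_lt_mul_right (a := Nat.card (V ⧸ tI t c) ^ 4) (h3.trans_lt ?_)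
        calc c * Nat.card (V ⧸ tI t c) ^ (2 * r + 5)
            < Nat.card (V ⧸ tI t c) * Nat.card (V ⧸ tI t c) ^ (2 * r + 5) :=
              Nat.mul_lt_mul_of_pos_right h4 (Nat.pow_pos (by omega))
          _ = _ := by ring)
    exact ⟨k, cl, h5⟩
  choose kn cl hkn using hj
  choose tu du hu using fun n => hL O F ϖ S L X as β τ ι' K ι G hϖ hC hK r (q n) (τ' n) (hτ' n)
  let W : Ultrafilter ℕ := Ultrafilter.of atTop
  obtain ⟨col, hcol⟩ := Ultrafilter.eq_pure_of_finite (W.map cl)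
  have hcol' : ∀ᶠ n in (W : Filter ℕ), cl n = col := by
    have : {col} ∈ W.map cl := by rw [hcol]; exact Ultrafilter.mem_pure.2 rfl
    exact this
  have b0 := P022D.As.base O (V0 τ L ι S.T r)
  have b1 := P022D.As.base O (Sy (ι ⊕ Fin r))
  choose k hk using fun a => P022D.PA.lim (S0 O τ L ι S.T r) W fun n => (kn n a).1
  choose ta hta using fun i => P022D.PA.lim (PS O (Sy (ι ⊕ Fin r))) W fun n => tu n (τq n i)
  choose da hda using fun i => P022D.PA.lim (PS O (Sy (ι ⊕ Fin r))) W fun n => du n (τq n i)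
  refine ⟨s, ⟨t, j, ρ, θ, θ1, jr, W, q, τ', τq, fun n a => (kn n a).1, k, fun a => Sum.inr (col a),
    fun n i => tu n (τq n i), fun n i => du n (τq n i), ta, da, G⟩,
    ⟨hc, hI, hcf, hy, hjr, Ultrafilter.of_le _, hq1, hτ', hτq, fun n a => (kn n a).2, hk, ?_, ?_,
      hsc, fun n i B _ Z ψ h1 h2 => hu n B Z ψ h1 h2 _, hta, hda⟩, rfl, rfl, rfl, rfl, rfl⟩
  · rintro a ⟨x, hx⟩
    cases hx
  · refine PcB.mn_ne ht (θ1.comp (io O _ r)) (W : Filter ℕ) (fun n a => (kn n a).1) k _ hk (c * s)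
      (hcol'.mono fun n hn => ?_)
    rw [pow_mul, ← hn]
    exact hkn n

end Vale.Agent.P022G
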