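import Vale.Agent.P022G.Rows2
import Vale.Agent.P022G.Tw.Crv
import Vale.Agent.P022G.Lb90.All
import Vale.Agent.P022G.Sel.Auxr
import Vale.Agent.P022G.Jac
import Vale.Agent.P022G.Mod.Ph
import Vale.Agent.P022D.Sel.Odd
import Vale.Agent.P022D.Fm.Unit
import Vale.Agent.P022E.GW.TauG
import Vale.Agent.P022D.As.Cov
import Vale.Agent.P022D.PA.Lim

/-!
# P022G, row PCEX2
-/

set_option linter.all false

noncomputable section

namespace Vale.Agent.P022G.H67

open NumberField IsLocalRing MvPowerSeries Filter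
open Vale.Agent.P022 Vale.Agent.P022G.R Vale.Agent.P022G.Loc Vale.Agent.P022G.Tw
open Vale.Agent.P027M.S (Inert mx)
open Vale.Agent.P022D.Sel (M2 Ginf)
open Vale.Agent.P022D.Core (PS io y1 Coef)
open Vale.Agent.P022E.Loc (Pl)
open Vale.Agent.P022E.GW (Ov Gn)
open _root_.P022G.Sel (tI rd mr AuxR TanS)

theorem ex_inj : ∀ (r : ℕ) (P : Fin r → ℕ → Prop), (∀ i (A : Finset ℕ), ∃ q, q ∉ A ∧ P i q) →
    ∃ q : Fin r → ℕ, Function.Injective q ∧ ∀ i, P i (q i)
  | 0, _, _ => ⟨Fin.elim0, fun a => a.elim0, fun a => a.elim0⟩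
  | r + 1, P, h => by
    classical
    obtain ⟨q, h1, h2⟩ := ex_inj r (fun i => P i.succ) fun i => h i.succ
    obtain ⟨a, h3, h4⟩ := h 0 (Finset.univ.image q)
    refine ⟨Fin.cons a q, Fin.cons_injective_iff.2 ⟨?_, h1⟩, fun i => Fin.cases h4 h2 i⟩
    rintro ⟨i, rfl⟩
    exact h3 (Finset.mem_image_of_mem _ (Finset.mem_univ i))

theorem der_pow {O A : Type} [CommRing O] [CommRing A] [Algebra O A] (D : Derivation O A A)
    (I : Ideal A) : ∀ (n : ℕ) (f : A), f ∈ I ^ (n + 1) → D f ∈ I ^ n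
  | 0, f, _ => by simp
  | n + 1, f, hf => by
    rw [pow_succ] at hf
    refine Submodule.mul_induction_on hf (fun a ha b hb => ?_) fun x y hx hy => ?_
    · rw [Derivation.leibniz, smul_eq_mul, smul_eq_mul]
      refine add_mem (Ideal.mul_mem_right _ _ ha) ?_
      rw [mul_comm, pow_succ]
      exact Ideal.mul_mem_mul (der_pow D I n a ha) hb
    · rw [map_add]; exact add_mem hx hy

section dvr
variable {V : Type} [CommRing V] [IsDomain V] [IsDiscreteValuationRing V] {t : V}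

theorem card_gt (ht : Irreducible t) (N : ℕ) [Finite (V ⧸ tI t N)] :
    N < Nat.card (V ⧸ tI t N) := by
  have key : ∀ a b : ℕ, a < b → b ≤ N →
      Ideal.Quotient.mk (tI t N) (t ^ a) ≠ Ideal.Quotient.mk (tI t N) (t ^ b) := by
    intro a b hab hb e
    have h1 : t ^ N ∣ t ^ a - t ^ b := Ideal.mem_span_singleton.1 (Ideal.Quotient.eq.1 e)
    have h2 : t ^ (a + 1) ∣ t ^ a - t ^ b := (pow_dvd_pow t (by omega)).trans h1
    have h3 : t ^ (a + 1) ∣ t ^ a := by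
      have := dvd_add h2 (pow_dvd_pow t (show a + 1 ≤ b by omega))
      rwa [sub_add_cancel] at this
    have := (pow_dvd_pow_iff ht.ne_zero ht.not_isUnit).1 h3
    omega
  have inj : Function.Injective
      (fun a : Fin (N + 1) => Ideal.Quotient.mk (tI t N) (t ^ (a : ℕ))) := by
    intro a b e
    rcases lt_trichotomy (a : ℕ) b with h | h | h
    · exact absurd e (key a b h (by omega))
    · exact Fin.ext h
    · exact absurd e.symm (key b a h (by omega))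
  have := Nat.card_le_card_of_injective _ inj
  rw [Nat.card_eq_fintype_card, Fintype.card_fin] at this
  omega

end dvr

theorem hm_max {O σ V : Type} [CommRing O] [IsLocalRing O] [Finite σ] [CommRing V] [IsLocalRing V]
    {j : O →+* V} {v : σ → V} {ψ : PS O σ →+* V} (h : Hm j v ψ) (hv : ∀ s, v s ∈ maximalIdeal V)
    (hj : ∀ c ∈ maximalIdeal O, j c = 0) : ∀ f ∈ maximalIdeal (PS O σ), ψ f ∈ maximalIdeal V := by
  intro f hf
  have e : (residue V).comp ψ = ((residue V).comp j).comp (constantCoeff : PS O σ →+* O) :=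
    Mod.hm_ext (j := (residue V).comp j) (v := fun _ => 0) (m := ⊥) (n := 1)
      ⟨fun o => congrArg (residue V) (h.c o), fun s => by
        rw [RingHom.comp_apply, h.x, residue_eq_zero_iff]; exact hv s⟩
      ⟨fun o => by simp, fun s => by simp⟩ (pow_one _) fun _ => Ideal.zero_mem _
  have := congrArg (fun φ : PS O σ →+* ResidueField V => φ f) e
  simp only [RingHom.comp_apply] at this
  rw [hj _ ((P022D.CA.Cpl.mem_max_iff f).1 hf), map_zero, residue_eq_zero_iff] at this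
  exact this

section
variable {O F : Type} [CommRing O] [IsDomain O] [IsDiscreteValuationRing O] [Coef O] [Field F]
  {S : Dat O F} {L : Pl O} {β : Type} {τ ι' : β → Type} {K : Kx O β τ ι' L.C} {ι : Type}
  {G : Gs S L K.g ι} {V : Type} [CommRing V] [IsDomain V] [IsDiscreteValuationRing V] [CharP V 2]
  [Finite (ResidueField V)] {t : V} {j : O →+* V} {ρ : GQ →* GL (Fin 2) V}
  {θ : PS O (Sy ι) →+* V}

theorem v0_max (hL : OkG L S) (hK : Loc L.D (ClG L S) (K.crd L S)) (ht : Irreducible t)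
    (hc : G.Crv t j ρ θ) (r : ℕ) (s : V0 τ L ι S.T r) :
    v0 K G r j (fun g => (ρ g : M2 V)) (fun _ => 1) (fun _ => 1) (fun _ => 1) s ∈
      maximalIdeal V := by
  have hj : ∀ c, S.red c = 0 → j c = 0 := fun c h => j_zero j ((hL.ker c).1 h)
  obtain ⟨A, _, u, ι0, π, H⟩ := ex_sb t j 0 S.red hL.ker ht.not_isUnit (fin_tI ht _)
  obtain ⟨Y, rfl, rfl, hα, hβ, hρ, hY⟩ := crv_obj hL hj hc H
  have e : u.comp Y.ι = (Ideal.Quotient.mk _).comp j := RingHom.ext H.cst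
  have h1 := v0_res K G r hL.lift Y (hK.res A Y hY.1) (fun _ => 1)
    (fun _ => by rw [mx, map_one]; rfl) s
  obtain ⟨o, w, h2⟩ := H.ran (v0 K G r Y.ι Y.ρ Y.α Y.β (fun _ => 1) s)
  have h3 := H.res _ _ _ h2
  rw [h1] at h3
  rw [hj o h3.symm, zero_add (t * w)] at h2
  have h4 : Ideal.Quotient.mk (tI t (0 + 1))
      (v0 K G r j (fun g => (ρ g : M2 V)) (fun _ => 1) (fun _ => 1) (fun _ => 1) s) =
      u (v0 K G r Y.ι Y.ρ Y.α Y.β (fun _ => 1) s) := by
    rw [v0_map, v0_map, e]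
    simp only [hρ, hα, hβ, P022D.R.map_one']
  rw [← h4] at h2
  have h5 := Ideal.mem_span_singleton.1 (Ideal.Quotient.eq.1 h2)
  rw [zero_add, pow_one] at h5
  rw [ht.maximalIdeal_eq, Ideal.mem_span_singleton]
  have := dvd_add h5 (dvd_mul_right t w)
  rwa [sub_add_cancel] at this

theorem reg (hL : OkG L S) (ht : Irreducible t) (hc : G.Crv t j ρ θ) {q : ℕ} (hq : q.Prime)
    (hT : q ∉ S.T) {φ : GQ} (h1 : IsFrob q φ) (h2 : IsUnit (mr ρ φ).trace) (φ' : GQ)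
    (h3 : IsFrob q φ') : (mx S.rb φ').trace ≠ 0 := by
  intro h0
  have h4 := (P022D.Fm.frob_tr ((Units.coeHom (M2 V)).comp ρ) hq (by
    rintro g ⟨P, a1, a2, a3⟩
    exact congrArg Units.val (crv_unr ht.not_isUnit hc hT ⟨hq, a1, a2⟩ a3)) h1 h3).1
  have h5 : IsUnit (ρ φ' : M2 V).trace := h4 ▸ h2
  have h6 : j (L.r φ').trace = 0 := by
    refine j_zero j ((hL.ker _).1 ?_)
    rw [← h0, ← hL.lift, Matrix.trace_fin_two, Matrix.trace_fin_two, map_add]
    rfl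
  have h7 := dvd_add (hc.res φ' 0 0) (hc.res φ' 1 1)
  rw [Matrix.trace_fin_two, map_add] at h6
  rw [Matrix.trace_fin_two] at h5
  have e : (ρ φ' : M2 V) 0 0 - j (L.r φ' 0 0) + ((ρ φ' : M2 V) 1 1 - j (L.r φ' 1 1)) =
      (ρ φ' : M2 V) 0 0 + (ρ φ' : M2 V) 1 1 := by linear_combination (-1 : V) * h6
  rw [e] at h7
  exact ht.not_isUnit (isUnit_of_dvd_unit h7 h5)

omit [Coef O] in
theorem jv_max [Fintype ι] (G : Gs S L K.g ι) (r : ℕ) (s : Sy (ι ⊕ Fin r) ⊕ Fin r) :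
    G.jv r s ∈ maximalIdeal (PS O (Sy ι)) := by
  rw [P022D.CA.Cpl.mem_max_iff]
  have : constantCoeff (G.jv r s) = 0 := by
    rcases s with ((i | i) | (i | i) | ⟨i | i, k | k⟩) | i <;>
      simp [Gs.jv, gv, Gs.rcr, aS, dS, xS]
  rw [this]
  exact zero_mem _

end

theorem card_rs (ι : Type) [Fintype ι] (i0 : ι) (T : Finset ℕ) (r : ℕ) :
    2 * r + 1 ≤ Fintype.card (Rs (ι ⊕ Fin r) T) := by
  have : 0 < Fintype.card ι := Fintype.card_pos_iff.2 ⟨i0⟩
  simp only [Fintype.card_sum, Fintype.card_fin]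
  omega

theorem pcex2C (hT : TANV2) (hLam : LAM) : PCEX2 := by
  intro O F _ _ _ hO _ _ _ ϖ S L X as β τ ι' _ _ _ K ι _ G hϖ hC hK hE V _ _ _ _ _ _ t j ρ θ ht hc
    hN hS hI
  classical
  have hL := hC.cx.ok
  haveI := hO.cpl
  obtain ⟨T₁, C₀, hT₁, hsel⟩ := _root_.P022G.Lb90.selC ht (fin_tI ht 1) hN hS
  obtain ⟨r, σ, U, u1, -, -, u4, u5⟩ := hsel C₀
  haveI := fin_tI ht C₀
  have hcard := card_gt ht C₀
  refine ⟨r, fun n₀ A => ?_⟩
  choose W w1 w2 using P022D.Sel.cong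
  have h2T : 2 ∈ S.T := (hc.lv 0).h2
  have hq : ∀ n, ∃ q : Fin r → ℕ, Function.Injective q ∧
      ∀ i, AuxR ρ (U ⊓ W (n + n₀)) (T₁ ∪ A) (σ i) (q i) := fun n =>
    ex_inj r _ fun i B => by
      obtain ⟨q, a1, a2, a3⟩ := _root_.P022G.Sel.auxrC V t ρ S.T L.D ht (fin_tI ht 1) hN
        (U ⊓ W (n + n₀)) (T₁ ∪ A ∪ B) (σ i) (u1.inter (w1 _)) (u4 i).2
      exact ⟨q, fun h => a2 (Finset.mem_union_right _ h), a1,
        fun h => a2 (Finset.mem_union_left _ h), a3⟩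
  choose q q1 q2 using hq
  have qT : ∀ n i, q n i ∉ S.T := fun n i h => (q2 n i).2.1 (Finset.mem_union_left _ (hT₁ h))
  refine ⟨q, fun n => ⟨q1 n, fun i => ?_⟩, fun τq hτq => ?_⟩
  · obtain ⟨a1, a2, φ, m, a3, -, a4, a5⟩ := q2 n i
    obtain ⟨b1, b2⟩ := w2 (n + n₀) (q n i) m (σ i) φ a1 (fun h => qT n i (h ▸ h2T)) (u4 i).1 a3 a4.2
    refine ⟨a1, fun h => ?_, b1, b2, reg hL ht hc a1 (qT n i) a3 a5⟩
    rcases Finset.mem_union.1 h with h | h
    · exact a2 (Finset.mem_union_right _ h)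
    · exact qT n i h
  have hτ : ∀ n i, ∃ τ', ∃ P, Ov (q n i) P ∧ Gn (q n i) P τ' := fun n i => by
    obtain ⟨a1, -, φ, m, ⟨P, b1, b2, -⟩, -⟩ := q2 n i
    obtain ⟨τ', h⟩ := P022E.GW.Tg.ex_gn' (q := q n i) (P := P) ⟨a1, b1, b2⟩
    exact ⟨τ', P, ⟨a1, b1, b2⟩, h⟩
  choose τ' hτ' using hτ
  have gn : ∀ n i, q n i ∉ S.T ∧ ∃ P, Ov (q n i) P ∧ Gn (q n i) P (τ' n i) :=
    fun n i => ⟨qT n i, hτ' n i⟩
  have hv := v0_max hL hK.loc ht hc r
  obtain ⟨Θ, t1, t2⟩ := P022D.NR.exists_ev (ι := V0 τ L ι S.T r ⊕ Fin r) (maximalIdeal V) j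
    (Sum.elim (v0 K G r j (fun g => (ρ g : M2 V)) (fun _ => 1) (fun _ => 1) fun _ => 1)
      fun _ => 0) (by
      rintro (s | s)
      · exact hv s
      · exact zero_mem _)
  have cf : Cf K G r j ρ (Θ.comp (io O _ r)) :=
    ⟨fun o => (congrArg Θ (rename_C _ o)).trans (t1 o),
      fun s => (congrArg Θ (rename_X _ s)).trans (t2 _)⟩
  haveI := P022D.CA.Cpl.isAdicCompleteV (σ := Sy ι) (V := O) hO.cpl
  obtain ⟨jr, j1, j2⟩ := P022D.NR.exists_ev (ι := Sy (ι ⊕ Fin r) ⊕ Fin r)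
    (maximalIdeal (PS O (Sy ι))) (C : O →+* PS O (Sy ι)) (G.jv r) (jv_max G r)
  choose tu du hu using fun n =>
    hLam O F ϖ S L X as β τ ι' K ι G hϖ hC hK r (q n) (τ' n) (gn n)
  let U0 : Ultrafilter ℕ := hyperfilter ℕ
  haveI := P022D.As.base O (Sy (ι ⊕ Fin r))
  haveI := P022D.As.base O (V0 τ L ι S.T r)
  choose ta hta using fun i => P022D.PA.lim _ U0 fun n => tu n (τq n i)
  choose da hda using fun i => P022D.PA.lim _ U0 fun n => du n (τq n i)
  have hrs := card_rs ι G.i0 S.T r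
  obtain ⟨s, hs⟩ : ∃ s, s + (2 * r + 1) = Fintype.card (Rs (ι ⊕ Fin r) S.T) :=
    ⟨_, Nat.sub_add_cancel hrs⟩
  set θ0 := Θ.comp (io O _ r) with hθ0
  have hjac : ∀ n, ∃ (k : Fin s → Kn K G r (q n) (τ' n)) (sg : Fin s → Rs (ι ⊕ Fin r) S.T),
      Function.Injective sg ∧ _root_.P022G.Jac.mnr
        (fun (f : Kn K G r (q n) (τ' n)) z => θ0 (pderiv O (Sum.inr z) f.1)) k sg ∣
        (t ^ C₀) ^ s := fun n => by
    obtain ⟨f1, f2⟩ := u5 (q n) (q1 n) fun i => by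
      obtain ⟨a1, a2, φ, m, a3, a6, a4, a5⟩ := q2 n i
      exact ⟨a1, fun h => a2 (Finset.mem_union_left _ h), φ, m, a3, a6, a4.1, a5⟩
    have f3 := (hT O F ϖ S L X as β τ ι' K ι G hϖ hC hK hE V t j ρ θ ht hc r (q n) (τ' n) (gn n)
      θ0 cf C₀ f1).trans f2
    refine _root_.P022G.Jac.jac (t ^ C₀) s _ (by omega) ?_
    rw [show Fintype.card (Rs (ι ⊕ Fin r) S.T) - s + 1 = 2 * r + 2 by omega]
    have hp : 0 < Nat.card (V ⧸ tI t C₀) := by omega
    refine lt_of_mul_lt_mul_right (a := Nat.card (V ⧸ tI t C₀) ^ 4) (lt_of_le_of_lt f3 ?_)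
      (Nat.zero_le _)
    rw [← pow_add, show 2 * r + 2 + 4 = 2 * r + 5 + 1 by omega, pow_succ' _ (2 * r + 5)]
    exact Nat.mul_lt_mul_of_pos_right hcard (pow_pos hp _)
  choose kn sg sg1 sg2 using hjac
  choose k hk using fun a => P022D.PA.lim _ U0 fun n => (kn n a).1
  obtain ⟨col, hcol⟩ : ∃ col, ∀ᶠ n in (U0 : Filter ℕ), sg n = col :=
    (Ultrafilter.eventually_exists_iff (P := fun c n => sg n = c)).1
      (Eventually.of_forall fun n => ⟨_, rfl⟩)
  have hmax := hm_max cf hv fun c h => j_zero j h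
  have hmn : θ0 (Rel.mn k fun a => Sum.inr (col a)) ≠ 0 := by
    intro h0
    obtain ⟨n, n1, n2⟩ := (hcol.and (eventually_all.2 fun a => hk a (C₀ * s + 1 + 1))).exists
    have d1 := sg2 n
    rw [n1, ← pow_mul] at d1
    have d2 : Ideal.Quotient.mk (maximalIdeal V ^ (C₀ * s + 1)) (_root_.P022G.Jac.mnr
        (fun (f : Kn K G r (q n) (τ' n)) z => θ0 (pderiv O (Sum.inr z) f.1)) (kn n) col) =
        Ideal.Quotient.mk _ (θ0 (Rel.mn k fun a => Sum.inr (col a))) := by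
      rw [_root_.P022G.Jac.mnr, Rel.mn, RingHom.map_det, RingHom.map_det, RingHom.map_det]
      congr 1
      ext a b
      refine Ideal.Quotient.eq.2 ?_
      have := der_pow (pderiv O (Sum.inr (col b) : V0 τ L ι S.T r)) _ _ _ (n2 a)
      have := ((Ideal.pow_right_mono (show maximalIdeal _ ≤ (maximalIdeal V).comap θ0 from
        fun a ha => hmax a ha) _).trans (Ideal.le_comap_pow θ0 _)) this
      rw [Ideal.mem_comap, map_sub, map_sub] at this
      exact this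
    rw [h0, map_zero, Ideal.Quotient.eq_zero_iff_mem, ht.maximalIdeal_eq, Ideal.span_singleton_pow,
      Ideal.mem_span_singleton] at d2
    have := (pow_dvd_pow_iff ht.ne_zero ht.not_isUnit).1 (d2.trans d1)
    omega
  refine ⟨s, ⟨t, j, ρ, θ, Θ, jr, U0, q, τ', τq, fun n a => (kn n a).1, k, fun a => Sum.inr (col a),
    fun n i => tu n (τq n i), fun n i => du n (τq n i), ta, da, G⟩,
    ⟨hc, hI, cf, fun i => t2 _, ⟨j1, j2⟩, Nat.hyperfilter_le_atTop, q1, gn, hτq,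
      fun n a => (kn n a).2, hk, ?_, hmn, hs, fun n i B _ Z ψ a1 a2 => hu n B Z ψ a1 a2 _, hta, hda⟩,
    rfl, rfl, rfl, rfl, rfl⟩
  rintro a ⟨x, hx⟩
  exact Sum.inl_ne_inr hx

end Vale.Agent.P022G.H67
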