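import Vale.Agent.P022G.Mod.Pkg
import Vale.Agent.P022G.Rw.Lower2
import Vale.Agent.P022G.Rw.CrvPkgH88

/-!
# P022G: the package at a curve
-/

set_option linter.all false

open IsLocalRing Filter MvPowerSeries NumberField

noncomputable section

namespace Vale.Agent.P022G.H89

open Vale.Agent.P022 Vale.Agent.P022G.R Vale.Agent.P022G.Loc Vale.Agent.P022G.Mod
open Vale.Agent.P022E.As (Tg cc tt dd yy mT Lv2 Sb2 Dia)
open Vale.Agent.P027M.S (mx)
open Vale.Agent.P022D.Core (PS io y1 Coef)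
open Vale.Agent.P022D.PA (Base Cv)
open Vale.Agent.P022E.Loc (Pl)
open Vale.Agent.P022G.Pt (Du An MD DM DF FD ann_dual)

theorem lim {P : Type} [CommRing P] [Base P] (U : Ultrafilter ℕ) (x : ℕ → P) :
    ∃ y, Cv (U : Filter ℕ) x y := by
  haveI := Base.cpl (P := P)
  have hf : Finite (P ⧸ maximalIdeal P) := Base.fin (P := P)
  exact P022D.R.ulim_adic U x (maximalIdeal P) fun k =>
    Ideal.finite_quotient_pow (IsNoetherian.noetherian _) k

theorem card_eq {S : Type} {T : Finset S} (h : T.Nonempty) (r : ℕ) :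
    4 * T.card + 2 * r + 1 = 4 * T.card - 1 + (Fintype.card (Fin r ⊕ Fin r) + 2) := by
  have := h.card_pos
  rw [Fintype.card_sum, Fintype.card_fin]
  omega

theorem pkg2C (h0 : CPK) (h1 : POV) (h2 : GPW) (h3 : GPO) (h4 : RGAL) : PKG2 := by
  intro O F _ _ _ _ _ _ _ ϖ S L X as β τ ι' _ _ _ K ι _ G hϖ hC hK hE Sf I Y0 W0 _ _ _ _ ses ig ib
    iJ e1 e2 hD p hp a1 a2 a3
  obtain ⟨r, s, V, _, _, _, _, _, _, Y, b1, b2, b3, b4, b, c, φ, Yb, Wc, Pb, _, _, _, _, _, _, k1,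
    k2, k3, k4⟩ := h0 O F ϖ S L X as β τ ι' K ι G hϖ hC hK hE L Sf I Y0 W0 ses ig ib iJ e1.le e2 hD
    p hp a1 a2 a3
  refine ⟨r, s, V, inferInstance, inferInstance, inferInstance, inferInstance, inferInstance,
    inferInstance, Y, b1, b2, b3, b4, ?_⟩
  intro _
  letI : Algebra (S0 O τ L ι S.T r) (S1 O τ L ι S.T r) := (io O _ r).toAlgebra
  have H : Fc ϖ S L := fc_of h1 h2 h3 O F ϖ S L X as β τ ι' K ι G hϖ hC hK
  obtain ⟨lam, A⟩ := ex_la H b3
  have R := h4 O F ϖ S L X as β τ ι' K ι G hϖ hC hK r s V Y b1 b2 b3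
  have gY : ∀ n i, Gd (gg Y n) (Yb n i) := fun n i => H.gd (e1 ▸ (k1 n).gm i)
  choose mY cY using fun n i => A.mod n (gY n i)
  choose m0 c0 an0 using fun i => A.mod0 (N := Y0 i) (H.gd (e1 ▸ hD.gm0 i))
  choose a ha using fun i => lim Y.U fun n => uu lam Y.τq n i
  obtain ⟨d, hd⟩ := lim Y.U (Mod.DD lam Y.q φ c)
  have dm := A.tw.dm k1 hD.sb0 cY fun n i => c0 i n
  have pr : (Y.rd ϖ).p0 ≠ ⊤ := Ideal.comap_ne_top _ (RingHom.ker_ne_top _)
  refine ⟨uu lam Y.τq, a, Mod.DD lam Y.q φ c, d, fun i => Du fun n => Yb n i,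
    fun i => CharacterModule (Finset (Fin r) → Y0 i), inferInstance, inferInstance, inferInstance,
    inferInstance, DM.md (X := Y.rd ϖ) dm b3.hU ha hd
      (fun h => pr (Ideal.eq_top_of_isUnit_mem _ h (A.dp k4 hd))) A.ue
      (card_eq ⟨2, by rw [H.ok.hT]; simp⟩ r) (fun J => ?_)
      (fun J l hl t ht n w => A.unr (cY n _) (gY n _) l ((k1 n).unr J l hl) t ht w)
      ⟨c, fun J l hl n w => (A.new (cY n _) l c w).trans ((k1 n).new J l hl w)⟩,
    fun i => by rw [ann_dual, ann_pi, an0], fun l hl => ?_⟩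
  · exact (R (Du fun n => Yb n (iJ J)) (fun a => ∀ t ∈ (∅ : Set (Tg O)), t ∈ a)
      (A.gal (fun n => cY n _) (fun n => (k1 n).dia _) (fun n => gY n _) ∅
        (fun _ h => h.elim) fun _ h => h.elim)).1
  · have hm : (l : ℕ) ∈ L.W ∪ L.C := Finset.mem_union_right _ l.2
    have e : L.r (L.τ l) = 1 := hC.cx.unr l (H.ok.pr l hm).1 (Or.inr hl) _ (H.ok.hP l hm).1
      (H.ok.hP l hm).2 _ (H.ok.tm l hm).tau
    have q := fun n => k2 n l (by have := (hC.cx.one l hl).1; omega) e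
    have gP : ∀ n, Gd (gg Y n) (Pb n l) := fun n => H.gd (e1 ▸ (q n).gm)
    choose mP cP using fun n => A.mod n (gP n)
    refine ⟨Du fun n => Pb n l, inferInstance, inferInstance,
      DF.fd (X := Y.rd ϖ) dm (A.tw.dfp q cY cP) b3.hU le_sup_left ?_⟩
    refine (R (Du fun n => Pb n l) (fun a => ∀ t ∈ ({tt (L.τ l)} : Set (Tg O)), t ∈ a)
      (A.gal cP (fun n => (q n).dia) gP _ ?_ ?_)).2.1 l fun a h => h _ rfl
    · rintro _ rfl
      rw [H.mem_mT, P022F.End0.evt, e, Matrix.trace_one, Fintype.card_fin, map_natCast]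
      exact CharP.cast_eq_zero F 2
    · rintro _ rfl n w
      exact (q n).ps w

end Vale.Agent.P022G.H89
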