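import Vale.Agent.P022G.Rows
import Vale.Agent.P022G.Tw.UnivH44

/-! P022G, row REPO. -/

set_option linter.all false

namespace Vale.Agent.P022G.H44

theorem repoC : REPO := by
  intro O F _ _ _ _ _ _ _ ϖ S L X as β τ ι' _ _ _ K ι _ G hϖ hC hK r q τ' hq B _ _ π ψ loc hπ hψ
  haveI := P022D.Core.Coef.cpl (O := O)
  obtain ⟨Y, a, b, c⟩ := Tw.H44.univ K G r hC.cx.ok.ker hK.clo (G.gen r q τ' hq) π loc ψ
    (fun c => by rw [hπ, MvPowerSeries.constantCoeff_C]) hψ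
  exact ⟨Y, b, a, c⟩

end Vale.Agent.P022G.H44
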