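import Vale.Agent.P022G.Crv.Uni
import Vale.Agent.P022G.Kd.A

/-!
# P022G: fibre products of pseudo objects
-/

set_option linter.all false

noncomputable section

namespace Vale.Agent.P022G.G0

open NumberField IsLocalRing MvPowerSeries
open Vale.Agent.P022 Vale.Agent.P022.H346 Vale.Agent.P022G.R Vale.Agent.P022G.Loc
open Vale.Agent.P027M.S (Inert mx)
open Vale.Agent.P022D.Sel (M2)
open Vale.Agent.P022D.Core (PS)
open Vale.Agent.P022E.Loc (Pl)
open Vale.Agent.P022F.Gm (GM)

variable {O F : Type} [CommRing O] [Field F] {S : Dat O F} {σ : Type} [Finite σ]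
  {B : σ → Type} [∀ e, CommRing (B e)] (Z : ∀ e, PO S (B e))

/-- the fibre product of the rings -/
def FR : Subring (∀ e, B e) where
  carrier := {b | ∀ e e', (Z e).π (b e) = (Z e').π (b e')}
  mul_mem' := fun {a b} ha hb e e' => by
    simp only [Pi.mul_apply, map_mul, ha e e', hb e e']
  one_mem' := fun e e' => by simp only [Pi.one_apply, map_one]
  add_mem' := fun {a b} ha hb e e' => by
    simp only [Pi.add_apply, map_add, ha e e', hb e e']
  zero_mem' := fun e e' => by simp only [Pi.zero_apply, map_zero]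
  neg_mem' := fun {a} ha e e' => by simp only [Pi.neg_apply, map_neg, ha e e']

theorem fr_unit (e0 : σ) (u : FR Z) (hu : (Z e0).π (u.1 e0) ≠ 0) : IsUnit u := by
  have h : ∀ e, ∃ v, u.1 e * v = 1 := fun e =>
    ((Z e).loc _ (by rw [u.2 e e0]; exact hu)).exists_right_inv
  choose v hv using h
  refine IsUnit.of_mul_eq_one ⟨v, fun e e' => ?_⟩ (Subtype.ext (funext hv))
  have h1 := congrArg (Z e).π (hv e)
  have h2 := congrArg (Z e').π (hv e')
  rw [map_mul, map_one, u.2 _ e0] at h1 h2
  exact mul_left_cancel₀ hu (h1.trans h2.symm)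

/-- the determinant -/
def dF : GQ →* (FR Z)ˣ := MonoidHom.toHomUnits
  { toFun := fun g => (⟨fun e => (Z e).d g, fun e e' => by
      simp only [PO.π_d]⟩ : FR Z)
    map_one' := Subtype.ext (funext fun e => by simp)
    map_mul' := fun g h => Subtype.ext (funext fun e => by simp) }

/-- the fibre product of pseudo objects -/
def pi (e0 : σ) : PO S (FR Z) where
  ι := (Pi.ringHom fun e => (Z e).ι).codRestrict (FR Z) fun c e e' =>
    ((Z e).alg c).trans ((Z e').alg c).symm
  π := (Z e0).π.comp ((Pi.evalRingHom B e0).comp (FR Z).subtype)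
  t g := ⟨fun e => (Z e).t g, fun e e' => by simp only [PO.π_t]⟩
  d := dF Z
  a g := ⟨fun e => (Z e).a g, fun e e' => by simp only [PO.ra]⟩
  b g := ⟨fun e => (Z e).b g, fun e e' => by simp only [PO.rb]⟩
  x g h := ⟨fun e => (Z e).x g h, fun e e' => by simp only [PO.rx]⟩
  fin := by
    have := fun e => (Z e).fin
    infer_instance
  loc u hu := fr_unit Z e0 u hu
  alg c := (Z e0).alg c
  tf := ⟨Subtype.ext (funext fun e => (Z e).tf.one),
    fun g h => Subtype.ext (funext fun e => (Z e).tf.comm g h),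
    fun g h => Subtype.ext (funext fun e => (Z e).tf.mul g h)⟩
  gm := ⟨fun g => Subtype.ext (funext fun e => (Z e).gm.sum g),
    Subtype.ext (funext fun e => (Z e).gm.a1), Subtype.ext (funext fun e => (Z e).gm.b1),
    fun g h => Subtype.ext (funext fun e => (Z e).gm.am g h),
    fun g h => Subtype.ext (funext fun e => (Z e).gm.bm g h),
    fun g h k => Subtype.ext (funext fun e => (Z e).gm.cl g h k),
    fun g h k => Subtype.ext (funext fun e => (Z e).gm.cr g h k),
    fun g => Subtype.ext (funext fun e => (Z e).gm.det g),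
    fun g h k l => Subtype.ext (funext fun e => (Z e).gm.sw g h k l)⟩
  x0 g := ⟨Subtype.ext (funext fun e => ((Z e).x0 g).1),
    Subtype.ext (funext fun e => ((Z e).x0 g).2)⟩
  ra g := (Z e0).ra g
  rb g := (Z e0).rb g
  rx g h := (Z e0).rx g h
  opn := ⟨⨅ e, (Z e).N, by
      rw [Subgroup.coe_iInf]
      exact isOpen_iInter_of_finite fun e => (Z e).N_open,
    fun u hu g => Subtype.ext (funext fun e => Subgroup.mem_iInf.1 hu e g)⟩

theorem pi_cl {L : Pl O} {Q : Finset ℕ} (e0 : σ) (h : ∀ e, (Z e).Cl L Q) : (pi Z e0).Cl L Q where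
  d2 g hg := Subtype.ext (funext fun e => (h e).d2 g hg)
  dc := Subtype.ext (funext fun e => (h e).dc)
  dl l hl := Subtype.ext (funext fun e => (h e).dl l hl)
  ty l hl := by
    choose y h1 h2 h3 using fun e => (h e).ty l hl
    exact ⟨⟨y, fun e e' => (h2 e).trans (h2 e').symm⟩, Subtype.ext (funext h1), h2 e0,
      Subtype.ext (funext h3)⟩
  unr l a b c P d e' s hs g := Subtype.ext (funext fun e => (h e).unr l a b c P d e' s hs g)

variable {L : Pl O} {κ : Type} {gk : κ → GQ} {ι : Type} (G : Gs S L gk ι)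

/-- one point sees a given power of the maximal ideal -/
theorem one [IsLocalRing O] [IsNoetherianRing O] [IsAdicComplete (maximalIdeal O) O] [Finite F]
    [Fintype ι] (N : ℕ) : G.aP ⊔ maximalIdeal (PS O (Sy ι)) ^ N = ⊤ ∨
    ∃ (B : Type) (_ : CommRing B) (Z : PO S B) (ψ : PS O (Sy ι) →+* B), Crv.Pt G Z ψ ∧
      RingHom.ker ψ ≤ G.aP ⊔ maximalIdeal (PS O (Sy ι)) ^ N := by
  obtain ⟨σ, _, B, _, Z, ψ, hZ, h⟩ := Crv.chev G N
  rcases isEmpty_or_nonempty σ with hσ | ⟨⟨e0⟩⟩
  · exact Or.inl ((Ideal.eq_top_iff_one _).2 (h 1 fun e => hσ.elim e))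
  · refine Or.inr ⟨FR Z, inferInstance, pi Z e0, (Pi.ringHom ψ).codRestrict (FR Z) fun f e e' =>
      (Crv.hm_res (Z e) (hZ e).2 f).trans (Crv.hm_res (Z e') (hZ e').2 f).symm,
      ⟨pi_cl Z e0 fun e => (hZ e).1, fun o => Subtype.ext (funext fun e => (hZ e).2.c o),
        fun s => Subtype.ext (funext fun e => ?_)⟩, fun f hf => h f fun e =>
        congrFun (congrArg Subtype.val hf) e⟩
    refine ((hZ e).2.x s).trans ?_
    rcases s with i | i | p <;> rfl

end Vale.Agent.P022G.G0
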