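import Vale.Agent.P022G.Rw.Pov
import Vale.Agent.P022G.Rw.Gpw
import Vale.Agent.P022G.Rw.Gpo
import Vale.Agent.P022G.Rw.Gpg
import Vale.Agent.P022G.Rw.Lam
import Vale.Agent.P022G.Rw.Kdel
import Vale.Agent.P022G.Rw.Kda
import Vale.Agent.P022G.Rw.Crv
import Vale.Agent.P022G.Rw.Nice
import Vale.Agent.P022G.Rw.Cobj
import Vale.Agent.P022G.Rw.Repo
import Vale.Agent.P022G.Rw.Rcov
import Vale.Agent.P022G.Rw.Rup
import Vale.Agent.P022G.Rw.Rgal0
import Vale.Agent.P022G.Rw.Rgal
import Vale.Agent.P022G.Rw.RlocH82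
import Vale.Agent.P022G.Rw.Mt
import Vale.Agent.P022G.Rw.Rok
import Vale.Agent.P022G.Rw.Typ
import Vale.Agent.P022G.Rw.Gens
import Vale.Agent.P022G.Rw.Seed2
import Vale.Agent.P022G.Rw.OutgH94

/-!
# P022G: the closed rows
-/

set_option linter.all false

namespace Vale.Agent.P022G.Cl

theorem gpo : GPO := gpoC povC

theorem kda : KDA := kdaC gpo

theorem rcov : RCOV := rcovC cobjC kda

theorem rfl' : RFL := rflC rcov

theorem rup : RUP := rupC rcov

theorem rgal0 : RGAL0 := rgal0C kdelC rcov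

theorem rgal : RGAL := rgalC kdelC povC

theorem rca : RCA := Rw.rcaC cobjC

theorem rfin : RFIN := Rw.rfinC cobjC

theorem rok : ROK := rokC rcov rfl' rup rgal0 RlocH82.rloc rca

theorem seed2 : SEED2 := seed2C povC gpw gpo gpgC crv cobjC typC

theorem outg : OUTG := H94.outgC povC gpw gpo

end Vale.Agent.P022G.Cl
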