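import Vale.Agent.P022G.Rows2
import Vale.Agent.P022G.Mod.Gp
import Vale.Agent.P022G.Chain2
import Vale.Agent.P022D.As.Cov

/-!
# P022G: the row SEED2
-/

set_option linter.all false

open IsLocalRing MvPowerSeries

noncomputable section

namespace Vale.Agent.P022G.H72

open Vale.Agent.P022 Vale.Agent.P022G.R Vale.Agent.P022G.Loc Vale.Agent.P022G.Mod
open Vale.Agent.P022E.As (Tg cc tt dd yy mT Big)
open Vale.Agent.P022D.Core (PS Coef)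
open Vale.Agent.P022E.Loc (Pl)
open Vale.Agent.P022G.Ps (HD3)
open Vale.Agent.P022G.Chain (Pd)
open Ideal (torsionOf mem_torsionOf_iff)

variable {O F : Type} [CommRing O] [IsDomain O] [IsDiscreteValuationRing O] [Coef O] [Field F]
  [CharP F 2] {ϖ : O} {S : Dat O F} {L : Pl O} {κ ι : Type} {gk : κ → GQ} [Fintype ι]
  (G : Gs S L gk ι) {Y : Type} [AddCommGroup Y] [Module (Tg O) Y]

theorem ker0 {B : Type} [CommRing B] {u : Tg O →+* B} {w : Y}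
    (h : RingHom.ker u = torsionOf (Tg O) Y w) {t : Tg O} (ht : t • w = 0) : u t = 0 := by
  rw [← RingHom.mem_ker, h]
  exact (mem_torsionOf_iff _ _).2 ht

theorem an_pi (h : ∀ w : Y, cc ϖ • w = 0) : C ϖ ∈ G.An Y := by
  rintro B _ j v ψ ⟨w, Z, u, a1, a2, rfl, rfl⟩ k
  rw [k.c, ← a1.c]
  exact ker0 a2 (h w)

theorem an_tr (i : ι) (c : ℕ) (h : ∀ w : Y, (tt (G.γ i) : Tg O) ^ c • w = 0) :
    trS G.rc id i ^ c ∈ G.An Y := by
  rintro B _ j v ψ ⟨w, Z, u, a1, a2, rfl, rfl⟩ k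
  rw [map_pow, trS, map_add, Crv.hm_a Z k, Crv.hm_d Z k, Z.gm.sum, ← a1.t, ← map_pow]
  exact ker0 a2 (h w)

theorem an_tau (i : ι) (h : ∀ g (w : Y), (tt (g * G.γ i) : Tg O) • w = (tt g : Tg O) • w) :
    tauP G.rc id i ⊆ G.An Y := by
  intro f hf
  rintro B _ j v ψ ⟨w, Z, u, a1, a2, rfl, rfl⟩ k
  obtain ⟨e1, e2, e3⟩ := N_ent Z (k := G.γ i) fun g => by
    have := ker0 a2 (t := tt (g * G.γ i) - tt g) (by rw [sub_smul, h, sub_self])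
    rwa [map_sub, a1.t, a1.t, sub_eq_zero] at this
  rcases hf with (rfl | rfl) | ⟨k', rfl⟩ | ⟨k', rfl⟩
  · rw [map_sub, Crv.hm_a Z k, e1, map_one, sub_self]
  · rw [map_sub, Crv.hm_d Z k, e2, map_one, sub_self]
  · exact (Crv.hm_x Z k _ _).trans (e3 _).2
  · exact (Crv.hm_x Z k _ _).trans (e3 _).1

theorem an_aP (H : Fc ϖ S L) (hY : Gd (GP S L ∅ 0) Y) : G.aP ≤ G.An Y := fun f hf => by
  refine (H.mem_An G hY f).2 fun w => ?_
  rcases hY w with e | ⟨Z, a1, a2, a3, a4⟩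
  · haveI : Subsingleton (Tg O ⧸ torsionOf (Tg O) Y w) := e ▸ inferInstance
    exact Subsingleton.elim _ _
  · obtain ⟨n, hn⟩ := H.nil' (hY w)
    have k := ph_hm hn (H.v0_mem G)
    exact hf _ _ _ _ ⟨Z, a2, rfl, rfl⟩
      ⟨fun o => (k.c o).trans (a1.c o), fun s => (k.x s).trans (H.val a1 _ _ s)⟩

theorem big (H : Fc ϖ S L) (hY : Gd (GP S L ∅ 0) Y) (hb : Big (mT L.r) Y) :
    ∃ E : Ideal (PS O (Sy ι)), E.IsPrime ∧ G.An Y ≤ E ∧
      (2 : WithBot ℕ∞) ≤ ringKrullDim (PS O (Sy ι) ⧸ E) := by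
  haveI := P022D.As.base O (Sy ι)
  have fm := H.fm0 G
  obtain ⟨_, ac⟩ := fm.mod hY
  obtain ⟨E, h1, h2, h3⟩ := hb (PS O (Sy ι))
    (fun u s => (fm.fin ac s u).imp fun _ h => h.2)
    (fun u hu w => (fm.dis ac w).imp fun k h => h _ (Ideal.pow_mem_pow hu k))
    (fun p => by
      obtain ⟨u, hu⟩ := fm.mu p
      obtain ⟨a, ha, r⟩ := fm.res
      exact ⟨u, (r u p (hu a ha)).2, ac.all hu⟩)
  exact ⟨E, h1, fun f hf => h2 ((fm.mem_ann ac hY f).2 ((H.mem_An G hY f).1 hf)), h3⟩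

/-- the local conditions hold in level zero -/
theorem lev0 {Sf : P022D.R.Dat O F} {I : Type} {Y0 : I → Type} {W0 : Type}
    [∀ i, AddCommGroup (Y0 i)] [∀ i, Module (Tg O) (Y0 i)] [AddCommGroup W0] [Module (Tg O) W0]
    {ses : I → I → I → Prop} {ig ib : I} {iJ : Finset L.C → I}
    (h : HD3 ϖ Sf L Y0 W0 ses ig ib iJ) (J : Finset L.C) :
    (∀ l, l ∉ J → ∀ g (w : Y0 (iJ J)), (tt (g * L.τ l) : Tg O) • w = (tt g : Tg O) • w) ∧
      ∃ c : ℕ, ∀ l, l ∈ J → ∀ w : Y0 (iJ J), (tt (L.φ l) : Tg O) ^ c • w = 0 := by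
  obtain ⟨b, c, n₀, A, k⟩ := h.lev 0
  obtain ⟨τ, φ, Yb, Wc, Pc, _, _, _, _, _, _, e, -⟩ := k 0 Fin.elim0 (fun i => i.elim0)
    fun i => i.elim0
  obtain ⟨β, -, h2, -⟩ := e.fib (iJ J)
  have key : ∀ (t : Tg O), (∀ v : Yb (iJ J), t • v = 0) → ∀ w : Y0 (iJ J), t • w = 0 := by
    intro t ht w
    have h3 := h2 (t • fun _ => w) (by rw [map_smul, ht])
    rw [P022D.As.Dq, Finset.univ_eq_empty, Finset.prod_empty, one_pow, one_smul] at h3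
    exact congrFun h3 ∅
  refine ⟨fun l hl g w => ?_, c, fun l hl => key _ (e.new J l hl)⟩
  rw [← sub_eq_zero, ← sub_smul]
  exact key _ (fun v => by rw [sub_smul, e.unr J l hl, sub_self]) w

theorem seed2C (h1 : POV) (h2 : GPW) (h3 : GPO) (hA : KDA) (hV : CRV) (hN : NICE) (hT : TYP) :
    SEED2 := by
  intro O F _ _ _ _ _ _ _ ϖ S L X as β τ ι' _ _ _ K ι _ G hϖ hC hK _ Sf I Y0 W0 _ _ _ _ ses ig ib iJ
    e1 e2 hD J hJ
  haveI := P022D.As.base O (Sy ι)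
  have H := fc_of h1 h2 h3 O F ϖ S L X as β τ ι' K ι G hϖ hC hK
  have hY : Gd (GP S L ∅ 0) (Y0 (iJ J)) := H.gd (e1 ▸ hD.gm0 (iJ J))
  obtain ⟨E, hE, hle, hd⟩ := big G H hY (hD.big J)
  obtain ⟨un, c, nw⟩ := lev0 hD J
  have d1 : ((1 : ℕ) : WithBot ℕ∞) ≤ ringKrullDim (PS O (Sy ι) ⧸ E) :=
    le_trans (by norm_num) hd
  have pi : C ϖ ∈ E := hle (an_pi G (hD.pi0 _))
  have aP : G.aP ≤ E := (an_aP G H hY).trans hle
  have fr : ∀ l ∈ J, G.fr l ∈ E := fun l hl =>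
    hE.mem_of_pow_mem c (hle (an_tr G (G.iφ l) c (by rw [G.hφ]; exact nw l hl)))
  have cv : ∀ p, Chain.Cv p → E ≤ p → G.Irr p ∧ ∀ l ∈ J, trS G.rc id (G.iτ l) ∈ p ∧
      tr2 G.rc id (G.iτ l) (G.iφ l) ∈ p := fun p hp hq => by
    obtain ⟨V, _, _, _, _, _, _, t, j, ρ, θ, ht, hc, rfl⟩ :=
      hV O F ϖ S L X as β τ ι' K ι G hϖ hC hK p hp (aP.trans hq) (hq pi)
    exact ⟨(hN O F ϖ S L X as β τ ι' K ι G hϖ hC hK V t j ρ θ ht hc hp
      fun h => hq (fr _ (hJ ⟨as, h⟩ hC.cx.mem))).2.2, fun l hl =>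
      hT O F ϖ S L X as β τ ι' K ι G hϖ hC hK V t j ρ θ ht hc l (hq (fr l hl))⟩
  refine ⟨E, ⟨hE, sup_le (sup_le (fun f hf => ?_) ((Ideal.span_singleton_le_iff_mem _).2 pi))
    (Ideal.span_le.2 ?_), hd⟩, hle⟩
  · obtain ⟨p, hp, hq⟩ := Chain.exists_cv d1
    obtain ⟨i, k, hx⟩ := (cv p hp hq).1
    exact (hE.mem_or_mem (aP ((hA O F ϖ S L X as β τ ι' K ι G hϖ hC hK).2 i k f hf))).resolve_left
      fun e => hx (hq e)
  · have one : ∀ f, (∀ p, Chain.Cv p → E ≤ p → f ∈ p) → f ∈ E := fun f hf =>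
      (Ideal.span_singleton_le_iff_mem _).1 (Chain.le_of_cv hE d1 fun p hp hq =>
        (Ideal.span_singleton_le_iff_mem _).2 (hf p hp hq))
    rintro u (⟨l, hl, rfl | rfl | rfl⟩ | ⟨l, hl, hu⟩)
    · exact one _ fun p hp hq => ((cv p hp hq).2 l hl).1
    · exact fr l hl
    · exact one _ fun p hp hq => ((cv p hp hq).2 l hl).2
    · exact hle (an_tau G (G.iτ l) (by rw [G.hτ]; exact un l hl) hu)

end Vale.Agent.P022G.H72
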