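import Vale.Agent.P022G.Rows2
import Vale.Agent.P022G.Rw.Repo

/-!
# P022G, row TANV2: deformations over dual numbers and relative tangent vectors
-/

set_option linter.all false

noncomputable section

namespace Vale.Agent.P022G.H28T

open NumberField MvPowerSeries TrivSqZeroExt
open Vale.Agent.P022 Vale.Agent.P022G.R
open Vale.Agent.P027M.S (Inert mx)
open Vale.Agent.P022D.Sel (M2)
open Vale.Agent.P022D.Core (PS)
open Vale.Agent.P022E.GW (Ov Gn Op)
open _root_.P022G.Sel (mr Co TanR TanS)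

variable {W : Type} [CommRing W]

/-- the point over the dual numbers in the direction `v` -/
def dv {O σ σ' : Type} [CommRing O] [Fintype σ'] (θ : PS O (σ ⊕ σ') →+* W) (v : σ' → W) :
    PS O (σ ⊕ σ') →+* DualNumber W where
  toFun f := inl (θ f) + inr (∑ z, θ (pderiv O (Sum.inr z) f) * v z)
  map_one' := by simp [pderiv_one]
  map_zero' := by simp
  map_add' f g := by
    ext <;> simp [add_mul, Finset.sum_add_distrib]
  map_mul' f g := by
    ext
    · simp
    · simp only [snd_add, snd_inl, snd_inr, zero_add, DualNumber.snd_mul, fst_add, fst_inl,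
        fst_inr, add_zero, Derivation.leibniz, smul_eq_mul, map_add, map_mul, Finset.mul_sum,
        Finset.sum_mul, ← Finset.sum_add_distrib]
      exact Finset.sum_congr rfl fun z _ => by ring

theorem dv_fst {O σ σ' : Type} [CommRing O] [Fintype σ'] (θ : PS O (σ ⊕ σ') →+* W) (v : σ' → W)
    (f : PS O (σ ⊕ σ')) : (dv θ v f).fst = θ f := by
  show (inl (θ f) + inr _ : DualNumber W).fst = _
  simp

theorem dv_snd {O σ σ' : Type} [CommRing O] [Fintype σ'] (θ : PS O (σ ⊕ σ') →+* W) (v : σ' → W)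
    (f : PS O (σ ⊕ σ')) : (dv θ v f).snd = ∑ z, θ (pderiv O (Sum.inr z) f) * v z := by
  show (inl (θ f) + inr _ : DualNumber W).snd = _
  simp

theorem dv_C {O σ σ' : Type} [CommRing O] [Fintype σ'] (θ : PS O (σ ⊕ σ') →+* W) (v : σ' → W)
    (o : O) : dv θ v (C o) = inl (θ (C o)) := by
  ext
  · rw [dv_fst, fst_inl]
  · rw [dv_snd, snd_inl]; simp

theorem dv_l {O σ σ' : Type} [CommRing O] [Fintype σ'] (θ : PS O (σ ⊕ σ') →+* W) (v : σ' → W)
    (i : σ) : dv θ v (X (Sum.inl i)) = inl (θ (X (Sum.inl i))) := by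
  ext
  · rw [dv_fst, fst_inl]
  · rw [dv_snd, snd_inl]
    exact Finset.sum_eq_zero fun z _ => by
      rw [pderiv_X_of_ne (by simp), map_zero, zero_mul]

theorem dv_r {O σ σ' : Type} [CommRing O] [Fintype σ'] (θ : PS O (σ ⊕ σ') →+* W) (v : σ' → W)
    (i : σ') : (dv θ v (X (Sum.inr i))).snd = v i := by
  rw [dv_snd, Finset.sum_eq_single i]
  · rw [pderiv_X_self, map_one, one_mul]
  · intro z _ hz
    rw [pderiv_X_of_ne (by simpa using hz.symm), map_zero, zero_mul]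
  · exact fun h => (h (Finset.mem_univ _)).elim

theorem snd_mm (M N : M2 (DualNumber W)) :
    (M * N).map snd = M.map fst * N.map snd + M.map snd * N.map fst := by
  ext a b
  simp [Matrix.mul_apply, Fin.sum_univ_two, DualNumber.snd_mul]
  ring

theorem mat_ext {M N : M2 (DualNumber W)} (h : M.map fst = N.map fst)
    (k : M.map snd = N.map snd) : M = N :=
  Matrix.ext fun a b => TrivSqZeroExt.ext (congrFun (congrFun h a) b) (congrFun (congrFun k a) b)

theorem snd_one' : (1 : M2 (DualNumber W)).map snd = 0 := by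
  ext a b
  fin_cases a <;> fin_cases b <;> simp

/-- a framed deformation with constant local representations -/
structure Df (ρ : GQ →* GL (Fin 2) W) (T Q : Finset ℕ) (D : ℕ → Set GQ) (g0 : GQ) (l0 : ℕ)
    (σ : GQ →* M2 (DualNumber W)) (α : ℕ → M2 (DualNumber W)) : Prop where
  f1 : ∀ g, (σ g).map fst = mr ρ g
  a1 : ∀ l, (α l).map fst = 1
  off : ∀ l ∉ T, α l = 1
  opn : ∃ U : Subgroup GQ, IsOpen (U : Set GQ) ∧ ∀ g ∈ U, σ g = 1
  unr : ∀ l : ℕ, l ∉ T → l ∉ Q → ∀ P : Ideal (𝓞 Qb), Ov l P → ∀ g, Inert P g → σ g = 1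
  loc : ∀ l ∈ T, ∀ g ∈ D l, σ g * α l = α l * (mr ρ g).map inl
  dg : σ g0 0 1 = 0 ∧ σ g0 1 0 = 0
  fr : α l0 0 0 = 1 ∧ α l0 1 1 = 1

/-- the tangent vector of a deformation, translated by a coboundary -/
def tv (ρ : GQ →* GL (Fin 2) W) (T : Finset ℕ) (σ : GQ →* M2 (DualNumber W))
    (α : ℕ → M2 (DualNumber W)) (m : M2 W) : (GQ → M2 W) × (ℕ → M2 W) :=
  (fun g => (σ g).map snd * mr ρ g⁻¹ + (m - mr ρ g * m * mr ρ g⁻¹),
    fun l => (α l).map snd + if l ∈ T then m else 0)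

variable {ρ : GQ →* GL (Fin 2) W} {T Q : Finset ℕ} {D : ℕ → Set GQ} {g0 : GQ} {l0 : ℕ}
  {σ σ' : GQ →* M2 (DualNumber W)} {α α' : ℕ → M2 (DualNumber W)}

theorem mr_inv (g : GQ) : mr ρ g * mr ρ g⁻¹ = 1 := by
  rw [mr, mr, ← Units.val_mul, ← map_mul, mul_inv_cancel, map_one, Units.val_one]

theorem inv_mr (g : GQ) : mr ρ g⁻¹ * mr ρ g = 1 := mul_eq_one_comm.1 (mr_inv g)

theorem mr_mul (g h : GQ) : mr ρ (g * h) = mr ρ g * mr ρ h := by
  rw [mr, map_mul, Units.val_mul]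

theorem tv_zero (h : Df ρ T Q D g0 l0 σ α) (m : M2 W) {g : GQ} (hg : σ g = 1) :
    (tv ρ T σ α m).1 g = 0 := by
  have e : mr ρ g = 1 := by
    rw [← h.f1, hg]
    ext a b
    fin_cases a <;> fin_cases b <;> simp
  have e' : mr ρ g⁻¹ = 1 := by rw [← mr_inv (ρ := ρ) g, e, one_mul]
  show (σ g).map snd * mr ρ g⁻¹ + (m - mr ρ g * m * mr ρ g⁻¹) = 0
  rw [hg, snd_one', e, e', zero_mul, one_mul, mul_one, sub_self, add_zero]

theorem tv_mem (h : Df ρ T Q D g0 l0 σ α) (m : M2 W) : tv ρ T σ α m ∈ TanS ρ T Q D := by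
  refine ⟨fun g k => ?_, ?_, fun l a b P c g d => tv_zero h m (h.unr l a b P c g d),
    fun l hl g hg => ?_, fun l hl => ?_⟩
  · show (σ (g * k)).map snd * mr ρ (g * k)⁻¹ + (m - mr ρ (g * k) * m * mr ρ (g * k)⁻¹) =
      (σ g).map snd * mr ρ g⁻¹ + (m - mr ρ g * m * mr ρ g⁻¹) + mr ρ g *
        ((σ k).map snd * mr ρ k⁻¹ + (m - mr ρ k * m * mr ρ k⁻¹)) * mr ρ g⁻¹
    rw [map_mul, snd_mm, h.f1, h.f1, mul_inv_rev, mr_mul, mr_mul]
    have e : (σ g).map snd * mr ρ k * (mr ρ k⁻¹ * mr ρ g⁻¹) = (σ g).map snd * mr ρ g⁻¹ := by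
      rw [mul_assoc, ← mul_assoc (mr ρ k), mr_inv, one_mul]
    rw [add_mul, e]
    noncomm_ring
  · obtain ⟨U, hU, k⟩ := h.opn
    exact ⟨U, hU, fun g hg => tv_zero h m (k g hg)⟩
  · show (σ g).map snd * mr ρ g⁻¹ + (m - mr ρ g * m * mr ρ g⁻¹) =
      ((α l).map snd + if l ∈ T then m else 0) -
        mr ρ g * ((α l).map snd + if l ∈ T then m else 0) * mr ρ g⁻¹
    have e := congrArg (fun M : M2 (DualNumber W) => M.map snd) (h.loc l hl g hg)
    have e1 : ((mr ρ g).map (inl : W → DualNumber W)).map snd = 0 := by ext a b; simp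
    have e2 : ((mr ρ g).map (inl : W → DualNumber W)).map fst = mr ρ g := by ext a b; simp
    simp only [snd_mm, h.f1, h.a1, e1, e2, mul_one, mul_zero, zero_add] at e
    have e3 : (σ g).map snd = (α l).map snd * mr ρ g - mr ρ g * (α l).map snd := by
      rw [← e, add_sub_cancel_left]
    rw [if_pos hl, e3, sub_mul, mul_assoc _ (mr ρ g), mr_inv]
    noncomm_ring
  · show ((α l).map snd + if l ∈ T then m else 0) = 0
    rw [if_neg hl, h.off l hl, snd_one', add_zero]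

theorem tv_inj (h : Df ρ T Q D g0 l0 σ α) (h' : Df ρ T Q D g0 l0 σ' α') (hl : l0 ∈ T)
    (hu : IsUnit (mr ρ g0 0 0 - mr ρ g0 1 1)) {m m' : M2 W}
    (e : tv ρ T σ α m = tv ρ T σ' α' m') : m = m' ∧ σ = σ' ∧ α = α' := by
  have e1 : ∀ g, (σ g).map snd + (m * mr ρ g - mr ρ g * m) =
      (σ' g).map snd + (m' * mr ρ g - mr ρ g * m') := fun g => by
    have k := congrArg (· * mr ρ g) (congrFun (congrArg Prod.fst e) g)
    simp only [tv, add_mul, sub_mul, mul_assoc, inv_mr, mul_one] at k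
    exact k
  have e2 : ∀ l, ((α l).map snd + if l ∈ T then m else 0) =
      (α' l).map snd + if l ∈ T then m' else 0 := congrFun (congrArg Prod.snd e)
  have r1 : mr ρ g0 0 1 = 0 := by rw [← h.f1, Matrix.map_apply, h.dg.1, fst_zero]
  have r2 : mr ρ g0 1 0 = 0 := by rw [← h.f1, Matrix.map_apply, h.dg.2, fst_zero]
  have hm : m = m' := by
    have a := congrFun (congrFun (e1 g0) 0) 1
    have b := congrFun (congrFun (e1 g0) 1) 0
    have c := congrFun (congrFun (e2 l0) 0) 0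
    have d := congrFun (congrFun (e2 l0) 1) 1
    simp only [Matrix.add_apply, Matrix.sub_apply, Matrix.map_apply, Matrix.mul_apply,
      Fin.sum_univ_two, h.dg.1, h.dg.2, h'.dg.1, h'.dg.2, r1, r2, snd_zero, if_pos hl, h.fr.1,
      h.fr.2, h'.fr.1, h'.fr.2, snd_one, zero_add] at a b c d
    ext i j
    fin_cases i <;> fin_cases j
    · exact c
    · exact hu.mul_left_cancel (by show _ * m 0 1 = _ * m' 0 1; linear_combination -a)
    · exact hu.mul_left_cancel (by show _ * m 1 0 = _ * m' 1 0; linear_combination b)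
    · exact d
  subst hm
  exact ⟨rfl, MonoidHom.ext fun g => mat_ext ((h.f1 g).trans (h'.f1 g).symm)
    (add_right_cancel (e1 g)), funext fun l => mat_ext ((h.a1 l).trans (h'.a1 l).symm)
    (add_right_cancel (e2 l))⟩

/-- **counting** -/
theorem cnt {I : Type} (hl : l0 ∈ T) (hu : IsUnit (mr ρ g0 0 0 - mr ρ g0 1 1))
    (hf : (TanS ρ T Q D).Finite) (s : I → (GQ →* M2 (DualNumber W)))
    (a : I → ℕ → M2 (DualNumber W)) (h : ∀ i, Df ρ T Q D g0 l0 (s i) (a i))
    (inj : ∀ i k, s i = s k → a i = a k → i = k) :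
    Nat.card I * Nat.card W ^ 4 ≤ Nat.card (TanS ρ T Q D) := by
  haveI := hf.to_subtype
  have e : Nat.card (M2 W) = Nat.card W ^ 4 := by
    show Nat.card (Fin 2 → Fin 2 → W) = _
    rw [Nat.card_fun, Nat.card_fun, Nat.card_eq_fintype_card (α := Fin 2), Fintype.card_fin,
      ← pow_mul]
  rw [← e, ← Nat.card_prod]
  refine Nat.card_le_card_of_injective
    (fun z => (⟨tv ρ T (s z.1) (a z.1) z.2, tv_mem (h z.1) z.2⟩ : TanS ρ T Q D)) fun z w k => ?_
  obtain ⟨k1, k2, k3⟩ := tv_inj (h z.1) (h w.1) hl hu (congrArg Subtype.val k)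
  exact Prod.ext (inj _ _ k2 k3) k1

/-- two objects which agree on generators agree -/
theorem obj_eq {O F : Type} [CommRing O] [Field F] [CharP F 2] {S : Dat O F} {ι : Type}
    {γ : ι → GQ} (hG : Gen S Q γ) {A B : Type} [CommRing A] [CommRing B] (Y : Obj S B)
    (X : Obj S A) (hY : Unr Y Q) (hX : Unr X Q) (u : B →+* A)
    (h : ∀ i, (Y.ρ (γ i)).map u = X.ρ (γ i)) (g : GQ) : (Y.ρ g).map u = X.ρ g := by
  have := X.fin
  have := Y.fin
  let f : GQ →* (M2 B)ˣ × (M2 A)ˣ := Y.ρ.toHomUnits.prod X.ρ.toHomUnits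
  have f1 : ∀ g, f g = 1 ↔ Y.ρ g = 1 ∧ X.ρ g = 1 := fun g =>
    Prod.ext_iff.trans (and_congr Units.ext_iff Units.ext_iff)
  have k := hG _ f
    (by
      have e : {g : GQ | f g = 1} = {g | Y.ρ g = 1} ∩ {g | X.ρ g = 1} := Set.ext f1
      rw [e]
      exact Y.opn.inter X.opn)
    (fun g hg => by
      obtain ⟨a, ha⟩ := Repo.obj_two Y g hg
      obtain ⟨b, hb⟩ := Repo.obj_two X g hg
      refine ⟨a + b, ?_⟩
      rw [← map_pow, f1, map_pow, map_pow]
      exact ⟨by rw [pow_add, pow_mul, ha, one_pow], by rw [pow_add, mul_comm, pow_mul, hb, one_pow]⟩)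
    (fun l a b c P d e s k => (f1 s).2 ⟨hY l a b c P d e s k, hX l a b c P d e s k⟩) g
  let p : (M2 B)ˣ × (M2 A)ˣ →* (M2 A)ˣ :=
    (Units.map u.mapMatrix.toMonoidHom).comp (MonoidHom.fst _ _)
  have k2 : Subgroup.closure (Set.range fun i => f (γ i)) ≤ p.eqLocus (MonoidHom.snd _ _) := by
    rw [Subgroup.closure_le]
    rintro _ ⟨i, rfl⟩
    exact Units.ext (h i)
  exact congrArg Units.val (k2 k)

end Vale.Agent.P022G.H28T
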