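import Vale.Agent.P022G.Rw.Tanv2

/-!
# P022G, row TANV: the vectors killed by the Jacobian rows are relative tangent vectors
-/

set_option linter.all false

noncomputable section

namespace Vale.Agent.P022G

open NumberField IsLocalRing MvPowerSeries
open Vale.Agent.P022 Vale.Agent.P022G.R Vale.Agent.P022G.Loc Vale.Agent.P022G.H9T
open Vale.Agent.P027M.S (Inert mx)
open Vale.Agent.P022D.Sel (M2)
open Vale.Agent.P022D.Core (PS Coef)
open Vale.Agent.P022E.Loc (Pl)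
open Vale.Agent.P022E.GW (Ov Gn)
open _root_.P022G.Sel (mr TanR TanS tI rd)
open _root_.P022G.Sel.Bas (mh two_q)

theorem df_of {O F : Type} [CommRing O] [IsLocalRing O] [Field F] {S : Dat O F} {L : Pl O}
    (hL : OkG L S) {β : Type} {τ ι' : β → Type} {K : Kx O β τ ι' L.C} {ι : Type}
    (G : Gs S L K.g ι) {V : Type} [CommRing V] [CharP V 2] {t : V} {j : O →+* V}
    {ρ : GQ →* GL (Fin 2) V} {θ : PS O (Sy ι) →+* V} (hc : G.Crv t j ρ θ) {r : ℕ} {q : Fin r → ℕ}
    {τ' : Fin r → GQ} (hq : ∀ i, q i ∉ S.T ∧ ∃ P, Ov (q i) P ∧ Gn (q i) P (τ' i))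
    {θ0 : S0 O τ L ι S.T r →+* V} (hf : Cf K G r j ρ θ0) (N : ℕ) [Finite (V ⧸ tI t N)]
    (hj : ∀ o, S.red o = 0 → j o = 0) {B : Type} [CommRing B] (f : B →+* V ⧸ tI t N) (Y : Obj S B)
    (hk : ∀ x, Y.π x = 0 → Ideal.Quotient.mk (tI t N) t ∣ f x)
    (hU : Unr Y (Finset.univ.image q)) {ψ : S0 O τ L ι S.T r →+* B}
    (hH : Hm Y.ι (v0 K G r Y.ι Y.ρ Y.α Y.β τ') ψ)
    (hψ : ∀ g, f (ψ g) = Ideal.Quotient.mk (tI t N) (θ0 g)) : Df f (rd (tI t N) ρ) Y := by
  let mk : V →+* V ⧸ tI t N := Ideal.Quotient.mk _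
  have tN : mk t ^ N = 0 := by
    rw [← map_pow]
    exact Ideal.Quotient.eq_zero_iff_mem.2 (Ideal.mem_span_singleton_self _)
  have h2 : (2 : V ⧸ tI t N) = 0 := two_q _
  have key : ∀ z x (y : V) (o : O), v0 K G r Y.ι Y.ρ Y.α Y.β τ' z = x - Y.ι o →
      v0 K G r j (fun g => (ρ g : M2 V)) (fun _ => 1) (fun _ => 1) (fun _ => 1) z = y - j o →
      f x = mk y := fun z x y o a b => by
    have c := congrArg f ((hH.x z).trans a)
    rw [hψ, map_sub, ← hH.c, hψ, hf.x, hf.c, b, map_sub] at c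
    exact (sub_left_inj.1 c).symm
  refine ⟨gen_eq h2 tN (G.gen r q τ' hq) (f.mapMatrix.toMonoidHom.comp Y.ρ) (mh (rd (tI t N) ρ))
    ?_ ?_ (fun g hg a b => ?_) (fun g hg a b => ?_) (fun l a b c P d e s i => ⟨?_, ?_⟩)
    fun i => ?_, fun l => ?_⟩
  · refine Subgroup.isOpen_mono (H₁ := Y.ρ.ker) (H₂ := MonoidHom.ker _) (fun g hg => ?_) Y.opn
    rw [MonoidHom.mem_ker, MonoidHom.comp_apply, MonoidHom.mem_ker.1 hg, map_one]
  · refine Subgroup.isOpen_mono (H₁ := (rd (tI t N) ρ).ker) (H₂ := MonoidHom.ker _)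
      (fun g hg => ?_) (hc.lv N).opn
    rw [MonoidHom.mem_ker, mh, MonoidHom.comp_apply, MonoidHom.mem_ker.1 hg, map_one]
  · have e := hk ((Y.ρ g - 1) a b) (by
      have := congrFun (congrFun (Y.res g) a) b
      rw [Matrix.map_apply, mx, hg] at this
      rw [Matrix.sub_apply, map_sub, this, Matrix.one_apply, Units.val_one, Matrix.one_apply,
        apply_ite Y.π, map_one, map_zero, sub_self])
    rw [Matrix.sub_apply, map_sub, Matrix.one_apply, apply_ite f, map_one, map_zero] at e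
    rw [Matrix.sub_apply, Matrix.one_apply]
    exact e
  · have e := map_dvd mk (hc.res g a b)
    have e1 : j (L.r g a b) = (1 : M2 V) a b := by
      have k := congrFun (congrFun (hL.lift g) a) b
      rw [Matrix.map_apply, mx, hg, Units.val_one] at k
      have := hj (L.r g a b - (1 : M2 O) a b) (by
        rw [map_sub, k, Matrix.one_apply, Matrix.one_apply, apply_ite S.red, map_one, map_zero,
          sub_self])
      rw [map_sub, sub_eq_zero] at this
      rw [this, Matrix.one_apply, Matrix.one_apply, apply_ite j, map_one, map_zero]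
    rw [e1, map_sub, Matrix.one_apply, apply_ite mk, map_one, map_zero] at e
    rw [Matrix.sub_apply, Matrix.one_apply]
    exact e
  · rw [MonoidHom.comp_apply, hU l a b c P d e s i, map_one]
  · rw [mh, MonoidHom.comp_apply, (hc.lv N).unr l b P ⟨a, d, e⟩ s i, map_one]
  · have e : mh (rd (tI t N) ρ) (Sum.elim G.γ τ' i) =
        (ρ (Sum.elim G.γ (fun _ => 1) i) : M2 V).map mk := by
      rcases i with i | i
      · rfl
      · obtain ⟨a, P, b, c⟩ := hq i
        rw [Sum.elim_inr, Sum.elim_inr, mh, MonoidHom.comp_apply, (hc.lv N).unr _ a P b _ c.1,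
          map_one, map_one, Units.val_one, Matrix.map_one _ mk.map_zero mk.map_one]
    rw [e]
    ext a b
    fin_cases a <;> fin_cases b
    · exact key (Sum.inr (Sum.inl (Sum.inl i))) _ _ _ rfl rfl
    · exact key (Sum.inr (Sum.inr (Sum.inl (Sum.inl i)))) _ _ _ rfl rfl
    · exact key (Sum.inr (Sum.inr (Sum.inl (Sum.inr i)))) _ _ _ rfl rfl
    · exact key (Sum.inr (Sum.inl (Sum.inr (Sum.inl i)))) _ _ _ rfl rfl
  · by_cases hl : l ∈ S.T
    · ext a b
      have e := key (Sum.inr (Sum.inr (Sum.inr (⟨l, hl⟩, a, b)))) ((Y.α l - 1) a b)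
        (((1 : M2 V) - 1) a b) 0 (by rw [map_zero, sub_zero]; rfl)
        (by rw [map_zero, sub_zero]; rfl)
      rw [sub_self, Matrix.zero_apply, map_zero, Matrix.sub_apply, map_sub, sub_eq_zero,
        Matrix.one_apply, apply_ite f, map_one, map_zero] at e
      rw [Matrix.map_apply, e, Matrix.one_apply]
    · rw [Y.off l hl, Matrix.map_one _ (map_zero _) (map_one _)]

theorem pb_eq {O F R : Type} [CommRing O] [Field F] [CommRing R] {red : O →+* F} {j : O →+* R}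
    {t : R} {I Z : Type} [Fintype Z] (θ : PS O (I ⊕ Z) →+* R) (v w : Z → R)
    (h : ∀ g, t ∣ θ g - j (constantCoeff g)) (g : PS O (I ⊕ Z)) (e : dv θ v g = dv θ w g) :
    pb (red := red) θ v h g = pb θ w h g :=
  (fo red j t).ext _ _ (by rw [pb_f, pb_f]) (by rw [pb_s, pb_s, e]) (by rw [pb_π, pb_π])

section
variable {O F : Type} [CommRing O] [Field F] {S : Dat O F} {L : Pl O} {β : Type} {τ ι' : β → Type}
  (K : Kx O β τ ι' L.C) {ι : Type} (G : Gs S L K.g ι) (r : ℕ) {B : Type} [CommRing B]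
  (τ' : Fin r → GQ)

theorem crd_v0 (Y : Obj S B) (i : Ix τ L) :
    K.crd L S B Y i = v0 K G r Y.ι Y.ρ Y.α Y.β τ' (Sum.inl i) := rfl

theorem v0_inr {Y Y' : Obj S B} (a : Y.ι = Y'.ι) (b : Y.ρ = Y'.ρ) (c : Y.α = Y'.α)
    (z : Rs (ι ⊕ Fin r) S.T) : v0 K G r Y.ι Y.ρ Y.α Y.β τ' (Sum.inr z) =
      v0 K G r Y'.ι Y'.ρ Y'.α Y'.β τ' (Sum.inr z) := by
  unfold v0
  rw [Sum.elim_inr, Sum.elim_inr, a, b, c]

end

theorem tanvC (hR : REPO) (hL : LDET) (hO : COBJ) : TANV := by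
  intro O F _ _ _ hcO _ _ _ ϖ S L X as β τ ι' _ _ _ K ι _ G hϖ hC hK V _ _ _ _ _ _ t j ρ θ ht hc r q
    τ' hq θ0 hf N hfin
  let mk : V →+* V ⧸ tI t N := Ideal.Quotient.mk _
  have hm : maximalIdeal V = Ideal.span {t} :=
    (IsDiscreteValuationRing.irreducible_iff_uniformizer t).1 ht
  haveI : Finite (V ⧸ tI t N) := by
    haveI : Finite (V ⧸ maximalIdeal V) := inferInstanceAs (Finite (ResidueField V))
    have := Ideal.finite_quotient_pow (IsNoetherian.noetherian (maximalIdeal V)) N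
    rwa [hm, Ideal.span_singleton_pow] at this
  have jϖ : j ϖ = 0 := by
    obtain ⟨n, u, hu⟩ := IsDiscreteValuationRing.eq_unit_mul_pow_irreducible hcO.ne hϖ
    have h2 : j 2 = 0 := by
      rw [map_ofNat]
      exact CharTwo.two_eq_zero
    rw [hu, map_mul, map_pow] at h2
    exact IsNilpotent.eq_zero ⟨n, (mul_eq_zero.1 h2).resolve_left (u.isUnit.map j).ne_zero⟩
  have hj : ∀ o, S.red o = 0 → j o = 0 := fun o h => by
    have := (hC.cx.ok.ker o).1 h
    rw [(IsDiscreteValuationRing.irreducible_iff_uniformizer ϖ).1 hϖ,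
      Ideal.mem_span_singleton] at this
    obtain ⟨c, rfl⟩ := this
    rw [map_mul, jϖ, zero_mul]
  have hj' : ∀ o, S.red o = 0 → mk.comp j o = 0 := fun o h => by
    rw [RingHom.comp_apply, hj o h, map_zero]
  have hu : ∀ o, S.red o ≠ 0 → IsUnit o := fun o h => by
    by_contra k
    exact h ((hC.cx.ok.ker o).2 k)
  have tN : mk t ^ N = 0 := by
    rw [← map_pow]
    exact Ideal.Quotient.eq_zero_iff_mem.2 (Ideal.mem_span_singleton_self _)
  have hθV : ∀ g, t ∣ θ0 g - j (constantCoeff g) := fun g => by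
    have := loc_ps θ0 (g - C (constantCoeff g)) (by rw [map_sub, constantCoeff_C, sub_self])
    rwa [hm, Ideal.mem_span_singleton, map_sub, hf.c] at this
  have hθ : ∀ g, mk t ∣ mk.comp θ0 g - mk.comp j (constantCoeff g) := fun g => by
    have := map_dvd mk (hθV g)
    rwa [map_sub] at this
  have fo := fo S.red (mk.comp j) (mk t)
  haveI := bfin S.red (mk.comp j) (mk t)
  have hKn := (hO O F ϖ S L X as β τ ι' K ι G hϖ hC hK V t j ρ θ ht hc).2 r q τ' hq θ0 hf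
  have ex : ∀ v : {v : Rs (ι ⊕ Fin r) S.T → V ⧸ tI t N // ∀ f : Kn K G r q τ',
      ∑ z, Ideal.Quotient.mk (tI t N) (θ0 (pderiv O (Sum.inr z) f.1)) * v z = 0},
      ∃ Y : Obj S (BB S.red (mk.comp j) (mk t)), Y.π = bπ S.red (mk.comp j) (mk t) ∧
        Ty (ClG L S) (Finset.univ.image q) _ Y ∧
        Hm Y.ι (v0 K G r Y.ι Y.ρ Y.α Y.β τ') (pb (mk.comp θ0) v.1 hθ) := fun v =>
    hR O F ϖ S L X as β τ ι' K ι G hϖ hC hK r q τ' hq _ (bπ S.red (mk.comp j) (mk t))
      (pb (mk.comp θ0) v.1 hθ) (bloc hu ⟨N, tN⟩) (pb_π _ _ hθ) fun g hg => by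
        have a : θ0 g = 0 := hKn hg
        refine fo.ext _ 0 ?_ ?_ ?_
        · rw [pb_f, map_zero, RingHom.comp_apply, a, map_zero]
        · rw [pb_s, map_zero]
          exact v.2 ⟨g, hg⟩
        · rw [pb_π, map_zero]
          by_contra k
          have b := hθV g
          rw [a, zero_sub, dvd_neg] at b
          exact ht.not_isUnit (isUnit_of_dvd_unit b ((hu _ k).map j))
  choose Y hπ hT hH using ex
  have hι : ∀ v w, (Y v).ι = (Y w).ι := fun v w => RingHom.ext fun o => by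
    rw [← (hH v).c, ← (hH w).c]
    exact pb_eq _ _ _ _ _ (by rw [dv_C, dv_C])
  have hcrd : ∀ v w, K.crd L S _ (Y v) = K.crd L S _ (Y w) := fun v w => funext fun i => by
    rw [crd_v0 K G r τ', crd_v0 K G r τ', ← (hH v).x, ← (hH w).x]
    exact pb_eq _ _ _ _ _ (by rw [dv_inl, dv_inl])
  have hD : ∀ v, Df (bf S.red (mk.comp j) (mk t)) (rd (tI t N) ρ) (Y v) := fun v =>
    df_of hC.cx.ok G hc hq hf N hj _ (Y v) (fun x hx => bker hj' x (by rw [← hπ v]; exact hx))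
      (hT v).2 (hH v) fun g => pb_f _ _ hθ g
  let v₀ : {v : Rs (ι ⊕ Fin r) S.T → V ⧸ tI t N // ∀ f : Kn K G r q τ',
      ∑ z, Ideal.Quotient.mk (tI t N) (θ0 (pderiv O (Sum.inr z) f.1)) * v z = 0} :=
    ⟨0, fun f => by simp⟩
  haveI := hfin.to_subtype
  have c4 : Nat.card (M2 (V ⧸ tI t N)) = Nat.card (V ⧸ tI t N) ^ 4 := by
    show Nat.card (Fin 2 → Fin 2 → V ⧸ tI t N) = _
    rw [Nat.card_fun, Nat.card_fun, Nat.card_fin, ← pow_mul]
  rw [← c4, ← Nat.card_prod]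
  refine Nat.card_le_card_of_injective (fun p => ⟨tv (bs S.red (mk.comp j) (mk t))
    (rd (tI t N) ρ) (Y p.1) (Y v₀) p.2, tv_tan fo (hD _) (hD _) (hT _).2 (hT _).2
      (hL O F ϖ S L X as β τ ι' K ι G hϖ hC hK _ _ _ (hT _).1 (hT _).1 (hι _ _)
        ((hπ _).trans (hπ _).symm) (hcrd _ _)) p.2⟩) ?_
  rintro ⟨v, m⟩ ⟨w, m'⟩ e
  obtain ⟨a, b, c⟩ := tv_inj fo (hπ v) (hπ w) (hD v) (hD w) (congrArg Subtype.val e)
  refine Prod.ext (Subtype.ext (funext fun z => ?_)) a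
  show v.1 z = w.1 z
  rw [← dv_inr (mk.comp θ0) v.1 z, ← dv_inr (mk.comp θ0) w.1 z, ← pb_s (red := S.red) _ _ hθ,
    ← pb_s (red := S.red) _ _ hθ, (hH v).x, (hH w).x, v0_inr K G r τ' (hι v w) b c]

end Vale.Agent.P022G
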