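import Vale.Agent.P022G.Rows
import Vale.Agent.P022G.Sel.Bas

/-!
# P022G, row TANV: first order deformations of an object
-/

set_option linter.all false

noncomputable section

namespace Vale.Agent.P022G.H9T

open NumberField
open Vale.Agent.P022 Vale.Agent.P022G.R Vale.Agent.P022G.Loc
open Vale.Agent.P027M.S (Inert mx)
open Vale.Agent.P022D.Sel (M2)
open Vale.Agent.P022E.GW (Ov)
open _root_.P022G.Sel (mr TanR)
open _root_.P022G.Sel.Bas (mm m1 mi mi')

variable {O F R B : Type} [CommRing O] [Field F] [CommRing R] [CommRing B] {S : Dat O F}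

theorem uni_pow (h2 : (2 : R) = 0) (t : R) (C : M2 R) (k : ℕ) :
    (1 + t • C) ^ 2 ^ k = 1 + t ^ 2 ^ k • C ^ 2 ^ k := by
  induction k with
  | zero => simp
  | succ k ih =>
    have e : ∀ D : M2 R, (1 + D) ^ 2 = 1 + D ^ 2 := fun D => by
      have : D + D = 0 := by rw [← two_smul R D, h2, zero_smul]
      calc (1 + D) ^ 2 = 1 + (D + D) + D ^ 2 := by noncomm_ring
        _ = _ := by rw [this, add_zero]
    rw [pow_succ, pow_mul, ih, e, smul_pow, ← pow_mul, ← pow_mul]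

theorem uni_one (h2 : (2 : R) = 0) {t : R} {N : ℕ} (ht : t ^ N = 0) {M : M2 R}
    (h : ∀ a b, t ∣ (M - 1) a b) : M ^ 2 ^ N = 1 := by
  choose c hc using h
  have e : M = 1 + t • Matrix.of c := by
    rw [← sub_eq_iff_eq_add']
    ext a b
    rw [hc]
    rfl
  rw [e, uni_pow h2, pow_eq_zero_of_le (Nat.lt_two_pow_self).le ht, zero_smul, add_zero]

theorem gen_eq [Finite R] (h2 : (2 : R) = 0) {t : R} {N : ℕ} (ht : t ^ N = 0) {Q : Finset ℕ}
    {ι : Type} {γ : ι → GQ} (hG : Gen S Q γ) (f₁ f₂ : GQ →* M2 R)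
    (o₁ : IsOpen {g | f₁ g = 1}) (o₂ : IsOpen {g | f₂ g = 1})
    (u₁ : ∀ g, S.rb g = 1 → ∀ a b, t ∣ (f₁ g - 1) a b)
    (u₂ : ∀ g, S.rb g = 1 → ∀ a b, t ∣ (f₂ g - 1) a b)
    (n : ∀ l : ℕ, l.Prime → l ∉ S.T → l ∉ Q → ∀ P : Ideal (𝓞 Qb), P.IsPrime → (l : 𝓞 Qb) ∈ P →
      ∀ s, Inert P s → f₁ s = 1 ∧ f₂ s = 1)
    (e : ∀ i, f₁ (γ i) = f₂ (γ i)) (g : GQ) : f₁ g = f₂ g := by
  let f : GQ →* (M2 R)ˣ × (M2 R)ˣ := f₁.toHomUnits.prod f₂.toHomUnits
  have k : ∀ g, f g = 1 ↔ f₁ g = 1 ∧ f₂ g = 1 := fun g => by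
    rw [Prod.ext_iff, Units.ext_iff, Units.ext_iff]
    rfl
  have h := hG _ f (by simp only [k]; exact o₁.inter o₂)
    (fun g hg => ⟨N, by
      rw [← map_pow, k, map_pow, map_pow]
      exact ⟨uni_one h2 ht (u₁ g hg), uni_one h2 ht (u₂ g hg)⟩⟩)
    (fun l a b c P d e s i => (k s).2 (n l a b c P d e s i)) g
  have hle : Subgroup.closure (Set.range fun i => f (γ i)) ≤
      (MonoidHom.fst _ _).eqLocus (MonoidHom.snd _ _) := by
    rw [Subgroup.closure_le]
    rintro _ ⟨i, rfl⟩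
    exact Units.ext (e i)
  exact congrArg Units.val (hle h)

/-- a first order structure on `B` over `R` -/
structure Fo (π : B →+* F) (f : B →+* R) (s : B →+ R) : Prop where
  mul : ∀ x y, s (x * y) = f x * s y + s x * f y
  ext : ∀ x y, f x = f y → s x = s y → π x = π y → x = y

variable {π : B →+* F} {f : B →+* R} {s : B →+ R}

theorem Fo.one (h : Fo π f s) : s 1 = 0 := by
  have := h.mul 1 1
  rw [mul_one, f.map_one, one_mul, mul_one] at this
  exact left_eq_add.1 this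

theorem Fo.mone (h : Fo π f s) : (1 : M2 B).map s = 0 := by
  ext a b
  rw [Matrix.map_apply, Matrix.one_apply]
  split_ifs
  · exact h.one
  · exact map_zero s

theorem Fo.mmul (h : Fo π f s) (M N : M2 B) :
    (M * N).map s = M.map f * N.map s + M.map s * N.map f := by
  ext a b
  simp only [Matrix.map_apply, Matrix.mul_apply, Matrix.add_apply, Fin.sum_univ_two, map_add,
    h.mul]
  ring

theorem Fo.mext (h : Fo π f s) {M N : M2 B} (a : M.map f = N.map f) (b : M.map s = N.map s)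
    (c : M.map π = N.map π) : M = N := by
  ext i k
  exact h.ext _ _ (congrFun (congrFun a i) k) (congrFun (congrFun b i) k)
    (congrFun (congrFun c i) k)

/-- `Y` is a deformation of `ρ` with trivial frames -/
structure Df (f : B →+* R) (ρ : GQ →* GL (Fin 2) R) (Y : Obj S B) : Prop where
  r : ∀ g, (Y.ρ g).map f = mr ρ g
  a : ∀ l, (Y.α l).map f = 1

variable {ρ : GQ →* GL (Fin 2) R}

theorem lr_s (h : Fo π f s) {Y : Obj S B} (d : Df f ρ Y) (l : ℕ) (g : GQ) :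
    (lr Y l g).map s = mr ρ g * (Y.α l).map s + (Y.ρ g).map s - (Y.α l).map s * mr ρ g := by
  have b1 : (Y.β l).map f = 1 := by
    have := congrArg (fun M : M2 B => M.map f) (Y.inv l)
    simpa only [Matrix.map_mul, d.a, one_mul, Matrix.map_one f f.map_zero f.map_one] using this
  have b2 : (Y.β l).map s = -(Y.α l).map s := by
    have := h.mmul (Y.α l) (Y.β l)
    rw [Y.inv, h.mone, d.a, b1, one_mul, mul_one] at this
    exact eq_neg_of_add_eq_zero_left this.symm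
  rw [lr_apply, h.mmul, h.mmul, Matrix.map_mul, b1, b2, d.a, d.r]
  noncomm_ring

/-- the tangent vector -/
def tv (s : B →+ R) (ρ : GQ →* GL (Fin 2) R) (Y Y0 : Obj S B) (m : M2 R) :
    (GQ → M2 R) × (ℕ → M2 R) :=
  (fun g => ((Y.ρ g).map s - (Y0.ρ g).map s) * mr ρ g⁻¹ + (m - mr ρ g * m * mr ρ g⁻¹),
    fun l => if l ∈ S.T then (Y.α l).map s - (Y0.α l).map s + m else 0)

theorem tv_tan (h : Fo π f s) {Y Y0 : Obj S B} (d : Df f ρ Y) (d0 : Df f ρ Y0) {Q : Finset ℕ}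
    (u : Unr Y Q) (u0 : Unr Y0 Q) {D : ℕ → Set GQ}
    (hl : ∀ l ∈ S.T, ∀ g ∈ D l, lr Y l g = lr Y0 l g) (m : M2 R) :
    TanR ρ S.T Q D (tv s ρ Y Y0 m).1 (tv s ρ Y Y0 m).2 := by
  have z : ∀ g, Y.ρ g = 1 → Y0.ρ g = 1 → (tv s ρ Y Y0 m).1 g = 0 := fun g a b => by
    have e : mr ρ g = 1 := by rw [← d.r, a, Matrix.map_one f f.map_zero f.map_one]
    have e' : mr ρ g⁻¹ = 1 := by rw [← mi g, e, mul_one]
    simp only [tv]
    rw [a, b, e, e', sub_self, zero_mul, zero_add, one_mul, mul_one, sub_self]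
  refine ⟨fun g k => ?_, ⟨Y.ρ.ker ⊓ Y0.ρ.ker, Y.opn.inter Y0.opn, fun g hg => z g hg.1 hg.2⟩,
    fun l a b P c g e => z g (u l c.1 a b P c.2.1 c.2.2 g e) (u0 l c.1 a b P c.2.1 c.2.2 g e),
    fun l a g hg => ?_, fun l a => if_neg a⟩
  · simp only [tv]
    rw [map_mul, map_mul, h.mmul, h.mmul, d.r, d.r, d0.r, d0.r, mul_inv_rev, mm, mm]
    have e := mi' (ρ := ρ) k
    calc _ = (mr ρ g * ((Y.ρ k).map s - (Y0.ρ k).map s) * mr ρ k⁻¹ * mr ρ g⁻¹ +
          ((Y.ρ g).map s - (Y0.ρ g).map s) * (mr ρ k * mr ρ k⁻¹) * mr ρ g⁻¹) +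
          (m - mr ρ g * mr ρ k * m * (mr ρ k⁻¹ * mr ρ g⁻¹)) := by noncomm_ring
      _ = _ := by rw [e]; noncomm_ring
  · simp only [tv, if_pos a]
    have e := congrArg (fun M : M2 B => M.map s) (hl l a g hg)
    simp only [lr_s h d, lr_s h d0] at e
    have e1 : (Y.ρ g).map s - (Y0.ρ g).map s = ((Y.α l).map s - (Y0.α l).map s) * mr ρ g -
        mr ρ g * ((Y.α l).map s - (Y0.α l).map s) := by
      rw [← sub_eq_zero] at e ⊢
      rw [← e]
      noncomm_ring
    rw [e1, sub_mul, mul_assoc, mi', mul_one]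
    noncomm_ring

theorem tv_inj (h : Fo π f s) {Y Y' Y0 : Obj S B} (p : Y.π = π) (p' : Y'.π = π) (d : Df f ρ Y)
    (d' : Df f ρ Y') {m m' : M2 R} (e : tv s ρ Y Y0 m = tv s ρ Y' Y0 m') :
    m = m' ∧ Y.ρ = Y'.ρ ∧ Y.α = Y'.α := by
  have e1 : ∀ g, (Y.ρ g).map s - (Y'.ρ g).map s = mr ρ g * (m - m') - (m - m') * mr ρ g := by
    intro g
    have a := congrArg (fun M => M * mr ρ g) (congrFun (congrArg Prod.fst e) g)
    simp only [tv, add_mul, sub_mul, mul_assoc, mi, mul_one] at a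
    rw [← sub_eq_zero] at a ⊢
    rw [← a]
    noncomm_ring
  have e2 : ∀ l ∈ S.T, (Y.α l).map s - (Y'.α l).map s = -(m - m') := by
    intro l hl
    have a := congrFun (congrArg Prod.snd e) l
    simp only [tv, if_pos hl] at a
    rw [← sub_eq_zero] at a ⊢
    rw [← a]
    abel
  have hm : m - m' = 0 := by
    have a := e2 S.l0 S.hl0
    have a0 := congrFun (congrFun a 0) 0
    have a1 := congrFun (congrFun a 1) 1
    simp only [Matrix.sub_apply, Matrix.map_apply, Y.fr.1, Y.fr.2, Y'.fr.1, Y'.fr.2, sub_self,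
      Matrix.neg_apply] at a0 a1
    have b := e1 S.g0
    rw [← d.r] at b
    have b0 := congrFun (congrFun b 0) 1
    have b1 := congrFun (congrFun b 1) 0
    simp only [Matrix.sub_apply, Matrix.map_apply, Y.dg.1, Y.dg.2, Y'.dg.1, Y'.dg.2, sub_self,
      Matrix.mul_apply, Fin.sum_univ_two, map_zero, zero_mul, mul_zero, add_zero,
      zero_add] at b0 b1
    have hu : IsUnit (f (Y.ρ S.g0 0 0 - Y.ρ S.g0 1 1)) := by
      refine (Y.loc _ ?_).map f
      have r0 := congrFun (congrFun (Y.res S.g0) 0) 0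
      have r1 := congrFun (congrFun (Y.res S.g0) 1) 1
      rw [Matrix.map_apply] at r0 r1
      rw [map_sub, r0, r1]
      exact sub_ne_zero.2 S.dne
    rw [map_sub] at hu
    ext i k
    fin_cases i <;> fin_cases k
    · exact neg_eq_zero.1 a0.symm
    · exact (hu.mul_right_eq_zero).1 (by
        show _ * (m 0 1 - m' 0 1) = 0
        linear_combination -b0)
    · exact (hu.mul_right_eq_zero).1 (by
        show _ * (m 1 0 - m' 1 0) = 0
        linear_combination b1)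
    · exact neg_eq_zero.1 a1.symm
  refine ⟨sub_eq_zero.1 hm, MonoidHom.ext fun g => h.mext (by rw [d.r, d'.r]) ?_ ?_,
    funext fun l => ?_⟩
  · rw [← sub_eq_zero, e1, hm, mul_zero, zero_mul, sub_self]
  · rw [← p, Y.res, p, ← p', Y'.res]
  · by_cases hl : l ∈ S.T
    · refine h.mext (by rw [d.a, d'.a]) ?_ ?_
      · rw [← sub_eq_zero, e2 l hl, hm, neg_zero]
      · rw [← p, Y.one, p, ← p', Y'.one]
    · rw [Y.off l hl, Y'.off l hl]

end Vale.Agent.P022G.H9T
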