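import Vale.Agent.P022G.Rw.Tanv1

/-!
# P022G, row TANV: the ring of first order deformations and the evaluation maps
-/

set_option linter.all false

noncomputable section

namespace Vale.Agent.P022G.H9T

open IsLocalRing MvPowerSeries TrivSqZeroExt
open Vale.Agent.P022D.Core (PS)

variable {O F R : Type} [CommRing O] [Field F] [CommRing R]

/-- the fibre product -/
def BB (red : O →+* F) (j : O →+* R) (t : R) : Subring (DualNumber R × F) where
  carrier := {p | ∃ o, red o = p.2 ∧ t ∣ p.1.fst - j o}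
  one_mem' := ⟨1, map_one _, by simp⟩
  zero_mem' := ⟨0, map_zero _, by simp⟩
  mul_mem' := by
    rintro p q ⟨a, a1, a2⟩ ⟨b, b1, b2⟩
    refine ⟨a * b, by rw [map_mul, a1, b1]; rfl, ?_⟩
    have : (p * q).1.fst - j (a * b) = (p.1.fst - j a) * q.1.fst + j a * (q.1.fst - j b) := by
      rw [Prod.fst_mul, fst_mul, map_mul]; ring
    rw [this]
    exact dvd_add (a2.mul_right _) (b2.mul_left _)
  add_mem' := by
    rintro p q ⟨a, a1, a2⟩ ⟨b, b1, b2⟩
    refine ⟨a + b, by rw [map_add, a1, b1]; rfl, ?_⟩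
    have : (p + q).1.fst - j (a + b) = (p.1.fst - j a) + (q.1.fst - j b) := by
      rw [Prod.fst_add, fst_add, map_add]; ring
    rw [this]
    exact dvd_add a2 b2
  neg_mem' := by
    rintro p ⟨a, a1, a2⟩
    refine ⟨-a, by rw [map_neg, a1]; rfl, ?_⟩
    have : (-p).1.fst - j (-a) = -(p.1.fst - j a) := by
      rw [Prod.fst_neg, fst_neg, map_neg]; ring
    rw [this]
    exact a2.neg_right

variable (red : O →+* F) (j : O →+* R) (t : R)

def bπ : BB red j t →+* F := (RingHom.snd _ _).comp (BB red j t).subtype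

def bf : BB red j t →+* R :=
  ((fstHom R R R).toRingHom.comp (RingHom.fst _ _)).comp (BB red j t).subtype

def bs : BB red j t →+ R where
  toFun p := p.1.1.snd
  map_zero' := rfl
  map_add' _ _ := rfl

theorem fo : Fo (bπ red j t) (bf red j t) (bs red j t) where
  mul x y := DualNumber.snd_mul x.1.1 y.1.1
  ext x y a b c := Subtype.ext (Prod.ext (TrivSqZeroExt.ext a b) c)

theorem bfin [Finite R] [Finite F] : Finite (BB red j t) := by
  have : Finite (DualNumber R) := inferInstanceAs (Finite (R × R))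
  infer_instance

variable {red j t}

theorem bker (hj : ∀ o, red o = 0 → j o = 0) (x : BB red j t) (hx : bπ red j t x = 0) :
    t ∣ bf red j t x := by
  obtain ⟨o, a, b⟩ := x.2
  rw [hj o (a.trans hx), sub_zero] at b
  exact b

theorem bloc [Finite R] [Finite F] (hu : ∀ o, red o ≠ 0 → IsUnit o) (ht : IsNilpotent t)
    (x : BB red j t) (hx : bπ red j t x ≠ 0) : IsUnit x := by
  haveI := bfin red j t
  obtain ⟨o, a, c, b⟩ := x.2
  have u1 : IsUnit x.1.1.fst := by
    rw [sub_eq_iff_eq_add] at b
    rw [b]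
    exact ((Commute.all t c).isNilpotent_mul_right ht).isUnit_add_right_of_commute
      ((hu o fun h => hx (a.symm.trans h)).map j) (Commute.all _ _)
  have u2 : IsUnit x.1 := Prod.isUnit_iff.2 ⟨isUnit_iff_isUnit_fst.2 u1, IsUnit.mk0 _ hx⟩
  have inj : Function.Injective fun y : BB red j t => x * y := fun y z h =>
    Subtype.ext (u2.mul_left_cancel (congrArg Subtype.val h))
  obtain ⟨y, hy⟩ := Finite.surjective_of_injective inj 1
  exact IsUnit.of_mul_eq_one y hy

section der
variable {I Z : Type} [Fintype Z] (θ : PS O (I ⊕ Z) →+* R) (v : Z → R)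

/-- the derivative in the direction `v` -/
def dv (g : PS O (I ⊕ Z)) : R := ∑ z, θ (pderiv O (Sum.inr z) g) * v z

theorem dv_C (o : O) : dv θ v (C o) = 0 := by simp [dv]

theorem dv_inl (i : I) : dv θ v (X (Sum.inl i)) = 0 :=
  Finset.sum_eq_zero fun z _ => by rw [pderiv_X_of_ne Sum.inl_ne_inr, map_zero, zero_mul]

theorem dv_inr (z : Z) : dv θ v (X (Sum.inr z)) = v z := by
  rw [dv, Finset.sum_eq_single z, pderiv_X_self, map_one, one_mul]
  · intro y _ h
    rw [pderiv_X_of_ne fun e => h (Sum.inr_injective e).symm, map_zero, zero_mul]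
  · intro h
    exact absurd (Finset.mem_univ z) h

/-- the evaluation in the dual numbers -/
def pd : PS O (I ⊕ Z) →+* DualNumber R where
  toFun g := (θ g, dv θ v g)
  map_one' := TrivSqZeroExt.ext θ.map_one (dv_C θ v 1)
  map_zero' := TrivSqZeroExt.ext θ.map_zero (by simp [dv])
  map_add' g h := TrivSqZeroExt.ext (θ.map_add g h) (by
    show dv θ v (g + h) = dv θ v g + dv θ v h
    simp only [dv, map_add, add_mul, Finset.sum_add_distrib])
  map_mul' g h := TrivSqZeroExt.ext (θ.map_mul g h) (by
    refine Eq.trans ?_ (DualNumber.snd_mul (θ g, dv θ v g) (θ h, dv θ v h)).symm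
    show dv θ v (g * h) = θ g * dv θ v h + dv θ v g * θ h
    simp only [dv, Derivation.leibniz, smul_eq_mul, map_add, map_mul, Finset.mul_sum,
      Finset.sum_mul, ← Finset.sum_add_distrib]
    exact Finset.sum_congr rfl fun z _ => by ring)

/-- the evaluation in the fibre product -/
def pb (h : ∀ g, t ∣ θ g - j (constantCoeff g)) : PS O (I ⊕ Z) →+* BB red j t :=
  ((pd θ v).prod (red.comp constantCoeff)).codRestrict _ fun g => ⟨constantCoeff g, rfl, h g⟩

theorem pb_f (h : ∀ g, t ∣ θ g - j (constantCoeff g)) (g : PS O (I ⊕ Z)) :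
    bf red j t (pb θ v h g) = θ g := rfl

theorem pb_s (h : ∀ g, t ∣ θ g - j (constantCoeff g)) (g : PS O (I ⊕ Z)) :
    bs red j t (pb θ v h g) = dv θ v g := rfl

theorem pb_π (h : ∀ g, t ∣ θ g - j (constantCoeff g)) (g : PS O (I ⊕ Z)) :
    bπ red j t (pb θ v h g) = red (constantCoeff g) := rfl

end der

theorem loc_ps {σ V : Type} [CommRing V] [IsLocalRing V] [Finite (ResidueField V)]
    (θ : PS O σ →+* V) (g : PS O σ) (hg : constantCoeff g = 0) : θ g ∈ maximalIdeal V := by
  by_contra h
  have h0 : residue V (θ g) ≠ 0 := fun e => h ((residue_eq_zero_iff _).1 e)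
  obtain ⟨n, hn, e⟩ := (isOfFinOrder_of_finite (Units.mk0 _ h0)).exists_pow_eq_one
  have e1 : residue V (θ g) ^ n = 1 := by
    simpa using congrArg Units.val e
  have u : IsUnit (1 - g ^ n) := by
    rw [isUnit_iff_constantCoeff, map_sub, map_one, map_pow, hg, zero_pow hn.ne', sub_zero]
    exact isUnit_one
  have := ((u.map θ).map (residue V)).ne_zero
  rw [map_sub, map_sub, map_one, map_one, map_pow, map_pow, e1, sub_self] at this
  exact this rfl

end Vale.Agent.P022G.H9T
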