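import Vale.Agent.P022G.Rows
import Vale.Agent.P022G.Crv.Uni
import Vale.Agent.P022D.L2b.Ps

/-!
# P022G, row TRA: comparison of annihilators
-/

set_option linter.all false

open IsLocalRing NumberField MvPowerSeries

noncomputable section

namespace Vale.Agent.P022G.H22

open Vale.Agent.P022 Vale.Agent.P022G.R Vale.Agent.P022G.Loc
open Vale.Agent.P027M.S (Inert mx)
open Vale.Agent.P022D.Core (PS)
open Vale.Agent.P022E.As (Tg cc tt dd yy Gw)
open Vale.Agent.P022E.Loc (Pl)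

variable {O F : Type} [CommRing O] [IsLocalRing O] [Field F] {S : Dat O F} {L : Pl O} {ϖ : O}

/-- approximation by polynomials -/
theorem poly {τ : Type} [Fintype τ] (R : Subring (MvPowerSeries τ O)) (hC : ∀ c, C c ∈ R)
    (hX : ∀ s, X s ∈ R) (n : ℕ) :
    ∀ f : MvPowerSeries τ O, ∃ p ∈ R, f - p ∈ maximalIdeal (MvPowerSeries τ O) ^ n := by
  induction n with
  | zero => exact fun f => ⟨0, R.zero_mem, by simp⟩
  | succ n ih =>
    intro f
    obtain ⟨g, hg, -⟩ := P022D.CA.Cpl.exists_decompV (f - C (constantCoeff f)) (by simp)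
    choose p hp hp' using fun s => ih (g s)
    refine ⟨C (constantCoeff f) + ∑ s, X s * p s,
      R.add_mem (hC _) (R.sum_mem fun s _ => R.mul_mem (hX s) (hp s)), ?_⟩
    rw [← sub_sub, hg, ← Finset.sum_sub_distrib]
    refine Ideal.sum_mem _ fun s _ => ?_
    rw [← mul_sub, pow_succ']
    exact Ideal.mul_mem_mul ((P022D.CA.Cpl.mem_max_iff _).2 (by simp)) (hp' s)

/-- good ideals without the auxiliary primes are good -/
theorem gw_sub [CharP F 2] {X : Finset ℕ} {as : ℕ} (hC : Cx S L X as) {r : ℕ} {a : Ideal (Tg O)}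
    (h : Gw ϖ (subL L X) (S.T \ X) ∅ r a) : Gw ϖ L S.T ∅ r a := by
  refine ⟨h.fin, h.nil0, h.nilt, h.nild, h.nily, h.t1, h.tc, h.tm, h.d1, h.dm, h.opn,
    fun l hl h1 h2 => h.unr l hl (fun h3 => h1 (Finset.mem_sdiff.1 h3).1) h2, h.clt, ?_, h.yz⟩
  rintro g (hg | hg | ⟨l, hl, rfl⟩ | hg)
  · exact h.cld g (Or.inl hg)
  · exact h.cld g (Or.inr (Or.inl hg))
  · by_cases hX : l ∈ X
    · have hp := (hC.ok.pr l hl).1
      have hP := hC.ok.hP l hl
      have hτ := (hC.ok.tm l hl).tau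
      have hτ' := Subgroup.inv_mem _ hτ
      have e1 := hC.unr l hp (Or.inr hX) _ hP.1 hP.2 _ hτ
      have u := fun s (hs : Inert (L.P l) s) g => h.unr l hp
        (fun h3 => (Finset.mem_sdiff.1 h3).2 hX) (Finset.notMem_empty l) _ hP.1 hP.2 s hs g
      have k1 : (dd (L.τ l) - 1) * tt S.g0 ∈ a := by
        have a1 := h.tm S.g0 (L.τ l)
        have a2 := u _ hτ S.g0
        have a3 := u _ hτ' S.g0
        have a4 := u _ hτ 1
        rw [one_mul] at a4
        have e : ((dd (L.τ l) - 1) * tt S.g0 : Tg O) =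
            tt S.g0 * (tt (L.τ l) - tt 1) + tt S.g0 * (tt 1 - 2) -
              (tt S.g0 * tt (L.τ l) - (tt (S.g0 * L.τ l) + dd (L.τ l) * tt (S.g0 * (L.τ l)⁻¹))) -
              (tt (S.g0 * L.τ l) - tt S.g0) - dd (L.τ l) * (tt (S.g0 * (L.τ l)⁻¹) - tt S.g0) := by
          ring
        rw [e]
        exact a.sub_mem (a.sub_mem (a.sub_mem (a.add_mem (a.mul_mem_left _ a4)
          (a.mul_mem_left _ h.t1)) a1) a2) (a.mul_mem_left _ a3)
      have hu : IsUnit (L.r S.g0).trace := by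
        by_contra hn
        have h0 := (hC.ok.ker _).2 hn
        have h1 := hC.ok.lift S.g0
        rw [Matrix.trace_fin_two, map_add] at h0
        have h2 : mx S.rb S.g0 0 0 + mx S.rb S.g0 1 1 = 0 := by
          rw [← h1]
          exact h0
        exact S.dne (by rw [← CharTwo.sub_eq_add] at h2; exact sub_eq_zero.1 h2)
      obtain ⟨k, hk⟩ := h.nilt S.g0
      have hk' : (tt S.g0 - cc (L.r S.g0).trace) ^ k ∈ a := hk
      obtain ⟨w, hw⟩ := sub_dvd_pow_sub_pow (tt S.g0 - cc (L.r S.g0).trace : Tg O)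
        (-cc (L.r S.g0).trace) k
      have hu' : IsUnit ((-cc (L.r S.g0).trace : Tg O) ^ k) :=
        (hu.map (MvPolynomial.C : O →+* Tg O)).neg.pow k
      have k2 : (dd (L.τ l) - 1) * (-cc (L.r S.g0).trace) ^ k ∈ a := by
        have e : ((dd (L.τ l) - 1) * (-cc (L.r S.g0).trace) ^ k : Tg O) =
            (dd (L.τ l) - 1) * (tt S.g0 - cc (L.r S.g0).trace) ^ k -
              (dd (L.τ l) - 1) * tt S.g0 * w := by
          linear_combination (-(dd (L.τ l) - 1)) * hw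
        rw [e]
        exact a.sub_mem (a.mul_mem_left _ hk') (a.mul_mem_right _ k1)
      rw [e1, Matrix.det_one, show (cc (1 : O) : Tg O) = 1 from map_one MvPolynomial.C]
      exact (Ideal.mul_unit_mem_iff_mem a hu').1 k2
    · refine h.cld _ (Or.inr (Or.inr (Or.inl ⟨l, ?_, rfl⟩)))
      rcases Finset.mem_union.1 hl with h1 | h1
      · exact Finset.mem_union_left _ h1
      · exact Finset.mem_union_right _ (Finset.mem_sdiff.2 ⟨h1, hX⟩)
  · exact h.cld g (Or.inr (Or.inr (Or.inr hg)))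

variable {ι : Type} [Fintype ι]

/-- the evaluation at a pseudo object exists -/
theorem ex_hm (ok : OkG L S) {B : Type} [CommRing B] (Z : PO S B) (γ : ι → GQ) :
    ∃ ψ : PS O (Sy ι) →+* B, Hm Z.ι (Z.val (fun i => L.r (γ i)) γ) ψ := by
  have := Z.fin
  obtain ⟨k, hk⟩ := P022D.R.ker_nil Z.π Z.loc
  have l : ∀ g a b, S.red (L.r g a b) = mx S.rb g a b := fun g a b => by
    rw [← ok.lift g]
    rfl
  have n : ∀ s, Z.π (Z.val (fun i => L.r (γ i)) γ s) = 0 := by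
    rintro (i | i | p)
    · show Z.π (Z.a _ - Z.ι _) = 0
      rw [map_sub, Z.ra, Z.alg, l, sub_self]
    · show Z.π (Z.b _ - Z.ι _) = 0
      rw [map_sub, Z.rb, Z.alg, l, sub_self]
    · show Z.π (Z.x _ _ - Z.ι _) = 0
      rw [map_sub, Z.rx, Z.alg, map_mul, l, l, sub_self]
  letI := Z.ι.toAlgebra
  obtain ⟨φ, hφ⟩ := P022D.L2b.exists_ev (O := O) (Z.val (fun i => L.r (γ i)) γ) fun s =>
    ⟨k, by rw [← Ideal.mem_bot, ← hk]; exact Ideal.pow_mem_pow (n s) k⟩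
  exact ⟨φ, fun o => φ.commutes o, hφ⟩

/-- on polynomials the evaluation is given by the symbols -/
theorem hm_poly {B : Type} [CommRing B] {Z : PO S B} {u : Tg O →+* B} (hu : Z.Std u)
    (hP : (∀ g, u (aT S L g) = Z.a g ∧ u (dT S L g) = Z.b g) ∧ ∀ g h, u (xT S L g h) = Z.x g h)
    {rc : ι → P022D.Sel.M2 O} {γ : ι → GQ} {ψ : PS O (Sy ι) →+* B} (h : Hm Z.ι (Z.val rc γ) ψ)
    (p : MvPolynomial (Sy ι) O) :
    ψ (MvPolynomial.eval₂Hom C X p) = u (MvPolynomial.eval₂Hom MvPolynomial.C (vT S L rc γ) p) := by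
  have e : ψ.comp (MvPolynomial.eval₂Hom C X) =
      u.comp (MvPolynomial.eval₂Hom MvPolynomial.C (vT S L rc γ)) := by
    refine MvPolynomial.ringHom_ext (fun o => ?_) fun s => ?_
    · rw [RingHom.comp_apply, RingHom.comp_apply, MvPolynomial.eval₂Hom_C, MvPolynomial.eval₂Hom_C,
        h.c]
      exact (hu.c o).symm
    · rw [RingHom.comp_apply, RingHom.comp_apply, MvPolynomial.eval₂Hom_X', MvPolynomial.eval₂Hom_X',
        h.x]
      rcases s with i | i | p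
      · show Z.a _ - Z.ι _ = u (aT S L _ - cc _)
        rw [map_sub, (hP.1 _).1, hu.c]
      · show Z.b _ - Z.ι _ = u (dT S L _ - cc _)
        rw [map_sub, (hP.1 _).2, hu.c]
      · show Z.x _ _ - Z.ι _ = u (xT S L _ _ - cc _)
        rw [map_sub, hP.2, hu.c]
  exact DFunLike.congr_fun e p

/-- **TRA** -/
theorem traC (hW : GPW) (hV : POV) : TRA := by
  intro O F _ _ _ _ _ _ _ ϖ S L X0 as β τ ι' _ _ _ K ι _ G hϖ hC hK Y Y' _ _ _ _ _ hY' hT f hf
  rintro B _ j v ψ ⟨w, Z, u, hu, hker, rfl, rfl⟩ hψ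
  have W := hW O F ϖ S L X0 as β τ ι' K ι G hϖ hC hK
  have V := hV O F ϖ S L X0 as β τ ι' K ι G hϖ hC hK
  obtain ⟨s, hs⟩ := hT w
  have key : ∀ y : Y', ∃ k : ℕ, ∀ p : MvPolynomial (Sy ι) O,
      f - MvPolynomial.eval₂Hom C X p ∈ maximalIdeal (PS O (Sy ι)) ^ k →
      MvPolynomial.eval₂Hom MvPolynomial.C (vT S L G.rc G.γ) p • y = 0 := by
    intro y
    by_cases h0 : Ideal.torsionOf (Tg O) Y' y = ⊤
    · exact ⟨0, fun p _ => (Ideal.mem_torsionOf_iff _ _).1 (h0 ▸ Submodule.mem_top)⟩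
    obtain ⟨Z', s1, -⟩ := W ∅ 0 _ h0 (gw_sub hC.cx (hY' y))
    obtain ⟨ψ', h'⟩ := ex_hm hC.cx.ok Z' G.γ
    obtain ⟨k, hk⟩ := Crv.hm_nil Z' h'
    refine ⟨k, fun p hp => (Ideal.mem_torsionOf_iff _ _).1 ?_⟩
    have e1 : ψ' f = 0 := hf _ _ _ ψ' ⟨y, Z', _, s1, Ideal.mk_ker, rfl, rfl⟩ h'
    have e2 := hk _ hp
    rw [map_sub, e1, zero_sub, neg_eq_zero, hm_poly s1 (V _ Z' _ s1) h'] at e2
    exact Ideal.Quotient.eq_zero_iff_mem.1 e2
  choose k hk using key
  obtain ⟨k0, hk0⟩ := Crv.hm_nil Z hψ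
  obtain ⟨_, ⟨p, rfl⟩, hp⟩ := poly
    (MvPolynomial.eval₂Hom (C : O →+* PS O (Sy ι)) X).range
    (fun c => ⟨MvPolynomial.C c, MvPolynomial.eval₂Hom_C _ _ c⟩)
    (fun s => ⟨MvPolynomial.X s, MvPolynomial.eval₂Hom_X' _ _ s⟩) (k0 + s.sup k) f
  have e1 := hk0 _ (Ideal.pow_le_pow_right (Nat.le_add_right _ _) hp)
  have e2 := hs _ fun y hy => hk y p
    (Ideal.pow_le_pow_right ((Finset.le_sup hy).trans (Nat.le_add_left _ _)) hp)
  rw [map_sub, sub_eq_zero, hm_poly hu (V _ Z _ hu) hψ] at e1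
  rw [e1, ← RingHom.mem_ker, hker]
  exact (Ideal.mem_torsionOf_iff _ _).2 e2

end Vale.Agent.P022G.H22
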